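import Crest.Agent.R132.Defs

/-!
# Blueprint for row 132 (never imported; statements of the task lemmas, all `sorry`)

Each lemma below is to be proved, with the SAME name and statement, in the namespace named in
its section header (drop the `Blueprint` part), in the file named there.
-/

open Metric Set
open scoped ComplexOrder ComplexConjugate
open Crest.AnalysisR.NumRange

namespace Crest.Agent.R132.Blueprint

/-! ## Task RMT.  Files `Crest/Agent/Lib/RMT/*.lean`, namespace `Crest.Agent.Lib.RMT`. -/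

/-- file `Lib/RMT/Inverse.lean` -/
theorem deriv_ne_zero_of_injOn {U : Set ℂ} (hU : IsOpen U) {f : ℂ → ℂ}
    (hf : DifferentiableOn ℂ f U) (hinj : InjOn f U) {z : ℂ} (hz : z ∈ U) : deriv f z ≠ 0 := by
  sorry

/-- file `Lib/RMT/Inverse.lean` -/
theorem exists_holomorphic_inverse {U : Set ℂ} (hU : IsOpen U) {f : ℂ → ℂ}
    (hf : DifferentiableOn ℂ f U) (hinj : InjOn f U) :
    IsOpen (f '' U) ∧ ∃ g : ℂ → ℂ, DifferentiableOn ℂ g (f '' U) ∧ ∀ z ∈ U, g (f z) = z := by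
  sorry

/-- file `Lib/RMT/Main.lean` -/
theorem riemann_mapping {U : Set ℂ} (hUo : IsOpen U) (hUc : IsSimplyConnected U) (hU : U ≠ univ)
    {z₀ : ℂ} (hz₀ : z₀ ∈ U) :
    ∃ f : ℂ → ℂ, DifferentiableOn ℂ f U ∧ InjOn f U ∧ f '' U = ball 0 1 ∧ f z₀ = 0 := by
  sorry

/-! ## Task ExtMap.  File `R132/ExtMap.lean`, namespace `Crest.Agent.R132`. -/

theorem exists_extData {K Ω : Set ℂ} (hKc : IsCompact K) (hKv : Convex ℝ K) (hKn : K.Nonempty)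
    (hΩ : IsOpen Ω) (hKΩ : K ⊆ Ω) :
    ∃ (E : ℂ → ℂ) (R : ℝ), ExtData E R ∧
      (∀ z ∈ K, ∀ a ∈ ball (0 : ℂ) R, E a ≠ a * z) ∧
      (∀ z ∈ K, ∀ a : ℂ, ‖a‖ = 1 → 0 ≤ (conj (nu E a) * (E a - a * z)).re) ∧
      (∀ b : ℂ, ‖b‖ = 1 → E b / b ∈ Ω) := by
  sorry

/-! ## Task Toeplitz.  File `R132/Toeplitz.lean`, namespace `Crest.Agent.R132`. -/

theorem convex_nr {H : Type*} [NormedAddCommGroup H] [InnerProductSpace ℂ H] (A : H →L[ℂ] H) :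
    Convex ℝ (nr A) := by
  sorry

theorem isCompact_nr {H : Type*} [NormedAddCommGroup H] [InnerProductSpace ℂ H]
    [FiniteDimensional ℂ H] (A : H →L[ℂ] H) : IsCompact (nr A) := by
  sorry

/-- Reduction of S0179 to the finite dimensional theorem on open convex neighbourhoods. -/
theorem s0179_of_findim.{u}
    (hfin : ∀ (H : Type u) [NormedAddCommGroup H] [InnerProductSpace ℂ H] [FiniteDimensional ℂ H]
      (A : H →L[ℂ] H) (Ω : Set ℂ), IsOpen Ω → Convex ℝ Ω → nr A ⊆ Ω →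
      ∀ (m d : ℕ) (B : Fin (d + 1) → Matrix (Fin m) (Fin m) ℂ) (M : ℝ),
      (∀ z ∈ Ω, ‖Matrix.toEuclideanCLM (n := Fin m) (𝕜 := ℂ)
          (∑ k : Fin (d + 1), z ^ (k : ℕ) • B k)‖ ≤ M) →
      ∀ v : PiLp 2 (fun _ : Fin m => H),
        ‖(WithLp.toLp 2 (fun i : Fin m => ∑ j : Fin m, ∑ k : Fin (d + 1),
          B k i j • (A ^ (k : ℕ)) (v j)) : PiLp 2 (fun _ : Fin m => H))‖ ≤ 2 * M * ‖v‖)
    {H : Type u} [NormedAddCommGroup H] [InnerProductSpace ℂ H] [CompleteSpace H]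
    (A : H →L[ℂ] H) (m d : ℕ) (B : Fin (d + 1) → Matrix (Fin m) (Fin m) ℂ) (M : ℝ)
    (hM : ∀ x : H, ‖x‖ = 1 →
      ‖Matrix.toEuclideanCLM (n := Fin m) (𝕜 := ℂ)
          (∑ k : Fin (d + 1), (inner ℂ x (A x)) ^ (k : ℕ) • B k)‖ ≤ M)
    (v : PiLp 2 (fun _ : Fin m => H)) :
    ‖(WithLp.toLp 2 (fun i : Fin m => ∑ j : Fin m, ∑ k : Fin (d + 1), B k i j • (A ^ (k : ℕ)) (v j))
        : PiLp 2 (fun _ : Fin m => H))‖ ≤ 2 * M * ‖v‖ := by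
  sorry

/-! ## Task SDP.  File `R132/SDP.lean`, namespace `Crest.Agent.R132`. -/

theorem strictlyFeasible_of_completeBound {n : ℕ} (T : Matrix (Fin n) (Fin n) ℂ) (r C : ℝ)
    (hr0 : 0 ≤ r) (hr : r < 1)
    (hT : CompleteBound (Matrix.toEuclideanCLM (n := Fin n) (𝕜 := ℂ) T) n r C)
    (τ : ℝ) (hτ : C ^ 2 < τ) : ∃ H, MetricStrictlyFeasible T H τ := by
  sorry

theorem exists_optimal_of_strictlyFeasible {n : ℕ} (hn : 1 ≤ n) (T : Matrix (Fin n) (Fin n) ℂ)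
    (c : ℝ) (h : ∀ τ : ℝ, c < τ → ∃ H, MetricStrictlyFeasible T H τ) :
    ∃ (H : Matrix (Fin n) (Fin n) ℂ) (κsq : ℝ), IsOptimalMetric T H κsq ∧ 1 ≤ κsq ∧ κsq ≤ c := by
  sorry

/-! ## Task HolFC.  File `R132/HolFC.lean`, namespace `Crest.Agent.R132`. -/

theorem spectrum_subset_numRange {n : ℕ} (A : Matrix (Fin n) (Fin n) ℂ) :
    spectrum ℂ A ⊆ numRange A := by
  sorry

theorem nr_toEuclideanCLM {n : ℕ} (A : Matrix (Fin n) (Fin n) ℂ) :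
    nr (Matrix.toEuclideanCLM (n := Fin n) (𝕜 := ℂ) A) = numRange A := by
  sorry

theorem rep_of_agrees {n : ℕ} (A : Matrix (Fin n) (Fin n) ℂ) {Ω : Set ℂ} (hΩ : IsOpen Ω)
    (hA : spectrum ℂ A ⊆ Ω) {h : ℂ → ℂ} (hh : DifferentiableOn ℂ h Ω) {q : Polynomial ℂ}
    (hq : AgreesOnSpectrum A h q) : Rep Ω A.charpoly h q := by
  sorry

theorem exists_rep {Ω : Set ℂ} (hΩ : IsOpen Ω) {χ : Polynomial ℂ} (hχ : χ ≠ 0) {h : ℂ → ℂ}
    (hh : DifferentiableOn ℂ h Ω) : ∃ q, Rep Ω χ h q := by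
  sorry

theorem Rep.dvd_sub {Ω : Set ℂ} (hΩ : IsOpen Ω) {χ : Polynomial ℂ} (hχ : χ ≠ 0)
    (hroots : ∀ z, χ.IsRoot z → z ∈ Ω) {h : ℂ → ℂ} {q₁ q₂ : Polynomial ℂ}
    (h₁ : Rep Ω χ h q₁) (h₂ : Rep Ω χ h q₂) : χ ∣ q₁ - q₂ := by
  sorry

theorem Rep.comp_poly {Ω : Set ℂ} {χ : Polynomial ℂ} {f : ℂ → ℂ} {p : Polynomial ℂ}
    (hp : Rep Ω χ f p) (s : Polynomial ℂ) : Rep Ω χ (fun z => s.eval (f z)) (s.comp p) := by
  sorry

end Crest.Agent.R132.Blueprint
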