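import Crest.Agent.R132.Defs

/-!
Normalised arc-length measure on the unit circle, mean value property and exactness.
Owner: helper38.
-/

open Metric Set MeasureTheory
open scoped ComplexConjugate Real

namespace Crest.Agent.R132

/-- The unit circle. -/
abbrev Sph : Type := Metric.sphere (0 : ℂ) 1

lemma Sph.norm_eq (b : Sph) : ‖(b : ℂ)‖ = 1 := by
  exact mem_sphere_zero_iff_norm.1 b.2

lemma Sph.ne_zero (b : Sph) : (b : ℂ) ≠ 0 := by
  intro h
  have := b.norm_eq
  rw [h] at this
  simp at this

lemma Sph.mem_ball (b : Sph) {R : ℝ} (hR : 1 < R) : (b : ℂ) ∈ ball (0 : ℂ) R := by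
  simp [b.norm_eq, hR]

lemma Sph.conj_mul (b : Sph) : conj (b : ℂ) * b = 1 := by
  rw [Complex.conj_mul', b.norm_eq]; simp

lemma Sph.conj_eq (b : Sph) : conj (b : ℂ) = (b : ℂ)⁻¹ :=
  eq_inv_of_mul_eq_one_left b.conj_mul

/-- Parametrisation of the circle. -/
noncomputable def sphMap (θ : ℝ) : Sph := ⟨circleMap 0 1 θ, circleMap_mem_sphere 0 zero_le_one θ⟩

lemma continuous_sphMap : Continuous sphMap :=
  Continuous.subtype_mk (continuous_circleMap 0 1) _

/-- Normalised arc-length measure. -/
noncomputable def μc : Measure Sph :=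
  ENNReal.ofReal (2 * π)⁻¹ • (volume.restrict (Ioc (0 : ℝ) (2 * π))).map sphMap

instance : IsProbabilityMeasure μc := by
  constructor
  rw [μc, Measure.smul_apply, Measure.map_apply continuous_sphMap.measurable MeasurableSet.univ]
  simp only [preimage_univ, MeasurableSet.univ, Measure.restrict_apply, univ_inter,
    Real.volume_Ioc, sub_zero, smul_eq_mul]
  rw [← ENNReal.ofReal_mul (by positivity), inv_mul_cancel₀ (by positivity)]
  simp

lemma integrable_μc {F : Type*} [NormedAddCommGroup F] {f : Sph → F} (hf : Continuous f) :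
    Integrable f μc :=
  hf.integrable_of_hasCompactSupport (HasCompactSupport.of_compactSpace f)

lemma integrable_μc_prod {F : Type*} [NormedAddCommGroup F] {f : Sph × Sph → F}
    (hf : Continuous f) : Integrable f (μc.prod μc) :=
  hf.integrable_of_hasCompactSupport (HasCompactSupport.of_compactSpace f)

lemma integral_μc_swap {F : Type*} [NormedAddCommGroup F] [NormedSpace ℝ F]
    {f : Sph → Sph → F} (hf : Continuous (Function.uncurry f)) :
    ∫ a, ∫ b, f a b ∂μc ∂μc = ∫ b, ∫ a, f a b ∂μc ∂μc :=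
  integral_integral_swap (integrable_μc_prod hf)

lemma continuous_integral_μc {X F : Type*} [TopologicalSpace X] [FirstCountableTopology X]
    [LocallyCompactSpace X] [NormedAddCommGroup F] [NormedSpace ℝ F]
    {f : X → Sph → F} (hf : Continuous (Function.uncurry f)) :
    Continuous (fun x => ∫ b, f x b ∂μc) := by
  have := continuous_parametric_integral_of_continuous (μ := μc) hf (isCompact_univ (X := Sph))
  simpa using this

lemma integral_μc_eq {F : Type*} [NormedAddCommGroup F] [NormedSpace ℝ F] {f : Sph → F}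
    (hf : Continuous f) :
    ∫ b, f b ∂μc = (2 * π)⁻¹ • ∫ θ in (0 : ℝ)..2 * π, f (sphMap θ) := by
  rw [μc, integral_smul_measure, integral_map continuous_sphMap.measurable.aemeasurable
    hf.aestronglyMeasurable, intervalIntegral.integral_of_le (by positivity),
    ENNReal.toReal_ofReal (by positivity)]

lemma continuous_sph_of_continuousOn {F : Type*} [TopologicalSpace F] {f : ℂ → F}
    (hf : ContinuousOn f (sphere (0 : ℂ) 1)) : Continuous (fun b : Sph => f b) :=
  hf.domRestrict

lemma continuous_sph_of_ball {F : Type*} [TopologicalSpace F] {f : ℂ → F} {R : ℝ} (hR : 1 < R)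
    (hf : ContinuousOn f (ball (0 : ℂ) R)) : Continuous (fun b : Sph => f b) :=
  continuous_sph_of_continuousOn (hf.mono (fun z hz => Sph.mem_ball ⟨z, hz⟩ hR))

/-- Mean value property. -/
lemma integral_μc_of_differentiableOn {F : Type*} [NormedAddCommGroup F] [NormedSpace ℂ F]
    [CompleteSpace F] {f : ℂ → F} {R : ℝ} (hR : 1 < R) (hf : DifferentiableOn ℂ f (ball 0 R)) :
    ∫ b : Sph, f b ∂μc = f 0 := by
  rw [integral_μc_eq (continuous_sph_of_ball hR hf.continuousOn)]
  have h1 : DiffContOnCl ℂ f (ball 0 |(1 : ℝ)|) := by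
    apply DifferentiableOn.diffContOnCl
    rw [abs_one, closure_ball 0 one_ne_zero]
    exact hf.mono (closedBall_subset_ball hR)
  exact h1.circleAverage

lemma hasDerivAt_Gamma {E : ℂ → ℂ} {R : ℝ} (hE : DifferentiableOn ℂ E (ball 0 R)) {b : ℂ}
    (hb : b ∈ ball (0 : ℂ) R) (hb0 : b ≠ 0) :
    HasDerivAt (fun z => E z / z) (-(nu E b) / b ^ 2) b := by
  have h1 : HasDerivAt E (deriv E b) b :=
    (hE.differentiableAt (isOpen_ball.mem_nhds hb)).hasDerivAt
  have h2 := h1.div (hasDerivAt_id b) hb0
  have h3 : -(nu E b) / b ^ 2 = (deriv E b * id b - E b * 1) / id b ^ 2 := by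
    simp only [nu, id]
    ring
  rw [h3]
  exact h2

lemma differentiableOn_nu {E : ℂ → ℂ} {R : ℝ} (hE : DifferentiableOn ℂ E (ball 0 R)) :
    DifferentiableOn ℂ (nu E) (ball 0 R) :=
  hE.sub (differentiableOn_id.mul (hE.deriv isOpen_ball))

/-- Cauchy's theorem along the curve `Γ b = E b / b` in a convex open set. -/
lemma integral_μc_exact {E : ℂ → ℂ} {R : ℝ} (hR : 1 < R) (hE : DifferentiableOn ℂ E (ball 0 R))
    {Ω : Set ℂ} (hΩo : IsOpen Ω) (hΩc : Convex ℝ Ω) (hΓ : ∀ b : ℂ, ‖b‖ = 1 → E b / b ∈ Ω)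
    {h : ℂ → ℂ} (hh : DifferentiableOn ℂ h Ω) :
    ∫ b : Sph, h (E b / b) * (nu E b / b) ∂μc = 0 := by
  obtain ⟨g, hg⟩ := hΩc.exists_forall_hasDerivWithinAt hh
  have hcE : Continuous (fun b : Sph => E b) := continuous_sph_of_ball hR hE.continuousOn
  have hcn : Continuous (fun b : Sph => nu E b) :=
    continuous_sph_of_ball hR (differentiableOn_nu hE).continuousOn
  have hcΓ : Continuous (fun b : Sph => E b / b) :=
    hcE.div continuous_subtype_val (fun b => b.ne_zero)
  have hc : Continuous (fun b : Sph => h (E b / b) * (nu E b / b)) :=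
    (hh.continuousOn.comp_continuous hcΓ (fun b => hΓ b b.norm_eq)).mul
      (hcn.div continuous_subtype_val (fun b => b.ne_zero))
  rw [integral_μc_eq hc]
  have hder : ∀ θ ∈ uIcc (0 : ℝ) (2 * π),
      HasDerivAt (fun θ : ℝ => Complex.I * g (E (circleMap 0 1 θ) / circleMap 0 1 θ))
        (h (E (sphMap θ) / sphMap θ) * (nu E (sphMap θ) / sphMap θ)) θ := by
    intro θ _
    have hb := (sphMap θ).mem_ball hR
    have hb0 := (sphMap θ).ne_zero
    have h1 := hasDerivAt_Gamma hE hb hb0
    have h2 : HasDerivAt g (h (E (sphMap θ) / sphMap θ)) (E (sphMap θ) / sphMap θ) :=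
      (hg _ (hΓ _ (sphMap θ).norm_eq)).hasDerivAt (hΩo.mem_nhds (hΓ _ (sphMap θ).norm_eq))
    have h3 := HasDerivAt.comp (h₂ := g) (h := fun z => E z / z) (sphMap θ : ℂ) h2 h1
    have h4 := h3.scomp θ (hasDerivAt_circleMap 0 1 θ)
    have h5 := h4.const_mul Complex.I
    refine h5.congr_deriv ?_
    have : (sphMap θ : ℂ) = circleMap 0 1 θ := rfl
    rw [← this]
    simp only [smul_eq_mul]
    field_simp
    rw [Complex.I_sq]
    ring
  rw [intervalIntegral.integral_eq_sub_of_hasDerivAt hder
    ((hc.comp continuous_sphMap).intervalIntegrable _ _)]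
  have : circleMap 0 1 (2 * π) = circleMap 0 1 0 := by
    have := periodic_circleMap 0 1 0
    simpa using this
  rw [this]
  simp

end Crest.Agent.R132
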