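import Crest.Agent.R132.Defs

/-!
Linear algebra lemmas for the core estimate.  Owner: helper38.
-/

open Matrix
open scoped ComplexConjugate ComplexOrder InnerProductSpace

namespace Crest.Agent.R132

lemma gram_ineq {ι : Type*} [Fintype ι] (G : Matrix (ι ⊕ ι) (ι ⊕ ι) ℂ) (hG : G.PosSemidef) :
    2 * ∑ i, ∑ j, ‖G (Sum.inl i) (Sum.inr j)‖ ^ 2 ≤
      ∑ i, ∑ j, ‖G (Sum.inl i) (Sum.inl j)‖ ^ 2 + ∑ i, ∑ j, ‖G (Sum.inr i) (Sum.inr j)‖ ^ 2 := by
  have h1 := (hG.hadamard hG.transpose).dotProduct_mulVec_nonneg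
    (Sum.elim (fun _ => (1 : ℂ)) (fun _ => -1))
  have hsymm : ∀ s t, G t s = conj (G s t) := by
    intro s t
    have := hG.isHermitian.apply t s
    rw [← this]
    rfl
  have h2 : ∀ s t, (G ⊙ Gᵀ) s t = ((‖G s t‖ ^ 2 : ℝ) : ℂ) := by
    intro s t
    rw [hadamard_apply, transpose_apply, hsymm s t, Complex.mul_conj']
    push_cast
    rfl
  have h3 : ∀ i j, ‖G (Sum.inr i) (Sum.inl j)‖ = ‖G (Sum.inl j) (Sum.inr i)‖ := by
    intro i j
    rw [hsymm, Complex.norm_conj]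
  simp only [dotProduct, mulVec, Fintype.sum_sum_type, Pi.star_apply, Sum.elim_inl, Sum.elim_inr,
    star_one, star_neg, h2, h3, mul_one, one_mul, mul_neg, neg_mul, Finset.sum_neg_distrib,
    Finset.sum_add_distrib, neg_add, neg_neg] at h1
  have h4 : ∑ i, ∑ j, ((‖G (Sum.inl j) (Sum.inr i)‖ ^ 2 : ℝ) : ℂ) =
      ∑ i, ∑ j, ((‖G (Sum.inl i) (Sum.inr j)‖ ^ 2 : ℝ) : ℂ) := Finset.sum_comm
  rw [h4] at h1
  have h5 := (Complex.le_def.1 h1).1
  simp only [Complex.zero_re, Complex.add_re, Complex.neg_re, Complex.re_sum,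
    Complex.ofReal_re] at h5
  linarith

variable {H : Type*} [NormedAddCommGroup H] [InnerProductSpace ℂ H]

lemma gram_posSemidef {ι : Type*} [Fintype ι] (R : H →L[ℂ] H)
    (hR : ∀ w, 0 ≤ (⟪w, R w⟫_ℂ).re) (z : ι → H) :
    (Matrix.of fun s t => conj ⟪z t, R (z s)⟫_ℂ + ⟪z s, R (z t)⟫_ℂ).PosSemidef := by
  apply PosSemidef.of_dotProduct_mulVec_nonneg
  · ext s t
    simp [conjTranspose_apply, add_comm]
  · intro c
    have h1 : star c ⬝ᵥ (Matrix.of fun s t => conj ⟪z t, R (z s)⟫_ℂ + ⟪z s, R (z t)⟫_ℂ) *ᵥ c =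
        conj ⟪∑ s, c s • z s, R (∑ s, c s • z s)⟫_ℂ + ⟪∑ s, c s • z s, R (∑ s, c s • z s)⟫_ℂ := by
      simp only [dotProduct, mulVec, of_apply, Pi.star_apply, map_sum, map_smul, sum_inner,
        inner_sum, inner_smul_left, inner_smul_right, Finset.mul_sum, map_mul, Complex.conj_conj,
        mul_add, add_mul, Finset.sum_add_distrib, RCLike.star_def]
      congr 1
      · refine Finset.sum_congr rfl fun s _ => Finset.sum_congr rfl fun t _ => ?_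
        ring
      · rw [Finset.sum_comm]
        refine Finset.sum_congr rfl fun s _ => Finset.sum_congr rfl fun t _ => ?_
        ring
    rw [h1, add_comm, Complex.add_conj]
    exact_mod_cast mul_nonneg zero_le_two (hR _)

lemma form_ineq {ι : Type*} [Fintype ι] (R : H →L[ℂ] H)
    (hR : ∀ w, 0 ≤ (⟪w, R w⟫_ℂ).re) (x y : ι → H) :
    2 * ∑ i, ∑ j, ‖conj ⟪y j, R (x i)⟫_ℂ + ⟪x i, R (y j)⟫_ℂ‖ ^ 2 ≤
      ∑ i, ∑ j, ‖conj ⟪x j, R (x i)⟫_ℂ + ⟪x i, R (x j)⟫_ℂ‖ ^ 2 +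
      ∑ i, ∑ j, ‖conj ⟪y j, R (y i)⟫_ℂ + ⟪y i, R (y j)⟫_ℂ‖ ^ 2 := by
  have := gram_ineq _ (gram_posSemidef R hR (Sum.elim x y))
  simpa using this

lemma mulVec_bound {m : ℕ} {Φ : Matrix (Fin m) (Fin m) ℂ} {M : ℝ}
    (hΦ : ‖Matrix.toEuclideanCLM (n := Fin m) (𝕜 := ℂ) Φ‖ ≤ M) (e : Fin m → ℂ) :
    ∑ l, ‖∑ j, Φ l j * e j‖ ^ 2 ≤ M ^ 2 * ∑ j, ‖e j‖ ^ 2 := by
  have h1 := (Matrix.toEuclideanCLM (n := Fin m) (𝕜 := ℂ) Φ).le_of_opNorm_le hΦ (WithLp.toLp 2 e)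
  have h2 := pow_le_pow_left₀ (norm_nonneg _) h1 2
  rw [mul_pow, toEuclideanCLM_toLp, EuclideanSpace.norm_sq_eq, EuclideanSpace.norm_sq_eq] at h2
  simpa [mulVec, dotProduct] using h2

lemma vecMul_bound {m : ℕ} {Φ : Matrix (Fin m) (Fin m) ℂ} {M : ℝ}
    (hΦ : ‖Matrix.toEuclideanCLM (n := Fin m) (𝕜 := ℂ) Φ‖ ≤ M) (e : Fin m → ℂ) :
    ∑ k, ‖∑ i, Φ i k * e i‖ ^ 2 ≤ M ^ 2 * ∑ i, ‖e i‖ ^ 2 := by
  have h1 : ‖Matrix.toEuclideanCLM (n := Fin m) (𝕜 := ℂ) (star Φ)‖ ≤ M := by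
    rw [map_star, ContinuousLinearMap.star_eq_adjoint, LinearIsometryEquiv.norm_map]; exact hΦ
  have h2 := mulVec_bound h1 (fun i => conj (e i))
  simp only [Complex.norm_conj] at h2
  refine le_of_eq_of_le ?_ h2
  refine Finset.sum_congr rfl fun k _ => ?_
  rw [← Complex.norm_conj, map_sum]
  simp [star_apply]

/-- Existence of singular vectors in finite dimension. -/
lemma exists_singular {V : Type*} [NormedAddCommGroup V] [InnerProductSpace ℂ V]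
    [FiniteDimensional ℂ V] [Nontrivial V] (L : V →L[ℂ] V) (hL : L ≠ 0) :
    ∃ x y : V, ‖x‖ = 1 ∧ L x = (‖L‖ : ℂ) • y ∧ ∀ w, ⟪y, L w⟫_ℂ = ‖L‖ * ⟪x, w⟫_ℂ := by
  have : ProperSpace V := FiniteDimensional.proper ℂ V
  have : CompleteSpace V := FiniteDimensional.complete ℂ V
  have hne : (Metric.sphere (0 : V) 1).Nonempty := by
    let _ : NormedSpace ℝ V := NormedSpace.restrictScalars ℝ ℂ V
    exact NormedSpace.sphere_nonempty.2 zero_le_one
  obtain ⟨x, hx, hmax⟩ := (isCompact_sphere (0 : V) 1).exists_isMaxOn hne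
    (f := fun v => ‖L v‖) (by fun_prop)
  rw [mem_sphere_zero_iff_norm] at hx
  have hκ : 0 < ‖L‖ := norm_pos_iff.2 hL
  have h1 : ‖L x‖ = ‖L‖ := by
    apply le_antisymm
    · simpa [hx] using L.le_opNorm x
    · apply L.opNorm_le_bound (norm_nonneg _)
      intro v
      by_cases hv : v = 0
      · simp [hv]
      · have hv' : 0 < ‖v‖ := norm_pos_iff.2 hv
        have : ‖L ((‖v‖⁻¹ : ℂ) • v)‖ ≤ ‖L x‖ := by
          apply hmax
          simp [norm_smul, hv'.ne']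
        rw [map_smul, norm_smul, norm_inv, Complex.norm_real, norm_norm,
          inv_mul_le_iff₀ hv'] at this
        linarith
  have hκ' : (‖L‖ : ℂ) ≠ 0 := by exact_mod_cast hκ.ne'
  refine ⟨x, (‖L‖ : ℂ)⁻¹ • L x, hx, by rw [smul_smul, mul_inv_cancel₀ hκ', one_smul], ?_⟩
  set y := (‖L‖ : ℂ)⁻¹ • L x with hy
  have hyn : ‖y‖ = 1 := by
    rw [hy, norm_smul, norm_inv, Complex.norm_real, norm_norm, h1, inv_mul_cancel₀ hκ.ne']
  have h2 : ContinuousLinearMap.adjoint L y = (‖L‖ : ℂ) • x := by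
    have h3 : ‖ContinuousLinearMap.adjoint L y‖ ≤ ‖L‖ := by
      have := (ContinuousLinearMap.adjoint L).le_opNorm y
      rwa [hyn, mul_one, LinearIsometryEquiv.norm_map] at this
    have h4 : ⟪ContinuousLinearMap.adjoint L y, x⟫_ℂ = ‖L‖ := by
      rw [ContinuousLinearMap.adjoint_inner_left, hy, inner_smul_left, inner_self_eq_norm_sq_to_K,
        h1]
      simp only [map_inv₀, Complex.conj_ofReal, Complex.coe_algebraMap]
      field_simp
    have h5 : ‖ContinuousLinearMap.adjoint L y - (‖L‖ : ℂ) • x‖ ^ 2 ≤ 0 := by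
      rw [@norm_sub_sq ℂ, inner_smul_right, h4, norm_smul, hx]
      simp only [← Complex.ofReal_mul, Complex.norm_real, norm_norm, mul_one, RCLike.re_to_complex,
        Complex.ofReal_re]
      nlinarith [norm_nonneg (ContinuousLinearMap.adjoint L y)]
    have h6 : ‖ContinuousLinearMap.adjoint L y - (‖L‖ : ℂ) • x‖ = 0 := by
      nlinarith [norm_nonneg (ContinuousLinearMap.adjoint L y - (‖L‖ : ℂ) • x)]
    exact sub_eq_zero.1 (norm_eq_zero.1 h6)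
  intro w
  rw [← ContinuousLinearMap.adjoint_inner_left, h2, inner_smul_left, Complex.conj_ofReal]

end Crest.Agent.R132
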