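import Crest.Agent.R132.Kernel
import Crest.Agent.R132.LinAlg

/-!
The core `L²` estimate: `κ ≤ 2 M` for singular vectors.  Owner: helper38.
-/

open Metric Set MeasureTheory
open scoped ComplexConjugate InnerProductSpace

namespace Crest.Agent.R132

variable {H : Type*} [NormedAddCommGroup H] [InnerProductSpace ℂ H] [CompleteSpace H]
variable {E : ℂ → ℂ} {R : ℝ}

lemma inner_integral_smul_clm {g : Sph → ℂ} {S : Sph → H →L[ℂ] H} (hg : Continuous g)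
    (hS : Continuous S) (u w : H) :
    ⟪u, (∫ b, g b • S b ∂μc) w⟫_ℂ = ∫ b, g b * ⟪u, S b w⟫_ℂ ∂μc := by
  rw [ContinuousLinearMap.integral_apply (integrable_μc (f := fun b => g b • S b) (hg.smul hS)),
    ← integral_inner (integrable_μc (by fun_prop))]
  simp [inner_smul_right]

omit [CompleteSpace H] in
lemma differentiableOn_inner_clm {Rr : ℂ → H →L[ℂ] H} (hRd : DifferentiableOn ℂ Rr (ball 0 R))
    (u w : H) : DifferentiableOn ℂ (fun a => ⟪u, Rr a w⟫_ℂ) (ball 0 R) := by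
  have h1 : DifferentiableOn ℂ (fun a => Rr a w) (ball 0 R) :=
    hRd.clm_apply (differentiableOn_const _)
  exact (innerSL ℂ u).differentiable.comp_differentiableOn h1

lemma ExtData.continuous_ker_right (hE : ExtData E R) {a : ℂ} (ha : ‖a‖ < 1) :
    Continuous (fun b : Sph => ker E a b) := by
  have hcE : Continuous (fun b : Sph => E b) := continuous_sph_of_ball hE.one_lt hE.diff.continuousOn
  unfold ker
  refine Continuous.div (continuous_subtype_val.mul continuous_const)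
    ((continuous_subtype_val.mul continuous_const).sub (continuous_const.mul hcE)) ?_
  intro b
  refine hE.den_ne (by simp; linarith [hE.one_lt]) (b.mem_ball hE.one_lt) ?_
  intro h
  rw [h, b.norm_eq] at ha
  exact lt_irrefl _ ha

omit [CompleteSpace H] in
/-- `L²` norm of the Hermitian part. -/
lemma integral_herm (hR : 1 < R) {Rr : ℂ → H →L[ℂ] H} (hRd : DifferentiableOn ℂ Rr (ball 0 R))
    (hR0 : Rr 0 = 1) (u w : H) :
    ∫ b : Sph, ‖conj ⟪w, Rr b u⟫_ℂ + ⟪u, Rr b w⟫_ℂ‖ ^ 2 ∂μc =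
      ∫ b : Sph, ‖⟪w, Rr b u⟫_ℂ‖ ^ 2 ∂μc + ∫ b : Sph, ‖⟪u, Rr b w⟫_ℂ‖ ^ 2 ∂μc
        + 2 * ‖⟪u, w⟫_ℂ‖ ^ 2 := by
  have h1 := differentiableOn_inner_clm hRd w u
  have h2 := differentiableOn_inner_clm hRd u w
  rw [integral_normSq_conj_add (continuous_sph_of_ball hR h1.continuousOn)
    (continuous_sph_of_ball hR h2.continuousOn)]
  have h3 := integral_μc_of_differentiableOn hR (h1.mul h2)
  simp only [Pi.mul_apply, hR0, one_apply_eq_self] at h3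
  rw [h3, ← inner_conj_symm w u, Complex.conj_mul']
  simp [← Complex.ofReal_pow]

theorem core_ineq (hE : ExtData E R) {Rr : ℂ → H →L[ℂ] H}
    (hRd : DifferentiableOn ℂ Rr (ball 0 R)) (hR0 : Rr 0 = 1)
    (hpos : ∀ (b : Sph) (w : H), 0 ≤ (⟪w, Rr b w⟫_ℂ).re)
    {m : ℕ} {Φ : Sph → Matrix (Fin m) (Fin m) ℂ} (hΦc : ∀ i j, Continuous (fun b => Φ b i j))
    {M : ℝ} (hΦM : ∀ b, ‖Matrix.toEuclideanCLM (n := Fin m) (𝕜 := ℂ) (Φ b)‖ ≤ M)
    {T : Fin m → Fin m → H →L[ℂ] H}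
    (hT1 : ∀ a : ℂ, a ≠ 0 → ‖a‖ < 1 → ∀ i j,
      Rr a * T i j = ∫ b : Sph, (Φ b i j * ker E a b) • Rr b ∂μc)
    (hT2 : ∀ a : ℂ, a ≠ 0 → ‖a‖ < 1 → ∀ i j, T i j * Rr a = Rr a * T i j)
    {x y : Fin m → H} {κ : ℝ} (hx : ∀ i, ∑ j, T i j (x j) = (κ : ℂ) • y i)
    (hy : ∀ k w, ∑ i, ⟪y i, T i k w⟫_ℂ = κ * ⟪x k, w⟫_ℂ) (hx0 : x ≠ 0) :
    κ ^ 2 ≤ 4 * M ^ 2 := by
  have hR := hE.one_lt
  have hRc : Continuous (fun b : Sph => Rr b) := continuous_sph_of_ball hR hRd.continuousOn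
  have hc : ∀ u w : H, Continuous (fun b : Sph => ⟪u, Rr b w⟫_ℂ) := fun u w =>
    continuous_sph_of_ball hR (differentiableOn_inner_clm hRd u w).continuousOn
  have hTin : ∀ a : ℂ, a ≠ 0 → ‖a‖ < 1 → ∀ i j (u w : H), ⟪u, Rr a (T i j w)⟫_ℂ =
      ∫ b : Sph, Φ b i j * ⟪u, Rr b w⟫_ℂ * ker E a b ∂μc := by
    intro a ha0 ha i j u w
    rw [← mul_apply_eq_comp, hT1 a ha0 ha, inner_integral_smul_clm
      (g := fun b => Φ b i j * ker E a b) ((hΦc i j).mul (hE.continuous_ker_right ha)) hRc]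
    congr 1; ext b; ring
  set e2 : ℝ := ∑ i, ∑ j, ∫ b : Sph, ‖⟪y i, Rr b (x j)⟫_ℂ‖ ^ 2 ∂μc with he2
  have he2' : e2 = ∫ b : Sph, ∑ i, ∑ j, ‖⟪y i, Rr b (x j)⟫_ℂ‖ ^ 2 ∂μc := by
    rw [integral_finsetSum _ (fun i _ => integrable_μc (by fun_prop))]
    refine Finset.sum_congr rfl fun i _ => ?_
    rw [integral_finsetSum _ (fun j _ => integrable_μc (by fun_prop))]
  -- bound for the `x`-block
  have hP : κ ^ 2 * ∑ k, ∑ l, (‖⟪x k, x l⟫_ℂ‖ ^ 2 + ∫ b : Sph, ‖⟪x k, Rr b (x l)⟫_ℂ‖ ^ 2 ∂μc)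
      ≤ 2 * (M ^ 2 * e2) := by
    have h1 : ∀ k l, κ ^ 2 * (‖⟪x k, x l⟫_ℂ‖ ^ 2 + ∫ b : Sph, ‖⟪x k, Rr b (x l)⟫_ℂ‖ ^ 2 ∂μc) ≤
        2 * ∫ b : Sph, ‖∑ i, Φ b i k * ⟪y i, Rr b (x l)⟫_ℂ‖ ^ 2 ∂μc := by
      intro k l
      have h2 := kernel_lemma hE (p := fun a => κ * ⟪x k, Rr a (x l)⟫_ℂ)
        ((differentiableOn_const _).mul (differentiableOn_inner_clm hRd _ _))
        (F := fun b => ∑ i, Φ b i k * ⟪y i, Rr b (x l)⟫_ℂ) (by fun_prop) (by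
          intro a ha0 ha
          have hk := hE.continuous_ker_right ha
          rw [← hy k]
          simp_rw [Finset.sum_mul]
          rw [integral_finsetSum _ (fun i _ => integrable_μc (by fun_prop))]
          refine Finset.sum_congr rfl fun i _ => ?_
          rw [← hTin a ha0 ha, ← mul_apply_eq_comp, hT2 a ha0 ha,
            mul_apply_eq_comp])
      simp only [hR0, one_apply_eq_self, norm_mul, mul_pow, Complex.norm_real,
        Real.norm_eq_abs, sq_abs, integral_const_mul] at h2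
      linarith
    calc _ = ∑ k, ∑ l, κ ^ 2 * (‖⟪x k, x l⟫_ℂ‖ ^ 2 +
            ∫ b : Sph, ‖⟪x k, Rr b (x l)⟫_ℂ‖ ^ 2 ∂μc) := by simp_rw [Finset.mul_sum]
      _ ≤ ∑ k, ∑ l, 2 * ∫ b : Sph, ‖∑ i, Φ b i k * ⟪y i, Rr b (x l)⟫_ℂ‖ ^ 2 ∂μc :=
          Finset.sum_le_sum fun k _ => Finset.sum_le_sum fun l _ => h1 k l
      _ = 2 * ∫ b : Sph, ∑ l, ∑ k, ‖∑ i, Φ b i k * ⟪y i, Rr b (x l)⟫_ℂ‖ ^ 2 ∂μc := by
          rw [Finset.sum_comm, integral_finsetSum _ (fun i _ => integrable_μc (by fun_prop)),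
            Finset.mul_sum]
          refine Finset.sum_congr rfl fun l _ => ?_
          rw [integral_finsetSum _ (fun i _ => integrable_μc (by fun_prop)), Finset.mul_sum]
      _ ≤ 2 * (M ^ 2 * e2) := by
          refine mul_le_mul_of_nonneg_left ?_ (zero_le_two (α := ℝ))
          rw [he2', ← integral_const_mul]
          refine integral_mono (integrable_μc ?_) (integrable_μc ?_) fun b => ?_
          · fun_prop
          · fun_prop
          simp only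
          rw [Finset.sum_comm (f := fun i j => ‖⟪y i, Rr b (x j)⟫_ℂ‖ ^ 2), Finset.mul_sum]
          exact Finset.sum_le_sum fun l _ => vecMul_bound (hΦM b) _
  -- bound for the `y`-block
  have hQ : κ ^ 2 * ∑ k, ∑ l, (‖⟪y k, y l⟫_ℂ‖ ^ 2 + ∫ b : Sph, ‖⟪y k, Rr b (y l)⟫_ℂ‖ ^ 2 ∂μc)
      ≤ 2 * (M ^ 2 * e2) := by
    have h1 : ∀ k l, κ ^ 2 * (‖⟪y k, y l⟫_ℂ‖ ^ 2 + ∫ b : Sph, ‖⟪y k, Rr b (y l)⟫_ℂ‖ ^ 2 ∂μc) ≤
        2 * ∫ b : Sph, ‖∑ j, Φ b l j * ⟪y k, Rr b (x j)⟫_ℂ‖ ^ 2 ∂μc := by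
      intro k l
      have h2 := kernel_lemma hE (p := fun a => κ * ⟪y k, Rr a (y l)⟫_ℂ)
        ((differentiableOn_const _).mul (differentiableOn_inner_clm hRd _ _))
        (F := fun b => ∑ j, Φ b l j * ⟪y k, Rr b (x j)⟫_ℂ) (by fun_prop) (by
          intro a ha0 ha
          have hk := hE.continuous_ker_right ha
          rw [← inner_smul_right, ← map_smul, ← hx l, map_sum, inner_sum]
          simp_rw [Finset.sum_mul]
          rw [integral_finsetSum _ (fun i _ => integrable_μc (by fun_prop))]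
          refine Finset.sum_congr rfl fun i _ => ?_
          rw [← hTin a ha0 ha])
      simp only [hR0, one_apply_eq_self, norm_mul, mul_pow, Complex.norm_real,
        Real.norm_eq_abs, sq_abs, integral_const_mul] at h2
      linarith
    calc _ = ∑ k, ∑ l, κ ^ 2 * (‖⟪y k, y l⟫_ℂ‖ ^ 2 +
            ∫ b : Sph, ‖⟪y k, Rr b (y l)⟫_ℂ‖ ^ 2 ∂μc) := by simp_rw [Finset.mul_sum]
      _ ≤ ∑ k, ∑ l, 2 * ∫ b : Sph, ‖∑ j, Φ b l j * ⟪y k, Rr b (x j)⟫_ℂ‖ ^ 2 ∂μc :=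
          Finset.sum_le_sum fun k _ => Finset.sum_le_sum fun l _ => h1 k l
      _ = 2 * ∫ b : Sph, ∑ k, ∑ l, ‖∑ j, Φ b l j * ⟪y k, Rr b (x j)⟫_ℂ‖ ^ 2 ∂μc := by
          rw [integral_finsetSum _ (fun i _ => integrable_μc (by fun_prop)),
            Finset.mul_sum]
          refine Finset.sum_congr rfl fun l _ => ?_
          rw [integral_finsetSum _ (fun i _ => integrable_μc (by fun_prop)), Finset.mul_sum]
      _ ≤ 2 * (M ^ 2 * e2) := by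
          refine mul_le_mul_of_nonneg_left ?_ (zero_le_two (α := ℝ))
          rw [he2', ← integral_const_mul]
          refine integral_mono (integrable_μc ?_) (integrable_μc ?_) fun b => ?_
          · fun_prop
          · fun_prop
          simp only
          rw [Finset.mul_sum]
          exact Finset.sum_le_sum fun l _ => mulVec_bound (hΦM b) _
  -- the block inequality, integrated
  have hsum : ∀ u w : Fin m → H,
      ∫ b : Sph, ∑ i, ∑ j, ‖conj ⟪w j, Rr b (u i)⟫_ℂ + ⟪u i, Rr b (w j)⟫_ℂ‖ ^ 2 ∂μc =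
      ∑ i, ∑ j, ∫ b : Sph, ‖⟪w i, Rr b (u j)⟫_ℂ‖ ^ 2 ∂μc +
        ∑ i, ∑ j, ∫ b : Sph, ‖⟪u i, Rr b (w j)⟫_ℂ‖ ^ 2 ∂μc +
        2 * ∑ i, ∑ j, ‖⟪u i, w j⟫_ℂ‖ ^ 2 := by
    intro u w
    have hcc : ∀ u w : H, Continuous (fun b : Sph => conj ⟪u, Rr b w⟫_ℂ) := fun u w =>
      Complex.continuous_conj.comp (hc u w)
    rw [integral_finsetSum _ (fun i _ => integrable_μc (by fun_prop)),
      Finset.sum_comm (f := fun i j => ∫ b : Sph, ‖⟪w i, Rr b (u j)⟫_ℂ‖ ^ 2 ∂μc),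
      Finset.mul_sum, ← Finset.sum_add_distrib, ← Finset.sum_add_distrib]
    refine Finset.sum_congr rfl fun i _ => ?_
    rw [integral_finsetSum _ (fun i _ => integrable_μc (by fun_prop)),
      Finset.mul_sum, ← Finset.sum_add_distrib, ← Finset.sum_add_distrib]
    refine Finset.sum_congr rfl fun j _ => ?_
    rw [integral_herm hR hRd hR0]
  have hblock : 2 * ∫ b : Sph, ∑ i, ∑ j, ‖conj ⟪y j, Rr b (x i)⟫_ℂ + ⟪x i, Rr b (y j)⟫_ℂ‖ ^ 2 ∂μc ≤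
      ∫ b : Sph, ∑ i, ∑ j, ‖conj ⟪x j, Rr b (x i)⟫_ℂ + ⟪x i, Rr b (x j)⟫_ℂ‖ ^ 2 ∂μc +
      ∫ b : Sph, ∑ i, ∑ j, ‖conj ⟪y j, Rr b (y i)⟫_ℂ + ⟪y i, Rr b (y j)⟫_ℂ‖ ^ 2 ∂μc := by
    have hcc : ∀ u w : H, Continuous (fun b : Sph => conj ⟪u, Rr b w⟫_ℂ) := fun u w =>
      Complex.continuous_conj.comp (hc u w)
    rw [← integral_const_mul, ← integral_add (integrable_μc (by fun_prop))
      (integrable_μc (by fun_prop))]
    exact integral_mono (integrable_μc (by fun_prop)) (integrable_μc (by fun_prop))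
      fun b => form_ineq _ (hpos b) x y
  rw [hsum, hsum, hsum, ← he2] at hblock
  simp only [Finset.sum_add_distrib] at hP hQ
  set p0 : ℝ := ∑ k, ∑ l, ‖⟪x k, x l⟫_ℂ‖ ^ 2 with hp0
  set p1 : ℝ := ∑ k, ∑ l, ∫ b : Sph, ‖⟪x k, Rr b (x l)⟫_ℂ‖ ^ 2 ∂μc with hp1
  set q0 : ℝ := ∑ k, ∑ l, ‖⟪y k, y l⟫_ℂ‖ ^ 2 with hq0
  set q1 : ℝ := ∑ k, ∑ l, ∫ b : Sph, ‖⟪y k, Rr b (y l)⟫_ℂ‖ ^ 2 ∂μc with hq1
  have n1 : 0 ≤ ∑ i, ∑ j, ∫ b : Sph, ‖⟪x i, Rr b (y j)⟫_ℂ‖ ^ 2 ∂μc :=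
    Finset.sum_nonneg fun i _ => Finset.sum_nonneg fun j _ => integral_nonneg fun b => sq_nonneg _
  have n2 : 0 ≤ ∑ i, ∑ j, ‖⟪x i, y j⟫_ℂ‖ ^ 2 :=
    Finset.sum_nonneg fun i _ => Finset.sum_nonneg fun j _ => sq_nonneg _
  have n3 : 0 ≤ p1 :=
    Finset.sum_nonneg fun i _ => Finset.sum_nonneg fun j _ => integral_nonneg fun b => sq_nonneg _
  have n4 : 0 ≤ e2 :=
    Finset.sum_nonneg fun i _ => Finset.sum_nonneg fun j _ => integral_nonneg fun b => sq_nonneg _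
  have n5 : 0 < p0 := by
    obtain ⟨k, hk⟩ := Function.ne_iff.1 hx0
    refine Finset.sum_pos' (fun i _ => Finset.sum_nonneg fun j _ => sq_nonneg _)
      ⟨k, Finset.mem_univ _, Finset.sum_pos' (fun j _ => sq_nonneg _) ⟨k, Finset.mem_univ _, ?_⟩⟩
    exact pow_pos (norm_pos_iff.2 (inner_self_ne_zero.2 hk)) 2
  have hb : e2 ≤ (p0 + p1) + (q0 + q1) := by linarith
  have hfin : κ ^ 2 * e2 ≤ 4 * M ^ 2 * e2 := by
    have := mul_le_mul_of_nonneg_left hb (sq_nonneg κ)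
    linarith
  rcases n4.eq_or_lt with h0 | h0
  · rw [← h0] at hP
    have : κ ^ 2 * (p0 + p1) ≤ 0 := by linarith
    have h2 : κ ^ 2 ≤ 0 := by
      by_contra hcon
      push Not at hcon
      have := mul_pos hcon (by linarith : 0 < p0 + p1)
      linarith
    nlinarith [sq_nonneg M]
  · exact le_of_mul_le_mul_right hfin h0

end Crest.Agent.R132
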