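import Mathlib
import Crest.Prelude.Def_NumRangeMetric

/-!
Shared definitions for row 132 (complete Crouzeix theorem).  Owner: helper38.  FROZEN.
-/

open Metric Set
open scoped ComplexOrder ComplexConjugate

namespace Crest.Agent.R132

/-- `h = q + χ ψ` on `Ω` with `ψ` holomorphic on `Ω`: the polynomial `q` represents the
holomorphic function `h` modulo `χ`. -/
def Rep (Ω : Set ℂ) (χ : Polynomial ℂ) (h : ℂ → ℂ) (q : Polynomial ℂ) : Prop :=
  ∃ ψ : ℂ → ℂ, DifferentiableOn ℂ ψ Ω ∧ ∀ z ∈ Ω, h z = q.eval z + χ.eval z * ψ z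

/-- Outer normal numerator: for `Γ a = E a / a` one has `-a Γ'(a) = nu E a / a`. -/
noncomputable def nu (E : ℂ → ℂ) (a : ℂ) : ℂ := E a - a * deriv E a

/-- Data of an exterior conformal map `Γ a = E a / a` on the punctured disc of radius `R > 1`,
whose image of the unit circle is a convex curve. -/
structure ExtData (E : ℂ → ℂ) (R : ℝ) : Prop where
  one_lt : 1 < R
  diff : DifferentiableOn ℂ E (ball 0 R)
  inj : ∀ a ∈ ball (0 : ℂ) R, ∀ b ∈ ball (0 : ℂ) R, b * E a = a * E b → a = b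
  nu_ne : ∀ a ∈ ball (0 : ℂ) R, nu E a ≠ 0
  convex : ∀ a b : ℂ, ‖a‖ = 1 → ‖b‖ = 1 → 0 ≤ (conj (nu E a) * (E a - a * (E b / b))).re

/-- The numerical range of an operator. -/
def nr {H : Type*} [NormedAddCommGroup H] [InnerProductSpace ℂ H] (A : H →L[ℂ] H) : Set ℂ :=
  {z | ∃ x : H, ‖x‖ = 1 ∧ z = inner ℂ x (A x)}

/-- `T` has the closed disc of radius `r` as a complete `C`-spectral set for matrix polynomials
of size `m`. -/
def CompleteBound {H : Type*} [NormedAddCommGroup H] [InnerProductSpace ℂ H]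
    (T : H →L[ℂ] H) (m : ℕ) (r C : ℝ) : Prop :=
  ∀ (d : ℕ) (B : Fin (d + 1) → Matrix (Fin m) (Fin m) ℂ) (M : ℝ),
    (∀ w : ℂ, ‖w‖ ≤ r → ‖Matrix.toEuclideanCLM (n := Fin m) (𝕜 := ℂ)
        (∑ k : Fin (d + 1), w ^ (k : ℕ) • B k)‖ ≤ M) →
    ∀ v : PiLp 2 (fun _ : Fin m => H),
      ‖(WithLp.toLp 2 (fun i : Fin m => ∑ j : Fin m, ∑ k : Fin (d + 1),
          B k i j • (T ^ (k : ℕ)) (v j)) : PiLp 2 (fun _ : Fin m => H))‖ ≤ C * M * ‖v‖

end Crest.Agent.R132
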