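import Crest.Agent.R132.ExtMapCore
import Crest.Agent.Lib.RMT.Main
import Crest.Agent.Lib.RMT.Inverse

/-!
Exterior conformal map of a convex compact set (row 132, task ExtMap).  Author: helper17.
-/

open Metric Set
open scoped ComplexOrder ComplexConjugate

namespace Crest.Agent.R132

theorem exists_extData {K Ω : Set ℂ} (hKc : IsCompact K) (hKv : Convex ℝ K) (hKn : K.Nonempty)
    (hΩ : IsOpen Ω) (hKΩ : K ⊆ Ω) :
    ∃ (E : ℂ → ℂ) (R : ℝ), ExtData E R ∧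
      (∀ z ∈ K, ∀ a ∈ ball (0 : ℂ) R, E a ≠ a * z) ∧
      (∀ z ∈ K, ∀ a : ℂ, ‖a‖ = 1 → 0 ≤ (conj (nu E a) * (E a - a * z)).re) ∧
      (∀ b : ℂ, ‖b‖ = 1 → E b / b ∈ Ω) :=
  exists_extData_of_rmt
    (fun hUo hUc hU _ hz => Crest.Agent.Lib.RMT.riemann_mapping hUo hUc hU hz)
    (fun hU _ hf hinj => Crest.Agent.Lib.RMT.exists_holomorphic_inverse hU hf hinj)
    hKc hKv hKn hΩ hKΩ

end Crest.Agent.R132
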