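import Crest.Agent.R132.Defs

/-!
Exterior conformal map of a convex compact set (row 132, task ExtMap), core part.
The Riemann map and its inverse are taken as data (`EmData`).  Author: helper17.
-/

open Metric Set Filter Topology
open scoped ComplexOrder ComplexConjugate

namespace Crest.Agent.R132

/-- The exterior of `L`, inverted about `z0`. -/
def emD (L : Set ℂ) (z0 : ℂ) : Set ℂ := {ζ | ζ = 0 ∨ z0 + ζ⁻¹ ∉ L}

theorem em_isOpen_inv_mem {U : Set ℂ} (hU : IsOpen U) (z0 : ℂ) :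
    IsOpen {ζ : ℂ | ζ ≠ 0 ∧ z0 + ζ⁻¹ ∈ U} := by
  have hc : ContinuousOn (fun ζ : ℂ => z0 + ζ⁻¹) {0}ᶜ :=
    continuousOn_const.add continuousOn_inv₀
  have := hc.isOpen_inter_preimage isOpen_compl_singleton hU
  convert this using 1
  ext ζ
  simp

theorem emD_isOpen {L : Set ℂ} (hL : IsCompact L) (z0 : ℂ) : IsOpen (emD L z0) := by
  obtain ⟨M, hM⟩ := hL.isBounded.subset_ball_lt 0 z0
  have h1 : emD L z0 = {ζ : ℂ | ζ ≠ 0 ∧ z0 + ζ⁻¹ ∈ Lᶜ} ∪ ball 0 M⁻¹ := by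
    ext ζ
    simp only [emD, mem_ofPred_eq, mem_union, mem_compl_iff, mem_ball, dist_zero_right]
    constructor
    · rintro (h | h)
      · right; rw [h, norm_zero]; exact inv_pos.mpr hM.1
      · by_cases h0 : ζ = 0
        · right; rw [h0, norm_zero]; exact inv_pos.mpr hM.1
        · left; exact ⟨h0, h⟩
    · rintro (h | h)
      · exact Or.inr h.2
      · by_cases h0 : ζ = 0
        · exact Or.inl h0
        · right
          intro hmem
          have h2 := hM.2 hmem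
          rw [mem_ball, dist_eq_norm, add_sub_cancel_left, norm_inv] at h2
          have h3 : 0 < ‖ζ‖ := norm_pos_iff.mpr h0
          have h4 : M < ‖ζ‖⁻¹ := by
            have := inv_strictAnti₀ h3 h
            rwa [inv_inv] at this
          linarith
  rw [h1]
  exact (em_isOpen_inv_mem hL.isClosed.isOpen_compl z0).union isOpen_ball

theorem emD_subset {L : Set ℂ} {z0 : ℂ} {δ : ℝ} (hδ : 0 < δ) (hb : ball z0 δ ⊆ L) :
    emD L z0 ⊆ closedBall 0 δ⁻¹ := by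
  intro ζ hζ
  rw [mem_closedBall, dist_zero_right]
  by_cases h0 : ζ = 0
  · rw [h0, norm_zero]; exact (inv_pos.mpr hδ).le
  · have h1 : z0 + ζ⁻¹ ∉ L := hζ.resolve_left h0
    have h2 : ¬ (z0 + ζ⁻¹ ∈ ball z0 δ) := fun h => h1 (hb h)
    rw [mem_ball, dist_eq_norm, add_sub_cancel_left, norm_inv, not_lt] at h2
    have := inv_anti₀ hδ h2
    rwa [inv_inv] at this

theorem emD_starConvex {L : Set ℂ} (hL : Convex ℝ L) {z0 : ℂ} (hz0 : z0 ∈ L) :
    StarConvex ℝ 0 (emD L z0) := by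
  intro ζ hζ a b ha hb hab
  rw [smul_zero, zero_add]
  by_cases h0 : b • ζ = 0
  · exact Or.inl h0
  · right
    intro hmem
    have hb0 : b ≠ 0 := fun h => h0 (by rw [h, zero_smul])
    have hζ0 : ζ ≠ 0 := fun h => h0 (by rw [h, smul_zero])
    apply hζ.resolve_left hζ0
    have := hL hz0 hmem ha hb hab
    convert this using 1
    have hbc : (b : ℂ) ≠ 0 := by exact_mod_cast hb0
    have habc : (a : ℂ) = 1 - b := by
      have : a = 1 - b := by linarith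
      rw [this]; push_cast; ring
    simp only [Complex.real_smul]
    rw [habc]
    field_simp
    ring

theorem emD_isSimplyConnected {L : Set ℂ} (hL : Convex ℝ L) {z0 : ℂ} (hz0 : z0 ∈ L) :
    IsSimplyConnected (emD L z0) := by
  have : ContractibleSpace (emD L z0) :=
    (emD_starConvex hL hz0).contractibleSpace ⟨0, Or.inl rfl⟩
  exact SimplyConnectedSpace.ofContractible _

/-- A Riemann map of `emD L z0` onto the unit disc, with its inverse. -/
structure EmData (L : Set ℂ) (z0 : ℂ) (φ ψ : ℂ → ℂ) : Prop where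
  cpt : IsCompact L
  cvx : Convex ℝ L
  mem : z0 ∈ L
  bdd : Bornology.IsBounded (emD L z0)
  dφ : DifferentiableOn ℂ φ (emD L z0)
  dψ : DifferentiableOn ℂ ψ (ball 0 1)
  mφ : MapsTo φ (emD L z0) (ball 0 1)
  mψ : MapsTo ψ (ball 0 1) (emD L z0)
  φψ : ∀ a ∈ ball (0 : ℂ) 1, φ (ψ a) = a
  ψφ : ∀ ζ ∈ emD L z0, ψ (φ ζ) = ζ
  φ0 : φ 0 = 0

/-- The numerator of the exterior map. -/
noncomputable def emE (z0 : ℂ) (ψ : ℂ → ℂ) (a : ℂ) : ℂ := z0 * a + (dslope ψ 0 a)⁻¹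

namespace EmData

variable {L : Set ℂ} {z0 : ℂ} {φ ψ : ℂ → ℂ}

theorem ψ0 (h : EmData L z0 φ ψ) : ψ 0 = 0 := by
  have := h.ψφ 0 (Or.inl rfl)
  rwa [h.φ0] at this

theorem ψ_inj (h : EmData L z0 φ ψ) {a b : ℂ} (ha : a ∈ ball (0 : ℂ) 1) (hb : b ∈ ball (0 : ℂ) 1)
    (hab : ψ a = ψ b) : a = b := by
  rw [← h.φψ a ha, hab, h.φψ b hb]

theorem ψ_ne (h : EmData L z0 φ ψ) {a : ℂ} (ha : a ∈ ball (0 : ℂ) 1) (ha0 : a ≠ 0) : ψ a ≠ 0 := by
  intro h0
  exact ha0 (h.ψ_inj ha (mem_ball_self one_pos) (by rw [h0, h.ψ0]))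

theorem hasDerivAt_ψ (h : EmData L z0 φ ψ) {a : ℂ} (ha : a ∈ ball (0 : ℂ) 1) :
    HasDerivAt ψ (deriv ψ a) a :=
  (h.dψ.differentiableAt (isOpen_ball.mem_nhds ha)).hasDerivAt

theorem hasDerivAt_φ (h : EmData L z0 φ ψ) {ζ : ℂ} (hζ : ζ ∈ emD L z0) :
    HasDerivAt φ (deriv φ ζ) ζ :=
  (h.dφ.differentiableAt ((emD_isOpen h.cpt z0).mem_nhds hζ)).hasDerivAt

theorem deriv_mul (h : EmData L z0 φ ψ) {a : ℂ} (ha : a ∈ ball (0 : ℂ) 1) :
    deriv φ (ψ a) * deriv ψ a = 1 := by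
  have h1 : HasDerivAt (φ ∘ ψ) (deriv φ (ψ a) * deriv ψ a) a :=
    (h.hasDerivAt_φ (h.mψ ha)).comp a (h.hasDerivAt_ψ ha)
  have h2 : HasDerivAt (φ ∘ ψ) 1 a := by
    refine (hasDerivAt_id a).congr_of_eventuallyEq ?_
    filter_upwards [isOpen_ball.mem_nhds ha] with b hb
    exact h.φψ b hb
  exact h1.unique h2

theorem deriv_ψ_ne (h : EmData L z0 φ ψ) {a : ℂ} (ha : a ∈ ball (0 : ℂ) 1) : deriv ψ a ≠ 0 := by
  intro h0
  have := h.deriv_mul ha
  rw [h0, mul_zero] at this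
  exact zero_ne_one this

theorem ψ_eq (h : EmData L z0 φ ψ) (a : ℂ) : ψ a = a * dslope ψ 0 a := by
  have := sub_smul_dslope ψ 0 a
  rw [h.ψ0, sub_zero, sub_zero, smul_eq_mul] at this
  exact this.symm

theorem χ_ne (h : EmData L z0 φ ψ) {a : ℂ} (ha : a ∈ ball (0 : ℂ) 1) : dslope ψ 0 a ≠ 0 := by
  by_cases ha0 : a = 0
  · rw [ha0, dslope_same]; exact h.deriv_ψ_ne (mem_ball_self one_pos)
  · intro h0
    apply h.ψ_ne ha ha0
    rw [h.ψ_eq a, h0, mul_zero]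

theorem dχ (h : EmData L z0 φ ψ) : DifferentiableOn ℂ (dslope ψ 0) (ball 0 1) :=
  (Complex.differentiableOn_dslope (ball_mem_nhds 0 one_pos)).mpr h.dψ

theorem dE (h : EmData L z0 φ ψ) : DifferentiableOn ℂ (emE z0 ψ) (ball 0 1) :=
  ((differentiableOn_const z0).mul differentiableOn_id).add (h.dχ.inv fun _ ha => h.χ_ne ha)

theorem nu_eq (h : EmData L z0 φ ψ) {a : ℂ} (ha : a ∈ ball (0 : ℂ) 1) :
    nu (emE z0 ψ) a = deriv ψ a / (dslope ψ 0 a) ^ 2 := by
  have hχ : HasDerivAt (dslope ψ 0) (deriv (dslope ψ 0) a) a :=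
    (h.dχ.differentiableAt (isOpen_ball.mem_nhds ha)).hasDerivAt
  have hne := h.χ_ne ha
  have h1 : HasDerivAt (emE z0 ψ) (z0 * 1 + -deriv (dslope ψ 0) a / (dslope ψ 0 a) ^ 2) a :=
    ((hasDerivAt_id a).const_mul z0).add (hχ.inv hne)
  have h2 : HasDerivAt ψ (1 * dslope ψ 0 a + a * deriv (dslope ψ 0) a) a := by
    have h3 : HasDerivAt (fun b => b * dslope ψ 0 b) (1 * dslope ψ 0 a + a * deriv (dslope ψ 0) a) a :=
      (hasDerivAt_id a).mul hχ
    refine h3.congr_of_eventuallyEq (Eventually.of_forall fun b => h.ψ_eq b)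
  rw [nu, h1.deriv, h2.deriv, emE]
  field_simp
  ring

theorem nu_ne (h : EmData L z0 φ ψ) {a : ℂ} (ha : a ∈ ball (0 : ℂ) 1) : nu (emE z0 ψ) a ≠ 0 := by
  rw [h.nu_eq ha]
  exact div_ne_zero (h.deriv_ψ_ne ha) (pow_ne_zero 2 (h.χ_ne ha))

theorem E_div (h : EmData L z0 φ ψ) {a : ℂ} (ha : a ∈ ball (0 : ℂ) 1) (ha0 : a ≠ 0) :
    emE z0 ψ a / a = z0 + (ψ a)⁻¹ := by
  have hne := h.χ_ne ha
  rw [emE, h.ψ_eq a]
  field_simp

theorem E_inj (h : EmData L z0 φ ψ) {a b : ℂ} (ha : a ∈ ball (0 : ℂ) 1) (hb : b ∈ ball (0 : ℂ) 1)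
    (hab : b * emE z0 ψ a = a * emE z0 ψ b) : a = b := by
  apply h.ψ_inj ha hb
  have h1 := h.χ_ne ha
  have h2 := h.χ_ne hb
  rw [h.ψ_eq a, h.ψ_eq b]
  simp only [emE] at hab
  field_simp at hab
  linear_combination -hab

theorem E_ne (h : EmData L z0 φ ψ) {z : ℂ} (hz : z ∈ L) {a : ℂ} (ha : a ∈ ball (0 : ℂ) 1) :
    emE z0 ψ a ≠ a * z := by
  by_cases ha0 : a = 0
  · rw [emE, ha0]
    simpa using h.χ_ne (mem_ball_self one_pos)
  · intro he
    have h1 := (h.mψ ha).resolve_left (h.ψ_ne ha ha0)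
    rw [← h.E_div ha ha0, he, mul_div_cancel_left₀ _ ha0] at h1
    exact h1 hz

/-- Near the unit circle the exterior map takes values in any open neighbourhood of `L`. -/
theorem near_boundary (h : EmData L z0 φ ψ) {U : Set ℂ} (hU : IsOpen U) (hLU : L ⊆ U) :
    ∃ r : ℝ, 0 < r ∧ r < 1 ∧ ∀ b : ℂ, r ≤ ‖b‖ → ‖b‖ < 1 → emE z0 ψ b / b ∈ U := by
  have hsub : emD U z0 ⊆ emD L z0 := fun ζ hζ => hζ.imp id fun h1 h2 => h1 (hLU h2)
  have hcl : IsClosed (emD U z0) := by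
    rw [← isOpen_compl_iff]
    convert em_isOpen_inv_mem hU z0 using 1
    ext ζ
    simp [emD]
  have hc : IsCompact (emD U z0) := Metric.isCompact_of_isClosed_isBounded hcl (h.bdd.subset hsub)
  have hc2 : IsCompact (φ '' emD U z0) := hc.image_of_continuousOn (h.dφ.continuousOn.mono hsub)
  obtain ⟨r, hr1, hr⟩ := exists_lt_subset_ball hc2.isClosed
    (show φ '' emD U z0 ⊆ ball 0 1 from by
      rintro _ ⟨ζ, hζ, rfl⟩; exact h.mφ (hsub hζ))
  refine ⟨max r (1 / 2), lt_max_of_lt_right (by norm_num), max_lt hr1 (by norm_num), ?_⟩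
  intro b hb hb1
  have hb' : b ∈ ball (0 : ℂ) 1 := by simpa using hb1
  have hb0 : b ≠ 0 := by
    intro h0
    rw [h0, norm_zero] at hb
    have := le_max_right r (1 / 2)
    linarith
  rw [h.E_div hb' hb0]
  by_contra hcon
  have h1 : ψ b ∈ emD U z0 := Or.inr hcon
  have h2 : b ∈ ball (0 : ℂ) r := hr ⟨ψ b, h1, h.φψ b hb'⟩
  rw [mem_ball, dist_zero_right] at h2
  have := le_max_left r (1 / 2)
  linarith

/-- The dilation `w ↦ z + t (w - z)`, `t ≥ 1`, in the inverted coordinate. -/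
theorem dil (h : EmData L z0 φ ψ) {z : ℂ} (hz : z ∈ L) {t : ℝ} (ht : 1 ≤ t) {ζ : ℂ}
    (hζ : ζ ∈ emD L z0) :
    (t : ℂ) + (1 - t) * ((z - z0) * ζ) ≠ 0 ∧
      ζ / ((t : ℂ) + (1 - t) * ((z - z0) * ζ)) ∈ emD L z0 := by
  have ht0 : (0 : ℝ) < t := by linarith
  have htc : (t : ℂ) ≠ 0 := by exact_mod_cast ht0.ne'
  by_cases h0 : ζ = 0
  · subst h0
    refine ⟨by simpa using ht0.ne', Or.inl (by simp)⟩
  · have h1 : z0 + ζ⁻¹ ∉ L := hζ.resolve_left h0
    have h2 : z + t * (z0 + ζ⁻¹ - z) ∉ L := by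
      intro hmem
      apply h1
      have h3 : 0 ≤ 1 - t⁻¹ := by
        have := inv_le_one_of_one_le₀ ht
        linarith
      have := h.cvx hz hmem h3 (inv_pos.mpr ht0).le (by ring)
      convert this using 1
      simp only [Complex.real_smul]
      push_cast
      field_simp
      ring
    have h4 : (t : ℂ) + (1 - t) * ((z - z0) * ζ) = ζ * (z + t * (z0 + ζ⁻¹ - z) - z0) := by
      field_simp
      ring
    have h5 : z + t * (z0 + ζ⁻¹ - z) - z0 ≠ 0 := by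
      intro h6
      apply h2
      rw [sub_eq_zero.mp h6]
      exact h.mem
    refine ⟨by rw [h4]; exact mul_ne_zero h0 h5, Or.inr ?_⟩
    rw [h4, inv_div, mul_div_cancel_left₀ _ h0, add_sub_cancel]
    exact h2

theorem schwarz_dil (h : EmData L z0 φ ψ) {z : ℂ} (hz : z ∈ L) {t : ℝ} (ht : 1 ≤ t) {a : ℂ}
    (ha : a ∈ ball (0 : ℂ) 1) :
    ‖φ (ψ a / ((t : ℂ) + (1 - t) * ((z - z0) * ψ a)))‖ ≤ ‖a‖ := by
  have hmaps : MapsTo (fun a => ψ a / ((t : ℂ) + (1 - t) * ((z - z0) * ψ a))) (ball 0 1)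
      (emD L z0) := fun b hb => (h.dil hz ht (h.mψ hb)).2
  have hd : DifferentiableOn ℂ (fun a => ψ a / ((t : ℂ) + (1 - t) * ((z - z0) * ψ a)))
      (ball 0 1) :=
    h.dψ.div ((differentiableOn_const _).add ((h.dψ.const_mul _).const_mul _))
      fun b hb => (h.dil hz ht (h.mψ hb)).1
  have := Complex.norm_le_norm_of_mapsTo_ball (R := 1)
    (f := φ ∘ fun a => ψ a / ((t : ℂ) + (1 - t) * ((z - z0) * ψ a))) (z := a)
    (h.dφ.comp hd hmaps) (fun b hb => ball_subset_closedBall (h.mφ (hmaps hb)))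
    (by simp [h.ψ0, h.φ0]) (by simpa using ha)
  exact this

/-- (a) positivity against points of `L`. -/
theorem re_div_nonneg (h : EmData L z0 φ ψ) {z : ℂ} (hz : z ∈ L) {a : ℂ}
    (ha : a ∈ ball (0 : ℂ) 1) : 0 ≤ ((emE z0 ψ a - a * z) / nu (emE z0 ψ) a).re := by
  by_cases ha0 : a = 0
  · have h1 : nu (emE z0 ψ) 0 = emE z0 ψ 0 := by simp [nu]
    have h2 := h.nu_ne (mem_ball_self one_pos)
    rw [ha0, zero_mul, sub_zero, ← h1, div_self h2]
    simp
  set ζ := ψ a with hζ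
  set c := (z - z0) * ζ with hc
  have hT : HasDerivAt (fun l : ℂ => ζ / (l + (1 - l) * c)) (-(ζ * (1 - c))) 1 := by
    have h1 : HasDerivAt (fun l : ℂ => l + (1 - l) * c) (1 + (0 - 1) * c) 1 :=
      (hasDerivAt_id (1 : ℂ)).add (((hasDerivAt_const (1 : ℂ) (1 : ℂ)).sub
        (hasDerivAt_id (1 : ℂ))).mul_const c)
    have h2 : HasDerivAt (fun l : ℂ => ζ / (l + (1 - l) * c))
        ((0 * (1 + (1 - 1) * c) - ζ * (1 + (0 - 1) * c)) / (1 + (1 - 1) * c) ^ 2) 1 :=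
      (hasDerivAt_const (1 : ℂ) ζ).div h1 (by simp)
    convert h2 using 1
    simp only [sub_self, zero_mul, add_zero, one_pow, div_one]
    ring
  have hφ : HasDerivAt φ (deriv φ ζ) (ζ / (1 + (1 - 1) * c)) := by
    have : ζ / (1 + (1 - 1) * c) = ζ := by simp
    rw [this]
    exact h.hasDerivAt_φ (h.mψ ha)
  have hG : HasDerivAt (fun l : ℂ => conj a * φ (ζ / (l + (1 - l) * c)))
      (conj a * (deriv φ ζ * -(ζ * (1 - c)))) ((1 : ℝ) : ℂ) := by
    have := (hφ.comp (1 : ℂ) hT).const_mul (conj a)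
    simpa using this
  have hg := hG.real_of_complex
  have hle : (conj a * (deriv φ ζ * -(ζ * (1 - c)))).re ≤ 0 := by
    refine le_of_tendsto hg.tendsto_slope_zero_right ?_
    filter_upwards [self_mem_nhdsWithin] with s hs
    have hs0 : (0 : ℝ) < s := hs
    have h1 := h.schwarz_dil hz (t := 1 + s) (by linarith) ha
    have h2 : (conj a * φ (ζ / (((1 + s : ℝ) : ℂ) + (1 - ((1 + s : ℝ) : ℂ)) * c))).re ≤ ‖a‖ * ‖a‖ := by
      refine (Complex.re_le_norm _).trans ?_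
      rw [norm_mul, Complex.norm_conj]
      exact mul_le_mul_of_nonneg_left h1 (norm_nonneg _)
    have h3 : (conj a * φ (ζ / (((1 : ℝ) : ℂ) + (1 - ((1 : ℝ) : ℂ)) * c))).re = ‖a‖ * ‖a‖ := by
      have : ζ / (((1 : ℝ) : ℂ) + (1 - ((1 : ℝ) : ℂ)) * c) = ζ := by simp
      rw [this, hζ, h.φψ a ha, Complex.conj_mul', ← sq]
      norm_cast
    rw [smul_eq_mul]
    exact mul_nonpos_of_nonneg_of_nonpos (inv_pos.mpr hs0).le (by linarith)
  have hχ := h.χ_ne ha
  have hψ' := h.deriv_ψ_ne ha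
  have hφ' : deriv φ ζ = (deriv ψ a)⁻¹ := eq_inv_of_mul_eq_one_left (h.deriv_mul ha)
  have hkey : conj a * (deriv φ ζ * -(ζ * (1 - c))) =
      -(((‖a‖ ^ 2 : ℝ) : ℂ) * ((emE z0 ψ a - a * z) / nu (emE z0 ψ) a)) := by
    rw [h.nu_eq ha, hφ', hc, hζ, emE, h.ψ_eq a]
    push_cast
    rw [← Complex.conj_mul']
    field_simp
    ring
  rw [hkey, Complex.neg_re, Complex.re_ofReal_mul] at hle
  have hpos : 0 < ‖a‖ ^ 2 := pow_pos (norm_pos_iff.mpr ha0) 2
  by_contra hneg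
  push Not at hneg
  nlinarith

theorem dnu (h : EmData L z0 φ ψ) : DifferentiableOn ℂ (nu (emE z0 ψ)) (ball 0 1) :=
  h.dE.sub (differentiableOn_id.mul (h.dE.deriv isOpen_ball))

/-- (b) positivity against points of inner level curves. -/
theorem re_div_nonneg_lt (h : EmData L z0 φ ψ) {ω b : ℂ} (hω : ‖ω‖ < 1) (hb : ‖b‖ < 1) :
    0 ≤ ((emE z0 ψ (ω * b) - ω * emE z0 ψ b) / nu (emE z0 ψ) (ω * b)).re := by
  set f : ℂ → ℂ := fun b => (emE z0 ψ (ω * b) - ω * emE z0 ψ b) / nu (emE z0 ψ) (ω * b) with hf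
  have hmul : ∀ b ∈ ball (0 : ℂ) 1, ω * b ∈ closedBall (0 : ℂ) ‖ω‖ := by
    intro b hb
    rw [mem_ball, dist_zero_right] at hb
    rw [mem_closedBall, dist_zero_right, norm_mul]
    exact mul_le_of_le_one_right (norm_nonneg _) hb.le
  have hsub : closedBall (0 : ℂ) ‖ω‖ ⊆ ball 0 1 := closedBall_subset_ball hω
  have hmaps : MapsTo (fun b => ω * b) (ball (0 : ℂ) 1) (ball 0 1) := fun b hb => hsub (hmul b hb)
  have hlin : DifferentiableOn ℂ (fun b : ℂ => ω * b) (ball 0 1) :=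
    differentiableOn_id.const_mul ω
  have hdf : DifferentiableOn ℂ f (ball 0 1) :=
    ((h.dE.comp hlin hmaps).sub (h.dE.const_mul ω)).div (h.dnu.comp hlin hmaps)
      fun b hb => h.nu_ne (hmaps hb)
  -- a bound for `1 / nu` on the closed disc of radius `‖ω‖`
  obtain ⟨C, hC⟩ := (isCompact_closedBall (0 : ℂ) ‖ω‖).exists_bound_of_continuousOn
    (f := fun a => (nu (emE z0 ψ) a)⁻¹)
    ((h.dnu.continuousOn.mono hsub).inv₀ fun a ha => h.nu_ne (hsub ha))
  have hC0 : 0 ≤ C := (norm_nonneg _).trans (hC 0 (mem_closedBall_self (norm_nonneg _)))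
  refine le_of_forall_pos_le_add fun ε hε => ?_
  have hε' : 0 < ε / (C + 1) := by positivity
  obtain ⟨r, hr0, hr1, hr⟩ := h.near_boundary (U := thickening (ε / (C + 1)) L)
    isOpen_thickening (self_subset_thickening hε' L)
  set r' := max r ‖b‖ with hr'
  have hr'1 : r' < 1 := max_lt hr1 hb
  have hr'0 : 0 < r' := lt_max_of_lt_left hr0
  have hsph : ∀ w ∈ frontier (ball (0 : ℂ) r'), ‖Complex.exp (-f w)‖ ≤ Real.exp ε := by
    intro w hw
    rw [frontier_ball _ hr'0.ne', mem_sphere, dist_zero_right] at hw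
    have hw1 : w ∈ ball (0 : ℂ) 1 := by rw [mem_ball, dist_zero_right, hw]; exact hr'1
    have hw0 : w ≠ 0 := by
      intro h0; rw [h0, norm_zero] at hw; exact hr'0.ne hw
    obtain ⟨z, hz, hzd⟩ := mem_thickening_iff.mp
      (hr w (by rw [hw]; exact le_max_left _ _) (by rw [hw]; exact hr'1))
    rw [Complex.norm_exp, Real.exp_le_exp, Complex.neg_re]
    have h1 := h.re_div_nonneg hz (hmaps hw1)
    have h2 : f w = (emE z0 ψ (ω * w) - ω * w * z) / nu (emE z0 ψ) (ω * w) -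
        ω * w * (emE z0 ψ w / w - z) * (nu (emE z0 ψ) (ω * w))⁻¹ := by
      rw [hf]
      field_simp
      ring
    have h3 : ‖ω * w * (emE z0 ψ w / w - z) * (nu (emE z0 ψ) (ω * w))⁻¹‖ ≤ ε := by
      rw [norm_mul, norm_mul]
      have h4 : ‖ω * w‖ ≤ 1 := by
        have := hmaps hw1
        rw [mem_ball, dist_zero_right] at this
        exact this.le
      have h5 : ‖emE z0 ψ w / w - z‖ ≤ ε / (C + 1) := by
        rw [← dist_eq_norm]; exact hzd.le
      have h6 := hC _ (hmul w hw1)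
      calc ‖ω * w‖ * ‖emE z0 ψ w / w - z‖ * ‖(nu (emE z0 ψ) (ω * w))⁻¹‖
          ≤ 1 * (ε / (C + 1)) * (C + 1) := by
            gcongr
            linarith
        _ = ε := by field_simp
    have h7 := (Complex.re_le_norm _).trans h3
    rw [h2, Complex.sub_re]
    linarith
  have hdc : DiffContOnCl ℂ (fun w => Complex.exp (-f w)) (ball 0 r') := by
    apply DifferentiableOn.diffContOnCl
    rw [closure_ball _ hr'0.ne']
    exact (hdf.mono (closedBall_subset_ball hr'1)).neg.cexp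
  have := Complex.norm_le_of_forall_mem_frontier_norm_le isBounded_ball hdc hsph (z := b)
    (by rw [closure_ball _ hr'0.ne', mem_closedBall, dist_zero_right]; exact le_max_right _ _)
  rw [Complex.norm_exp, Real.exp_le_exp, Complex.neg_re] at this
  change 0 ≤ (f b).re + ε
  linarith

end EmData

theorem em_re_conj_mul {u v : ℂ} (hv : v ≠ 0) (h : 0 ≤ (u / v).re) : 0 ≤ (conj v * u).re := by
  have : conj v * u = ((‖v‖ ^ 2 : ℝ) : ℂ) * (u / v) := by
    push_cast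
    rw [← Complex.conj_mul']
    field_simp
  rw [this, Complex.re_ofReal_mul]
  positivity

namespace EmData

variable {L : Set ℂ} {z0 : ℂ} {φ ψ : ℂ → ℂ}

/-- (b') positivity on a level curve. -/
theorem re_conj_nonneg_le (h : EmData L z0 φ ψ) {ω b : ℂ} (hω : ‖ω‖ ≤ 1) (hb : ‖b‖ < 1) :
    0 ≤ (conj (nu (emE z0 ψ) (ω * b)) * (emE z0 ψ (ω * b) - ω * emE z0 ψ b)).re := by
  have hmaps : MapsTo (fun ω => ω * b) (closedBall (0 : ℂ) 1) (ball 0 1) := by
    intro w hw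
    rw [mem_closedBall, dist_zero_right] at hw
    rw [mem_ball, dist_zero_right, norm_mul]
    exact (mul_le_of_le_one_left (norm_nonneg _) hw).trans_lt hb
  have hlin : ContinuousOn (fun w : ℂ => w * b) (closedBall 0 1) := by fun_prop
  have hc : ContinuousOn (fun w : ℂ =>
      (conj (nu (emE z0 ψ) (w * b)) * (emE z0 ψ (w * b) - w * emE z0 ψ b)).re)
      (closure (ball 0 1)) := by
    rw [closure_ball _ one_ne_zero]
    refine Complex.continuous_re.comp_continuousOn ?_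
    refine (Complex.continuous_conj.comp_continuousOn
      (h.dnu.continuousOn.comp hlin hmaps)).mul ?_
    exact (h.dE.continuousOn.comp hlin hmaps).sub (by fun_prop)
  refine le_on_closure (s := ball 0 1) (f := fun _ => (0 : ℝ)) ?_ continuousOn_const hc
    (by rw [closure_ball _ one_ne_zero, mem_closedBall, dist_zero_right]; exact hω)
  intro w hw
  exact em_re_conj_mul (h.nu_ne (hmaps (ball_subset_closedBall hw)))
    (h.re_div_nonneg_lt (by simpa using hw) hb)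

/-- (c) rescaling. -/
theorem exists_ext (h : EmData L z0 φ ψ) {Ω : Set ℂ} (hΩ : IsOpen Ω) (hLΩ : L ⊆ Ω) :
    ∃ (E : ℂ → ℂ) (R : ℝ), ExtData E R ∧
      (∀ z ∈ L, ∀ a ∈ ball (0 : ℂ) R, E a ≠ a * z) ∧
      (∀ z ∈ L, ∀ a : ℂ, ‖a‖ = 1 → 0 ≤ (conj (nu E a) * (E a - a * z)).re) ∧
      (∀ b : ℂ, ‖b‖ = 1 → E b / b ∈ Ω) := by
  obtain ⟨ρ, hρ0, hρ1, hρ⟩ := h.near_boundary hΩ hLΩ
  have hρc : (ρ : ℂ) ≠ 0 := by exact_mod_cast hρ0.ne'
  set E : ℂ → ℂ := fun a => emE z0 ψ (ρ * a) / ρ with hE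
  have hnorm : ∀ a : ℂ, ‖(ρ : ℂ) * a‖ = ρ * ‖a‖ := fun a => by
    rw [norm_mul, Complex.norm_real, Real.norm_of_nonneg hρ0.le]
  have hmaps : MapsTo (fun a : ℂ => (ρ : ℂ) * a) (ball 0 ρ⁻¹) (ball 0 1) := by
    intro a ha
    rw [mem_ball, dist_zero_right] at ha ⊢
    rw [hnorm]
    calc ρ * ‖a‖ < ρ * ρ⁻¹ := mul_lt_mul_of_pos_left ha hρ0
      _ = 1 := mul_inv_cancel₀ hρ0.ne'
  have hR : 1 < ρ⁻¹ := one_lt_inv_iff₀.mpr ⟨hρ0, hρ1⟩
  have hsph : ∀ a : ℂ, ‖a‖ = 1 → a ∈ ball (0 : ℂ) ρ⁻¹ := fun a ha => by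
    rw [mem_ball, dist_zero_right, ha]; exact hR
  have hnu : ∀ a ∈ ball (0 : ℂ) ρ⁻¹, nu E a = nu (emE z0 ψ) (ρ * a) / ρ := by
    intro a ha
    have h1 : HasDerivAt (emE z0 ψ) (deriv (emE z0 ψ) (ρ * a)) (ρ * a) :=
      (h.dE.differentiableAt (isOpen_ball.mem_nhds (hmaps ha))).hasDerivAt
    have h2 : HasDerivAt E (deriv (emE z0 ψ) (ρ * a) * (ρ * 1) / ρ) a :=
      (h1.comp a ((hasDerivAt_id a).const_mul (ρ : ℂ))).div_const (ρ : ℂ)
    rw [nu, nu, h2.deriv, hE]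
    field_simp
  have hre : ∀ u v : ℂ, 0 ≤ (conj u * v).re → 0 ≤ (conj (u / ρ) * (v / ρ)).re := by
    intro u v huv
    have : conj (u / ρ) * (v / ρ) = (((ρ ^ 2)⁻¹ : ℝ) : ℂ) * (conj u * v) := by
      rw [map_div₀, Complex.conj_ofReal]
      push_cast
      field_simp
    rw [this, Complex.re_ofReal_mul]
    positivity
  refine ⟨E, ρ⁻¹, ⟨hR, ?_, ?_, ?_, ?_⟩, ?_, ?_, ?_⟩
  · exact (h.dE.comp (differentiableOn_id.const_mul (ρ : ℂ)) hmaps).div_const (ρ : ℂ)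
  · intro a ha b hb hab
    have := h.E_inj (hmaps ha) (hmaps hb) (by
      simp only [hE] at hab
      rw [← mul_div_assoc, ← mul_div_assoc, div_left_inj' hρc] at hab
      linear_combination ρ * hab)
    exact mul_left_cancel₀ hρc this
  · intro a ha
    rw [hnu a ha]
    exact div_ne_zero (h.nu_ne (hmaps ha)) hρc
  · intro a b ha hb
    have hb0 : b ≠ 0 := by
      intro h0; rw [h0, norm_zero] at hb; exact zero_ne_one hb
    have h1 := h.re_conj_nonneg_le (ω := a / b) (b := ρ * b)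
      (by rw [norm_div, ha, hb]; norm_num) (by rw [hnorm, hb, mul_one]; exact hρ1)
    have h2 : a / b * (ρ * b) = ρ * a := by field_simp
    rw [h2] at h1
    have h3 := hre _ _ h1
    rw [hnu a (hsph a ha)]
    convert h3 using 3
    simp only [hE]
    field_simp
  · intro z hz a ha he
    apply h.E_ne hz (hmaps ha)
    simp only [hE] at he
    field_simp at he
    linear_combination he
  · intro z hz a ha
    have h1 := em_re_conj_mul (h.nu_ne (hmaps (hsph a ha)))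
      (h.re_div_nonneg hz (hmaps (hsph a ha)))
    have h3 := hre _ _ h1
    rw [hnu a (hsph a ha)]
    convert h3 using 3
    simp only [hE]
    field_simp
  · intro b hb
    have := hρ (ρ * b) (by rw [hnorm, hb, mul_one]) (by rw [hnorm, hb, mul_one]; exact hρ1)
    convert this using 1
    simp only [hE]
    rw [div_div]

end EmData

/-- The exterior map, given the Riemann mapping theorem and holomorphic inverses. -/
theorem exists_extData_of_rmt
    (hRM : ∀ {U : Set ℂ}, IsOpen U → IsSimplyConnected U → U ≠ univ → ∀ {z₀ : ℂ}, z₀ ∈ U →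
      ∃ f : ℂ → ℂ, DifferentiableOn ℂ f U ∧ InjOn f U ∧ f '' U = ball 0 1 ∧ f z₀ = 0)
    (hInv : ∀ {U : Set ℂ}, IsOpen U → ∀ {f : ℂ → ℂ}, DifferentiableOn ℂ f U → InjOn f U →
      IsOpen (f '' U) ∧ ∃ g : ℂ → ℂ, DifferentiableOn ℂ g (f '' U) ∧ ∀ z ∈ U, g (f z) = z)
    {K Ω : Set ℂ} (hKc : IsCompact K) (hKv : Convex ℝ K) (hKn : K.Nonempty)
    (hΩ : IsOpen Ω) (hKΩ : K ⊆ Ω) :
    ∃ (E : ℂ → ℂ) (R : ℝ), ExtData E R ∧
      (∀ z ∈ K, ∀ a ∈ ball (0 : ℂ) R, E a ≠ a * z) ∧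
      (∀ z ∈ K, ∀ a : ℂ, ‖a‖ = 1 → 0 ≤ (conj (nu E a) * (E a - a * z)).re) ∧
      (∀ b : ℂ, ‖b‖ = 1 → E b / b ∈ Ω) := by
  obtain ⟨δ, hδ, hδΩ⟩ := hKc.exists_cthickening_subset_open hΩ hKΩ
  obtain ⟨z0, hz0⟩ := hKn
  set L := cthickening δ K with hL
  have hKL : K ⊆ L := self_subset_cthickening K
  have hLc : IsCompact L := hKc.cthickening
  have hLv : Convex ℝ L := hKv.cthickening δ
  have hball : ball z0 δ ⊆ L := (ball_subset_thickening hz0 δ).trans (thickening_subset_cthickening δ K)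
  have hbdd : Bornology.IsBounded (emD L z0) := isBounded_closedBall.subset (emD_subset hδ hball)
  have hne : emD L z0 ≠ univ := by
    intro hu
    rw [hu] at hbdd
    exact NormedSpace.unbounded_univ ℝ ℂ hbdd
  obtain ⟨φ, hφd, hφi, hφs, hφ0⟩ := hRM (emD_isOpen hLc z0) (emD_isSimplyConnected hLv (hKL hz0))
    hne (z₀ := 0) (Or.inl rfl)
  obtain ⟨-, ψ, hψd, hψ⟩ := hInv (emD_isOpen hLc z0) hφd hφi
  rw [hφs] at hψd
  have hdata : EmData L z0 φ ψ :=
    { cpt := hLc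
      cvx := hLv
      mem := hKL hz0
      bdd := hbdd
      dφ := hφd
      dψ := hψd
      mφ := fun ζ hζ => hφs ▸ mem_image_of_mem φ hζ
      mψ := by
        intro a ha
        rw [← hφs] at ha
        obtain ⟨ζ, hζ, rfl⟩ := ha
        rw [hψ ζ hζ]; exact hζ
      φψ := by
        intro a ha
        rw [← hφs] at ha
        obtain ⟨ζ, hζ, rfl⟩ := ha
        rw [hψ ζ hζ]
      ψφ := hψ
      φ0 := hφ0 }
  obtain ⟨E, R, h1, h2, h3, h4⟩ := hdata.exists_ext hΩ hδΩ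
  exact ⟨E, R, h1, fun z hz => h2 z (hKL hz), fun z hz => h3 z (hKL hz), h4⟩

end Crest.Agent.R132
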