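import Crest.Agent.R132.Defs

/-!
Holomorphic functional calculus modulo a polynomial (task HolFC of row 132).  Author: helper90.
-/

open Metric Set Polynomial Filter Topology
open scoped ComplexOrder ComplexConjugate
open Crest.AnalysisR.NumRange

namespace Crest.Agent.R132

theorem spectrum_subset_numRange {n : ℕ} (A : Matrix (Fin n) (Fin n) ℂ) :
    spectrum ℂ A ⊆ numRange A := by
  intro μ hμ
  rw [← Matrix.spectrum_toLpLin 2] at hμ
  have h1 : Module.End.HasEigenvalue (Matrix.toEuclideanLin A) μ :=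
    Module.End.hasEigenvalue_iff_mem_spectrum.mpr hμ
  obtain ⟨v, hv⟩ := h1.exists_hasEigenvector
  have hv0 : v ≠ 0 := hv.2
  have hvA : Matrix.toEuclideanLin A v = μ • v := hv.apply_eq_smul
  have hn : ‖v‖ ≠ 0 := norm_ne_zero_iff.mpr hv0
  have hx : ‖((‖v‖⁻¹ : ℝ) : ℂ) • v‖ = 1 := by
    rw [norm_smul, Complex.norm_real, norm_inv, norm_norm, inv_mul_cancel₀ hn]
  refine ⟨((‖v‖⁻¹ : ℝ) : ℂ) • v, hx, ?_⟩
  have h2 : Matrix.toEuclideanLin A (((‖v‖⁻¹ : ℝ) : ℂ) • v) = μ • (((‖v‖⁻¹ : ℝ) : ℂ) • v) := by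
    rw [map_smul, hvA, smul_comm]
  rw [h2, inner_smul_right, inner_self_eq_norm_sq_to_K, hx]
  simp

theorem nr_toEuclideanCLM {n : ℕ} (A : Matrix (Fin n) (Fin n) ℂ) :
    nr (Matrix.toEuclideanCLM (n := Fin n) (𝕜 := ℂ) A) = numRange A := by
  rfl

/-- Induction principle: a nonzero complex polynomial is a nonzero constant times linear
factors. -/
theorem hf_poly_induction {P : (χ : ℂ[X]) → χ ≠ 0 → Prop}
    (hC : ∀ (c : ℂ) (hc : c ≠ 0), P (C c) (C_ne_zero.mpr hc))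
    (hstep : ∀ (a : ℂ) (χ : ℂ[X]) (hχ : χ ≠ 0), P χ hχ →
      P ((X - C a) * χ) (mul_ne_zero (X_sub_C_ne_zero a) hχ))
    (χ : ℂ[X]) (hχ : χ ≠ 0) : P χ hχ := by
  induction hd : χ.natDegree using Nat.strong_induction_on generalizing χ with
  | _ d ih =>
    by_cases h0 : χ.natDegree = 0
    · obtain ⟨c, rfl⟩ : ∃ c, χ = C c := ⟨_, Polynomial.eq_C_of_natDegree_eq_zero h0⟩
      exact hC c (C_ne_zero.mp hχ)
    · have hdeg : χ.degree ≠ 0 := by
        intro h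
        exact h0 (Polynomial.natDegree_eq_zero_iff_degree_le_zero.mpr h.le)
      obtain ⟨a, ha⟩ := IsAlgClosed.exists_root χ hdeg
      obtain ⟨χ', hχ'⟩ := Polynomial.dvd_iff_isRoot.mpr ha
      have hne : χ' ≠ 0 := by
        rintro rfl
        exact hχ (by simpa using hχ')
      have hlt : χ'.natDegree < d := by
        rw [← hd, hχ', Polynomial.natDegree_mul (X_sub_C_ne_zero a) hne, natDegree_X_sub_C]
        omega
      subst hχ'
      exact hstep a χ' hne (ih _ hlt χ' hne rfl)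

/-- One division step: `h = c + (z - a) h'` with `h'` holomorphic. -/
theorem hf_div_step {Ω : Set ℂ} (hΩ : IsOpen Ω) (a : ℂ) {h : ℂ → ℂ}
    (hh : DifferentiableOn ℂ h Ω) :
    ∃ (c : ℂ) (h' : ℂ → ℂ), DifferentiableOn ℂ h' Ω ∧ (a ∈ Ω → c = h a) ∧
      ∀ z ∈ Ω, h z = c + (z - a) * h' z := by
  by_cases ha : a ∈ Ω
  · refine ⟨h a, dslope h a, (Complex.differentiableOn_dslope (hΩ.mem_nhds ha)).mpr hh,
      fun _ => rfl, fun z _ => ?_⟩
    have := sub_smul_dslope h a z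
    rw [smul_eq_mul] at this
    rw [this]; ring
  · refine ⟨0, fun z => h z / (z - a), ?_, fun h' => absurd h' ha, fun z hz => ?_⟩
    · refine hh.div (by fun_prop) (fun z hz => sub_ne_zero.mpr ?_)
      rintro rfl
      exact ha hz
    · have : z - a ≠ 0 := sub_ne_zero.mpr (by rintro rfl; exact ha hz)
      field_simp
      ring

theorem exists_rep {Ω : Set ℂ} (hΩ : IsOpen Ω) {χ : Polynomial ℂ} (hχ : χ ≠ 0) {h : ℂ → ℂ}
    (hh : DifferentiableOn ℂ h Ω) : ∃ q, Rep Ω χ h q := by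
  induction χ, hχ using hf_poly_induction generalizing h with
  | hC c hc =>
    refine ⟨0, fun z => h z / c, hh.div_const c, fun z _ => ?_⟩
    simp only [eval_zero, eval_C, zero_add]
    field_simp
  | hstep a χ _ ih =>
    obtain ⟨c, h', hd, -, he⟩ := hf_div_step hΩ a hh
    obtain ⟨q', ψ, hψ, hq'⟩ := ih hd
    refine ⟨C c + (X - C a) * q', ψ, hψ, fun z hz => ?_⟩
    rw [he z hz, hq' z hz]
    simp only [eval_add, eval_C, eval_mul, eval_sub, eval_X]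
    ring

/-- A holomorphic function vanishing at the roots of `χ` with multiplicity is divisible
by `χ`. -/
theorem hf_exists_quot {Ω : Set ℂ} (hΩ : IsOpen Ω) {χ : Polynomial ℂ} (hχ : χ ≠ 0) {g : ℂ → ℂ}
    (hg : DifferentiableOn ℂ g Ω)
    (hord : ∀ μ, χ.IsRoot μ → μ ∈ Ω ∧ (χ.rootMultiplicity μ : ℕ∞) ≤ analyticOrderAt g μ) :
    ∃ ψ : ℂ → ℂ, DifferentiableOn ℂ ψ Ω ∧ ∀ z ∈ Ω, g z = χ.eval z * ψ z := by
  classical
  induction χ, hχ using hf_poly_induction generalizing g with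
  | hC c hc =>
    refine ⟨fun z => g z / c, hg.div_const c, fun z _ => ?_⟩
    simp only [eval_C]
    field_simp
  | hstep a χ hχ ih =>
    obtain ⟨c, g', hd, hc, he⟩ := hf_div_step hΩ a hg
    have hne : (X - C a) * χ ≠ 0 := mul_ne_zero (X_sub_C_ne_zero a) hχ
    have hra : ((X - C a) * χ).IsRoot a := by simp
    obtain ⟨haΩ, hao⟩ := hord a hra
    have hga : g a = 0 := by
      have h1 : analyticOrderAt g a ≠ 0 := by
        intro h0
        rw [h0, Polynomial.rootMultiplicity_mul hne, Polynomial.rootMultiplicity_X_sub_C_self]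
          at hao
        simp at hao
      exact (analyticOrderAt_ne_zero.mp h1).2
    have hc0 : c = 0 := by rw [hc haΩ, hga]
    have hord' : ∀ μ, χ.IsRoot μ →
        μ ∈ Ω ∧ (χ.rootMultiplicity μ : ℕ∞) ≤ analyticOrderAt g' μ := by
      intro μ hμ
      have hr : ((X - C a) * χ).IsRoot μ := by
        rw [IsRoot.def, eval_mul, hμ.eq_zero, mul_zero]
      obtain ⟨hμΩ, hμo⟩ := hord μ hr
      refine ⟨hμΩ, ?_⟩
      have hg'a : AnalyticAt ℂ g' μ := hd.analyticAt (hΩ.mem_nhds hμΩ)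
      have hev : g =ᶠ[𝓝 μ] (fun z => z - a) * g' := by
        filter_upwards [hΩ.mem_nhds hμΩ] with z hz
        rw [he z hz, hc0]; simp
      rw [analyticOrderAt_congr hev, analyticOrderAt_mul (by fun_prop) hg'a,
        Polynomial.rootMultiplicity_mul hne, Polynomial.rootMultiplicity_X_sub_C] at hμo
      by_cases hμa : μ = a
      · subst hμa
        rw [if_pos rfl, analyticOrderAt_id_sub_const_self, Nat.cast_add, Nat.cast_one] at hμo
        exact (ENat.add_le_add_iff_left ENat.one_ne_top).mp hμo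
      · rw [if_neg hμa, analyticOrderAt_id_sub_const_of_ne hμa] at hμo
        simpa using hμo
    obtain ⟨ψ, hψ, hq⟩ := ih hd hord'
    refine ⟨ψ, hψ, fun z hz => ?_⟩
    rw [he z hz, hq z hz, hc0]
    simp only [eval_mul, eval_sub, eval_X, eval_C]
    ring

theorem rep_of_agrees {n : ℕ} (A : Matrix (Fin n) (Fin n) ℂ) {Ω : Set ℂ} (hΩ : IsOpen Ω)
    (hA : spectrum ℂ A ⊆ Ω) {h : ℂ → ℂ} (hh : DifferentiableOn ℂ h Ω) {q : Polynomial ℂ}
    (hq : AgreesOnSpectrum A h q) : Rep Ω A.charpoly h q := by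
  classical
  have hχ : A.charpoly ≠ 0 := A.charpoly_monic.ne_zero
  have hqd : Differentiable ℂ (fun z => q.eval z) := q.differentiable
  have hg : DifferentiableOn ℂ (fun z => h z - q.eval z) Ω := hh.sub hqd.differentiableOn
  obtain ⟨ψ, hψ, he⟩ := hf_exists_quot hΩ hχ hg (fun μ hμ => by
    have hμs : μ ∈ spectrum ℂ A := Matrix.mem_spectrum_iff_isRoot_charpoly.mpr hμ
    have hμΩ := hA hμs
    refine ⟨hμΩ, ?_⟩
    have hm : A.charpoly.rootMultiplicity μ ≤ n := by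
      rw [← Polynomial.count_roots]
      refine (Multiset.count_le_card _ _).trans ((Polynomial.card_roots' _).trans ?_)
      rw [Matrix.charpoly_natDegree_eq_dim, Fintype.card_fin]
    have hha : AnalyticAt ℂ h μ := hh.analyticAt (hΩ.mem_nhds hμΩ)
    have hqa : AnalyticAt ℂ (fun z => q.eval z) μ := hqd.analyticAt μ
    rw [natCast_le_analyticOrderAt_iff_iteratedDeriv_eq_zero (hha.fun_sub hqa)]
    intro i hi
    rw [iteratedDeriv_fun_sub hha.contDiffAt hqa.contDiffAt, hq μ hμs i (lt_of_lt_of_le hi hm),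
      sub_self])
  exact ⟨ψ, hψ, fun z hz => by rw [← he z hz]; ring⟩

/-- A polynomial that is a holomorphic multiple of `χ` near the roots of `χ` is a polynomial
multiple of `χ`. -/
theorem hf_dvd_of_eq_mul {Ω : Set ℂ} (hΩ : IsOpen Ω) {χ : Polynomial ℂ} (hχ : χ ≠ 0)
    (hroots : ∀ z, χ.IsRoot z → z ∈ Ω) {p : Polynomial ℂ} {ψ : ℂ → ℂ}
    (hψ : DifferentiableOn ℂ ψ Ω) (hp : ∀ z ∈ Ω, p.eval z = χ.eval z * ψ z) : χ ∣ p := by
  induction χ, hχ using hf_poly_induction generalizing p with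
  | hC c hc => exact (Polynomial.isUnit_C.mpr (IsUnit.mk0 c hc)).dvd
  | hstep a χ hχ ih =>
    have haΩ : a ∈ Ω := hroots a (by simp)
    have hpa : p.IsRoot a := by
      rw [IsRoot.def, hp a haΩ]; simp
    obtain ⟨p', rfl⟩ := Polynomial.dvd_iff_isRoot.mpr hpa
    refine mul_dvd_mul_left _ (ih (fun z hz => hroots z ?_) ?_)
    · rw [IsRoot.def, eval_mul, hz.eq_zero, mul_zero]
    · have hne : ∀ z ∈ Ω, z ≠ a → p'.eval z = χ.eval z * ψ z := by
        intro z hz hza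
        have h1 := hp z hz
        simp only [eval_mul, eval_sub, eval_X, eval_C] at h1
        rw [mul_assoc] at h1
        exact mul_left_cancel₀ (sub_ne_zero.mpr hza) h1
      intro z hz
      by_cases hza : z = a
      · subst hza
        have hc1 : ContinuousAt (fun w => p'.eval w) z := p'.continuous.continuousAt
        have hc2 : ContinuousAt (fun w => χ.eval w * ψ w) z :=
          χ.continuous.continuousAt.mul (hψ.continuousOn.continuousAt (hΩ.mem_nhds hz))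
        have hev : (fun w => p'.eval w) =ᶠ[𝓝[≠] z] (fun w => χ.eval w * ψ w) := by
          filter_upwards [nhdsWithin_le_nhds (hΩ.mem_nhds hz), self_mem_nhdsWithin] with w hw hwz
          exact hne w hw hwz
        exact tendsto_nhds_unique_of_eventuallyEq (hc1.tendsto.mono_left nhdsWithin_le_nhds)
          (hc2.tendsto.mono_left nhdsWithin_le_nhds) hev
      · exact hne z hz hza

theorem Rep.dvd_sub {Ω : Set ℂ} (hΩ : IsOpen Ω) {χ : Polynomial ℂ} (hχ : χ ≠ 0)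
    (hroots : ∀ z, χ.IsRoot z → z ∈ Ω) {h : ℂ → ℂ} {q₁ q₂ : Polynomial ℂ}
    (h₁ : Rep Ω χ h q₁) (h₂ : Rep Ω χ h q₂) : χ ∣ q₁ - q₂ := by
  obtain ⟨ψ₁, hψ₁, e₁⟩ := h₁
  obtain ⟨ψ₂, hψ₂, e₂⟩ := h₂
  refine hf_dvd_of_eq_mul hΩ hχ hroots (hψ₂.sub hψ₁) (fun z hz => ?_)
  have := (e₁ z hz).symm.trans (e₂ z hz)
  simp only [eval_sub, Pi.sub_apply]
  linear_combination this

theorem rep_poly (Ω : Set ℂ) (χ q : Polynomial ℂ) : Rep Ω χ (fun z => q.eval z) q :=
  ⟨fun _ => 0, differentiableOn_const 0, fun z _ => by simp⟩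

theorem rep_const (Ω : Set ℂ) (χ : Polynomial ℂ) (c : ℂ) : Rep Ω χ (fun _ => c) (C c) :=
  ⟨fun _ => 0, differentiableOn_const 0, fun z _ => by simp⟩

theorem rep_zero (Ω : Set ℂ) (χ : Polynomial ℂ) : Rep Ω χ (fun _ => 0) 0 :=
  ⟨fun _ => 0, differentiableOn_const 0, fun z _ => by simp⟩

theorem rep_one (Ω : Set ℂ) (χ : Polynomial ℂ) : Rep Ω χ (fun _ => 1) 1 :=
  ⟨fun _ => 0, differentiableOn_const 0, fun z _ => by simp⟩

theorem rep_id (Ω : Set ℂ) (χ : Polynomial ℂ) : Rep Ω χ (fun z => z) X :=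
  ⟨fun _ => 0, differentiableOn_const 0, fun z _ => by simp⟩

theorem Rep.differentiableOn {Ω : Set ℂ} {χ : Polynomial ℂ} {h : ℂ → ℂ} {q : Polynomial ℂ}
    (hq : Rep Ω χ h q) : DifferentiableOn ℂ h Ω := by
  obtain ⟨ψ, hψ, e⟩ := hq
  exact (q.differentiable.differentiableOn.add
    (χ.differentiable.differentiableOn.mul hψ)).congr e

theorem Rep.congr {Ω : Set ℂ} {χ : Polynomial ℂ} {h h' : ℂ → ℂ} {q : Polynomial ℂ}
    (hq : Rep Ω χ h q) (e : ∀ z ∈ Ω, h' z = h z) : Rep Ω χ h' q := by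
  obtain ⟨ψ, hψ, e'⟩ := hq
  exact ⟨ψ, hψ, fun z hz => (e z hz).trans (e' z hz)⟩

theorem Rep.mono {Ω Ω' : Set ℂ} {χ : Polynomial ℂ} {h : ℂ → ℂ} {q : Polynomial ℂ}
    (hq : Rep Ω χ h q) (hsub : Ω' ⊆ Ω) : Rep Ω' χ h q := by
  obtain ⟨ψ, hψ, e⟩ := hq
  exact ⟨ψ, hψ.mono hsub, fun z hz => e z (hsub hz)⟩

/-- The representative may be changed by a multiple of `χ`. -/
theorem Rep.of_dvd_sub {Ω : Set ℂ} {χ : Polynomial ℂ} {h : ℂ → ℂ} {q q' : Polynomial ℂ}
    (hq : Rep Ω χ h q) (hd : χ ∣ q - q') : Rep Ω χ h q' := by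
  obtain ⟨ψ, hψ, e⟩ := hq
  obtain ⟨r, hr⟩ := hd
  refine ⟨fun z => ψ z + r.eval z, hψ.add r.differentiable.differentiableOn, fun z hz => ?_⟩
  have h1 : q.eval z - q'.eval z = χ.eval z * r.eval z := by
    rw [← eval_sub, hr, eval_mul]
  rw [e z hz]
  linear_combination h1

theorem Rep.add {Ω : Set ℂ} {χ : Polynomial ℂ} {h₁ h₂ : ℂ → ℂ} {q₁ q₂ : Polynomial ℂ}
    (r₁ : Rep Ω χ h₁ q₁) (r₂ : Rep Ω χ h₂ q₂) :
    Rep Ω χ (fun z => h₁ z + h₂ z) (q₁ + q₂) := by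
  obtain ⟨ψ₁, hψ₁, e₁⟩ := r₁
  obtain ⟨ψ₂, hψ₂, e₂⟩ := r₂
  refine ⟨fun z => ψ₁ z + ψ₂ z, hψ₁.add hψ₂, fun z hz => ?_⟩
  simp only [e₁ z hz, e₂ z hz, eval_add]
  ring

theorem Rep.sub {Ω : Set ℂ} {χ : Polynomial ℂ} {h₁ h₂ : ℂ → ℂ} {q₁ q₂ : Polynomial ℂ}
    (r₁ : Rep Ω χ h₁ q₁) (r₂ : Rep Ω χ h₂ q₂) :
    Rep Ω χ (fun z => h₁ z - h₂ z) (q₁ - q₂) := by
  obtain ⟨ψ₁, hψ₁, e₁⟩ := r₁
  obtain ⟨ψ₂, hψ₂, e₂⟩ := r₂
  refine ⟨fun z => ψ₁ z - ψ₂ z, hψ₁.sub hψ₂, fun z hz => ?_⟩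
  simp only [e₁ z hz, e₂ z hz, eval_sub]
  ring

theorem Rep.mul {Ω : Set ℂ} {χ : Polynomial ℂ} {h₁ h₂ : ℂ → ℂ} {q₁ q₂ : Polynomial ℂ}
    (r₁ : Rep Ω χ h₁ q₁) (r₂ : Rep Ω χ h₂ q₂) :
    Rep Ω χ (fun z => h₁ z * h₂ z) (q₁ * q₂) := by
  obtain ⟨ψ₁, hψ₁, e₁⟩ := r₁
  obtain ⟨ψ₂, hψ₂, e₂⟩ := r₂
  refine ⟨fun z => q₁.eval z * ψ₂ z + ψ₁ z * q₂.eval z + χ.eval z * (ψ₁ z * ψ₂ z), ?_,
    fun z hz => ?_⟩
  · exact ((q₁.differentiable.differentiableOn.mul hψ₂).add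
      (hψ₁.mul q₂.differentiable.differentiableOn)).add
      (χ.differentiable.differentiableOn.mul (hψ₁.mul hψ₂))
  · simp only [e₁ z hz, e₂ z hz, eval_mul]
    ring

/-- Multiplication by a constant, `C c * q` form. -/
theorem Rep.const_mul {Ω : Set ℂ} {χ : Polynomial ℂ} {h : ℂ → ℂ} {q : Polynomial ℂ}
    (r : Rep Ω χ h q) (c : ℂ) : Rep Ω χ (fun z => c * h z) (C c * q) :=
  (rep_const Ω χ c).mul r

/-- Multiplication by a constant, `c • q` form. -/
theorem Rep.smul {Ω : Set ℂ} {χ : Polynomial ℂ} {h : ℂ → ℂ} {q : Polynomial ℂ}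
    (r : Rep Ω χ h q) (c : ℂ) : Rep Ω χ (fun z => c * h z) (c • q) := by
  rw [Polynomial.smul_eq_C_mul]
  exact r.const_mul c

theorem Rep.pow {Ω : Set ℂ} {χ : Polynomial ℂ} {h : ℂ → ℂ} {q : Polynomial ℂ}
    (r : Rep Ω χ h q) (k : ℕ) : Rep Ω χ (fun z => h z ^ k) (q ^ k) := by
  induction k with
  | zero => simpa using rep_one Ω χ
  | succ k ih => simpa [pow_succ] using ih.mul r

theorem Rep.sum {Ω : Set ℂ} {χ : Polynomial ℂ} {ι : Type*} (s : Finset ι) {h : ι → ℂ → ℂ}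
    {q : ι → Polynomial ℂ} (r : ∀ i ∈ s, Rep Ω χ (h i) (q i)) :
    Rep Ω χ (fun z => ∑ i ∈ s, h i z) (∑ i ∈ s, q i) := by
  classical
  induction s using Finset.induction_on with
  | empty => simpa using rep_zero Ω χ
  | insert a s ha ih =>
    simp only [Finset.sum_insert ha]
    exact (r a (Finset.mem_insert_self a s)).add
      (ih fun i hi => r i (Finset.mem_insert_of_mem hi))

theorem Rep.comp_poly {Ω : Set ℂ} {χ : Polynomial ℂ} {f : ℂ → ℂ} {p : Polynomial ℂ}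
    (hp : Rep Ω χ f p) (s : Polynomial ℂ) : Rep Ω χ (fun z => s.eval (f z)) (s.comp p) := by
  induction s using Polynomial.induction_on' with
  | add s t hs ht => simpa [Polynomial.add_comp] using hs.add ht
  | monomial k c =>
    simpa [Polynomial.monomial_comp, Polynomial.eval_monomial] using (hp.pow k).const_mul c

/-- Two representatives modulo the characteristic polynomial give the same matrix. -/
theorem Rep.aeval_eq {n : ℕ} (A : Matrix (Fin n) (Fin n) ℂ) {Ω : Set ℂ} (hΩ : IsOpen Ω)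
    (hA : spectrum ℂ A ⊆ Ω) {h : ℂ → ℂ} {q₁ q₂ : Polynomial ℂ}
    (h₁ : Rep Ω A.charpoly h q₁) (h₂ : Rep Ω A.charpoly h q₂) :
    Polynomial.aeval A q₁ = Polynomial.aeval A q₂ := by
  obtain ⟨r, hr⟩ := Rep.dvd_sub hΩ A.charpoly_monic.ne_zero
    (fun z hz => hA (Matrix.mem_spectrum_iff_isRoot_charpoly.mpr hz)) h₁ h₂
  rw [← sub_eq_zero, ← map_sub, hr, map_mul, Matrix.aeval_self_charpoly, zero_mul]

end Crest.Agent.R132
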