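import Crest.Agent.R132.KernelAbs

/-!
The Cauchy kernel in the exterior coordinate and the key `L²` lemma.  Owner: helper38.
-/

open Metric Set MeasureTheory Filter
open scoped ComplexConjugate Real Topology

namespace Crest.Agent.R132

/-- `ker E a b = N(a) / (Γ a - Γ b)`. -/
noncomputable def ker (E : ℂ → ℂ) (a b : ℂ) : ℂ := b * nu E a / (b * E a - a * E b)

/-- The regular part of the kernel. -/
noncomputable def Psi (E : ℂ → ℂ) (a b : ℂ) : ℂ := ker E a b - b / (b - a)

variable {E : ℂ → ℂ} {R : ℝ}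

lemma ExtData.zero_mem (hE : ExtData E R) : (0 : ℂ) ∈ ball (0 : ℂ) R :=
  mem_ball_self (lt_trans zero_lt_one hE.one_lt)

lemma ExtData.E0_ne (hE : ExtData E R) : E 0 ≠ 0 := by
  have := hE.nu_ne 0 hE.zero_mem
  simpa [nu] using this

lemma ExtData.den_ne (hE : ExtData E R) {a b : ℂ} (ha : a ∈ ball (0 : ℂ) R)
    (hb : b ∈ ball (0 : ℂ) R) (hab : a ≠ b) : b * E a - a * E b ≠ 0 :=
  fun h => hab (hE.inj a ha b hb (sub_eq_zero.1 h))

lemma delta_mul (E : ℂ → ℂ) (a b : ℂ) :
    (b - a) * (E a - a * dslope E a b) = b * E a - a * E b := by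
  have := sub_smul_dslope E a b
  rw [smul_eq_mul] at this
  linear_combination (-a) * this

lemma ExtData.delta_ne (hE : ExtData E R) {a b : ℂ} (ha : a ∈ ball (0 : ℂ) R)
    (hb : b ∈ ball (0 : ℂ) R) : E a - a * dslope E a b ≠ 0 := by
  by_cases hab : a = b
  · subst hab
    rw [dslope_same]
    exact hE.nu_ne a ha
  · intro h
    have := delta_mul E a b
    rw [h, mul_zero] at this
    exact hE.den_ne ha hb hab this.symm

lemma ExtData.delta_diff (hE : ExtData E R) {a : ℂ} (ha : a ∈ ball (0 : ℂ) R) :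
    DifferentiableOn ℂ (fun b => E a - a * dslope E a b) (ball 0 R) :=
  (differentiableOn_const _).sub ((differentiableOn_const _).mul
    ((Complex.differentiableOn_dslope (isOpen_ball.mem_nhds ha)).2 hE.diff))

/-- Holomorphic extension in the second variable. -/
lemma ExtData.exists_ext_right (hE : ExtData E R) {a : ℂ} (ha : a ∈ ball (0 : ℂ) R) :
    ∃ g : ℂ → ℂ, DifferentiableOn ℂ g (ball 0 R) ∧ g 0 = 0 ∧
      ∀ b ∈ ball (0 : ℂ) R, b ≠ a → g b = Psi E a b := by
  set Δ : ℂ → ℂ := fun b => E a - a * dslope E a b with hΔ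
  have hΔd : DifferentiableOn ℂ Δ (ball 0 R) := hE.delta_diff ha
  refine ⟨fun b => -b * dslope Δ a b / Δ b, ?_, by simp, ?_⟩
  · exact (differentiableOn_id.neg.mul
      ((Complex.differentiableOn_dslope (isOpen_ball.mem_nhds ha)).2 hΔd)).div hΔd
      (fun b hb => hE.delta_ne ha hb)
  · intro b hb hba
    have h1 : Δ b ≠ 0 := hE.delta_ne ha hb
    have h2 : (b - a) * Δ b = b * E a - a * E b := delta_mul E a b
    have h3 : (b - a) * dslope Δ a b = Δ b - Δ a := by
      simpa using sub_smul_dslope Δ a b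
    have h4 : Δ a = nu E a := by simp [hΔ, nu, dslope_same]
    have h5 : b - a ≠ 0 := sub_ne_zero.2 hba
    simp only [Psi, ker]
    rw [← h2, ← h4]
    have h6 : dslope Δ a b = (Δ b - Δ a) / (b - a) := by
      rw [← h3]; field_simp
    rw [h6]
    field_simp
    ring

/-- Holomorphic extension in the first variable. -/
lemma ExtData.exists_ext_left (hE : ExtData E R) {b : ℂ} (hb : b ∈ ball (0 : ℂ) R) (hb0 : b ≠ 0) :
    ∃ g : ℂ → ℂ, DifferentiableOn ℂ g (ball 0 R) ∧ g 0 = 0 ∧
      ∀ a ∈ ball (0 : ℂ) R, a ≠ b → g a = Psi E a b := by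
  set Δ : ℂ → ℂ := fun a => E b - b * dslope E b a with hΔ
  have hΔd : DifferentiableOn ℂ Δ (ball 0 R) := hE.delta_diff hb
  set D : ℂ → ℂ := fun a => nu E a - Δ a with hD
  have hDd : DifferentiableOn ℂ D (ball 0 R) := (differentiableOn_nu hE.diff).sub hΔd
  have key : ∀ a ∈ ball (0 : ℂ) R, a ≠ b → -b * dslope D b a / Δ a = Psi E a b := by
    intro a ha hab
    have h1 : Δ a ≠ 0 := hE.delta_ne hb ha
    have h2 : (a - b) * Δ a = a * E b - b * E a := delta_mul E b a
    have h2' : b * E a - a * E b = (b - a) * Δ a := by linear_combination h2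
    have h4 : D b = 0 := by simp [hD, hΔ, nu, dslope_same]
    have h3 : (a - b) * dslope D b a = nu E a - Δ a := by
      have := sub_smul_dslope D b a
      rw [h4, sub_zero] at this
      simpa using this
    have h5 : b - a ≠ 0 := sub_ne_zero.2 hab.symm
    have h5' : a - b ≠ 0 := sub_ne_zero.2 hab
    simp only [Psi, ker]
    rw [h2']
    have h6 : dslope D b a = -(nu E a - Δ a) / (b - a) := by
      rw [← h3]; field_simp; ring
    rw [h6]
    field_simp
  refine ⟨fun a => -b * dslope D b a / Δ a, ?_, ?_, key⟩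
  · exact ((differentiableOn_const _).mul
      ((Complex.differentiableOn_dslope (isOpen_ball.mem_nhds hb)).2 hDd)).div hΔd
      (fun a ha => hE.delta_ne hb ha)
  · show -b * dslope D b 0 / Δ 0 = 0
    rw [key 0 hE.zero_mem hb0.symm]
    have := hE.E0_ne
    simp only [Psi, ker, nu]
    field_simp
    ring

lemma re_div_sub_of_norm_eq_one {a b : ℂ} (ha : ‖a‖ = 1) (hb : ‖b‖ = 1) (hab : a ≠ b) :
    (b / (b - a)).re = 1 / 2 := by
  have h5 : b - a ≠ 0 := sub_ne_zero.2 hab.symm
  have ha0 : a ≠ 0 := by rintro rfl; simp at ha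
  have hb0 : b ≠ 0 := by rintro rfl; simp at hb
  have hca : conj a = a⁻¹ := Sph.conj_eq ⟨a, mem_sphere_zero_iff_norm.2 ha⟩
  have hcb : conj b = b⁻¹ := Sph.conj_eq ⟨b, mem_sphere_zero_iff_norm.2 hb⟩
  have h1 : b / (b - a) + conj (b / (b - a)) = 1 := by
    rw [map_div₀, map_sub, hca, hcb]
    have : b⁻¹ - a⁻¹ = -(b - a) / (a * b) := by field_simp; ring
    rw [this]
    field_simp
    ring
  rw [Complex.add_conj] at h1
  have h2 : (2 * (b / (b - a)).re : ℝ) = 1 := by exact_mod_cast h1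
  linarith

lemma re_div_nonneg {u v : ℂ} (h : 0 ≤ (conj u * v).re) : 0 ≤ (u / v).re := by
  rw [Complex.div_re]
  simp only [Complex.mul_re, Complex.conj_re, Complex.conj_im] at h
  rw [← add_div]
  exact div_nonneg (by linarith) (Complex.normSq_nonneg v)

lemma ExtData.psi_pos_sphere (hE : ExtData E R) {a b : ℂ} (ha : ‖a‖ = 1) (hb : ‖b‖ = 1)
    (hab : a ≠ b) : 0 ≤ 1 + 2 * (Psi E a b).re := by
  have hb0 : b ≠ 0 := by rintro rfl; simp at hb
  have h1 : ker E a b = nu E a / (E a - a * (E b / b)) := by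
    have : E a - a * (E b / b) = (b * E a - a * E b) / b := by field_simp
    rw [this, ker, div_div_eq_mul_div, mul_comm]
  have h2 := re_div_nonneg (hE.convex a b ha hb)
  rw [Psi, Complex.sub_re, re_div_sub_of_norm_eq_one ha hb hab, h1]
  linarith

lemma re_ge_of_sphere {g : ℂ → ℂ} (hR : 1 < R) (hg : DifferentiableOn ℂ g (ball 0 R)) {c : ℝ}
    (hc : ∀ a : ℂ, ‖a‖ = 1 → c ≤ (g a).re) {a : ℂ} (ha : ‖a‖ ≤ 1) : c ≤ (g a).re := by
  have h1 : DiffContOnCl ℂ (fun z => Complex.exp (-g z)) (ball 0 1) := by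
    apply DifferentiableOn.diffContOnCl
    rw [closure_ball 0 one_ne_zero]
    exact (hg.mono (closedBall_subset_ball hR)).neg.cexp
  have h2 := Complex.norm_le_of_forall_mem_frontier_norm_le (C := Real.exp (-c)) isBounded_ball h1
    (z := a) (by
      intro z hz
      rw [frontier_ball 0 one_ne_zero, mem_sphere_zero_iff_norm] at hz
      rw [Complex.norm_exp]
      exact Real.exp_le_exp.2 (by simpa using hc z hz))
    (by rw [closure_ball 0 one_ne_zero]; simpa using ha)
  rw [Complex.norm_exp] at h2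
  simpa using Real.exp_le_exp.1 h2

lemma ExtData.psi_pos (hE : ExtData E R) {a b : ℂ} (ha : ‖a‖ < 1) (hb : ‖b‖ = 1) :
    0 ≤ 1 + 2 * (Psi E a b).re := by
  have hb0 : b ≠ 0 := by rintro rfl; simp at hb
  have hbR : b ∈ ball (0 : ℂ) R := by simp [hb, hE.one_lt]
  obtain ⟨g, hgd, -, hg⟩ := hE.exists_ext_left hbR hb0
  have h1 : ∀ z : ℂ, ‖z‖ = 1 → z ≠ b → -(1 / 2) ≤ (g z).re := by
    intro z hz hzb
    rw [hg z (by simp [hz, hE.one_lt]) hzb]
    have := hE.psi_pos_sphere hz hb hzb
    linarith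
  have h2 : -(1 / 2) ≤ (g b).re := by
    have hden : ∀ s : ℝ, (1 : ℂ) - s * Complex.I ≠ 0 := by
      intro s h
      have := congrArg Complex.re h
      simp at this
    have hc : Continuous (fun s : ℝ => b * ((1 + s * Complex.I) / (1 - s * Complex.I))) :=
      continuous_const.mul (Continuous.div (by fun_prop) (by fun_prop) hden)
    have ht : Tendsto (fun s : ℝ => b * ((1 + s * Complex.I) / (1 - s * Complex.I))) (𝓝[≠] 0)
        (𝓝 b) := by
      have := hc.tendsto 0
      simp only [Complex.ofReal_zero, zero_mul, add_zero, sub_zero, div_one, mul_one] at this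
      exact this.mono_left nhdsWithin_le_nhds
    have hgc : ContinuousAt g b := hgd.continuousOn.continuousAt (isOpen_ball.mem_nhds hbR)
    have ht2 := (Complex.continuous_re.tendsto _).comp (hgc.tendsto.comp ht)
    refine ge_of_tendsto ht2 ?_
    filter_upwards [self_mem_nhdsWithin] with s hs
    apply h1
    · rw [norm_mul, hb, one_mul, norm_div]
      have : (1 : ℂ) - s * Complex.I = conj (1 + s * Complex.I) := by simp [sub_eq_add_neg]
      rw [this, Complex.norm_conj, div_self]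
      rw [← Complex.norm_conj, ← this]
      exact norm_ne_zero_iff.2 (hden s)
    · intro h
      have h' : (1 + s * Complex.I) / (1 - s * Complex.I) = 1 := by
        have : b * ((1 + s * Complex.I) / (1 - s * Complex.I)) = b * 1 := by
          rw [mul_one]; exact h
        exact mul_left_cancel₀ hb0 this
      rw [div_eq_one_iff_eq (hden s)] at h'
      have := congrArg Complex.im h'
      simp at this
      apply hs
      simp only [mem_singleton_iff]
      linarith
  have h3 := re_ge_of_sphere hE.one_lt hgd (c := -(1 / 2)) (a := a) (by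
    intro z hz
    by_cases hzb : z = b
    · rw [hzb]; exact h2
    · exact h1 z hz hzb) ha.le
  rw [hg a (by simp; linarith [hE.one_lt]) (by rintro rfl; linarith)] at h3
  linarith

lemma smul_mem_ball {r : ℝ} (hr0 : 0 ≤ r) (hr1 : r ≤ 1) {a : ℂ} (ha : a ∈ ball (0 : ℂ) R) :
    (r : ℂ) * a ∈ ball (0 : ℂ) R := by
  rw [mem_ball_zero_iff] at ha ⊢
  rw [norm_mul, Complex.norm_real, Real.norm_of_nonneg hr0]
  nlinarith [norm_nonneg a]

lemma differentiableOn_comp_smul {F : Type*} [NormedAddCommGroup F] [NormedSpace ℂ F]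
    {g : ℂ → F} (hg : DifferentiableOn ℂ g (ball 0 R)) {r : ℝ}
    (hr0 : 0 ≤ r) (hr1 : r ≤ 1) : DifferentiableOn ℂ (fun a => g (r * a)) (ball 0 R) :=
  hg.comp (by fun_prop) (fun _ ha => smul_mem_ball hr0 hr1 ha)

lemma norm_smul_sph {r : ℝ} (hr0 : 0 ≤ r) (a : Sph) : ‖(r : ℂ) * a‖ = r := by
  rw [norm_mul, Complex.norm_real, Real.norm_of_nonneg hr0, a.norm_eq, mul_one]

/-- Cauchy's formula on the unit circle. -/
lemma integral_μc_cauchy (hR : 1 < R) {f : ℂ → ℂ} (hf : DifferentiableOn ℂ f (ball 0 R)) {w : ℂ}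
    (hw : ‖w‖ < 1) : ∫ a : Sph, (a : ℂ) / (a - w) * f a ∂μc = f w := by
  have hne : ∀ a : Sph, (a : ℂ) - w ≠ 0 := by
    intro a h
    rw [sub_eq_zero] at h
    rw [← h, a.norm_eq] at hw
    exact lt_irrefl _ hw
  have hc : Continuous (fun a : Sph => (a : ℂ) / (a - w) * f a) :=
    (continuous_subtype_val.div (continuous_subtype_val.sub continuous_const) hne).mul
      (continuous_sph_of_ball hR hf.continuousOn)
  rw [integral_μc_eq hc]
  have h1 : DiffContOnCl ℂ f (ball 0 |(1 : ℝ)|) := by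
    apply DifferentiableOn.diffContOnCl
    rw [abs_one, closure_ball 0 one_ne_zero]
    exact hf.mono (closedBall_subset_ball hR)
  have h2 := h1.circleAverage_smul_div (w := w) (by simpa using hw)
  simp only [sub_zero, smul_eq_mul] at h2
  exact h2

lemma ExtData.continuous_ker (hE : ExtData E R) {r : ℝ} (hr0 : 0 ≤ r) (hr1 : r < 1) :
    Continuous (fun x : Sph × Sph => ker E (r * x.1) x.2) := by
  have hcE : Continuous (fun b : Sph => E b) := continuous_sph_of_ball hE.one_lt hE.diff.continuousOn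
  have hcE' : Continuous (fun b : Sph => E (r * b)) :=
    continuous_sph_of_ball hE.one_lt (differentiableOn_comp_smul hE.diff hr0 hr1.le).continuousOn
  have hcn : Continuous (fun b : Sph => nu E (r * b)) :=
    continuous_sph_of_ball (f := fun b => nu E (r * b)) hE.one_lt
      (differentiableOn_comp_smul (differentiableOn_nu hE.diff) hr0 hr1.le).continuousOn
  unfold ker
  refine Continuous.div ((continuous_subtype_val.comp continuous_snd).mul (hcn.comp continuous_fst))
    (((continuous_subtype_val.comp continuous_snd).mul (hcE'.comp continuous_fst)).sub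
      ((continuous_const.mul (continuous_subtype_val.comp continuous_fst)).mul
        (hcE.comp continuous_snd))) ?_
  intro x
  refine hE.den_ne (smul_mem_ball hr0 hr1.le (x.1.mem_ball hE.one_lt)) (x.2.mem_ball hE.one_lt) ?_
  intro h
  have := norm_smul_sph hr0 x.1
  rw [h, x.2.norm_eq] at this
  linarith

lemma kernel_r (hE : ExtData E R) {p : ℂ → ℂ} (hp : DifferentiableOn ℂ p (ball 0 R))
    {F : Sph → ℂ} (hF : Continuous F)
    (hrep : ∀ a : ℂ, a ≠ 0 → ‖a‖ < 1 → p a = ∫ b, F b * ker E a b ∂μc)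
    {r : ℝ} (hr0 : 0 < r) (hr1 : r < 1) :
    ∫ a : Sph, ‖p (r * a) - p 0‖ ^ 2 ∂μc + ‖p 0‖ ^ 2 ≤ ∫ b, ‖F b‖ ^ 2 ∂μc +
      (∫ a : Sph, ‖p (r * (r * a)) - p 0‖ ^ 2 ∂μc + ∫ a : Sph, ‖p (r * a) - p 0‖ ^ 2 ∂μc) / 4 := by
  have hR := hE.one_lt
  have hne : ∀ a b : Sph, (r : ℂ) * a ≠ b := by
    intro a b h
    have := norm_smul_sph hr0.le a
    rw [h, b.norm_eq] at this
    linarith
  have hUd : DifferentiableOn ℂ (fun a => p (r * a) - p 0) (ball 0 R) :=
    (differentiableOn_comp_smul hp hr0.le hr1.le).sub (differentiableOn_const _)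
  have hU2d : DifferentiableOn ℂ (fun a => p (r * (r * a)) - p 0) (ball 0 R) :=
    differentiableOn_comp_smul (g := fun a => p (r * a) - p 0) hUd hr0.le hr1.le
  have hC : Continuous (fun x : Sph × Sph => (x.2 : ℂ) / (x.2 - r * x.1)) :=
    Continuous.div (by fun_prop) (by fun_prop) (fun x => sub_ne_zero.2 (hne x.1 x.2).symm)
  have hconjC : ∀ a b : Sph, (b : ℂ) / (b - r * a) = conj ((a : ℂ) / (a - r * b)) := by
    intro a b
    rw [map_div₀, map_sub, map_mul, Complex.conj_ofReal, a.conj_eq, b.conj_eq]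
    have ha := a.ne_zero
    have hb := b.ne_zero
    have h1 : (b : ℂ) - r * a ≠ 0 := sub_ne_zero.2 (hne a b).symm
    have : (a : ℂ)⁻¹ - r * (b : ℂ)⁻¹ = (b - r * a) / (a * b) := by field_simp
    rw [this]
    field_simp
  have hrb : ∀ b : Sph, ‖(r : ℂ) * b‖ < 1 := fun b => by rw [norm_smul_sph hr0.le]; exact hr1
  refine kernel_abs (U := fun a : Sph => p (r * a) - p 0)
    (U₂ := fun a : Sph => p (r * (r * a)) - p 0)
    (C := fun a b : Sph => (b : ℂ) / (b - r * a)) (Ψ := fun a b : Sph => Psi E (r * a) b)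
    hF (continuous_sph_of_ball hR hUd.continuousOn) (continuous_sph_of_ball hR hU2d.continuousOn)
    hC ((hE.continuous_ker hr0.le hr1).sub hC) ?_ ?_ ?_ ?_ ?_ ?_ ?_ ?_ ?_ ?_
  · intro a
    rw [sub_add_cancel, hrep _ (mul_ne_zero (by exact_mod_cast hr0.ne') a.ne_zero) (hrb a)]
    simp [Psi]
  · rw [integral_μc_of_differentiableOn hR hUd]; simp
  · rw [integral_μc_of_differentiableOn hR hU2d]; simp
  · intro b
    simp_rw [fun a => hconjC a b]
    rw [integral_conj]
    have := integral_μc_cauchy hR (f := fun _ => 1) (differentiableOn_const _) (hrb b)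
    simp only [mul_one] at this
    rw [this, map_one]
  · intro b
    simp_rw [fun a => hconjC a b, ← map_mul]
    rw [integral_conj, integral_μc_cauchy hR hUd (hrb b)]
  · intro b
    obtain ⟨g, hgd, hg0, hg⟩ := hE.exists_ext_left (b.mem_ball hR) b.ne_zero
    have h1 := integral_μc_of_differentiableOn hR (differentiableOn_comp_smul hgd hr0.le hr1.le)
    simp only [mul_zero, hg0] at h1
    refine Eq.trans ?_ h1
    congr 1
    ext a
    rw [hg _ (smul_mem_ball hr0.le hr1.le (a.mem_ball hR)) (hne a b)]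
  · intro b
    obtain ⟨g, hgd, hg0, hg⟩ := hE.exists_ext_left (b.mem_ball hR) b.ne_zero
    have h1 := integral_μc_of_differentiableOn hR
      ((differentiableOn_comp_smul hgd hr0.le hr1.le).mul hUd)
    simp only [mul_zero, hg0, Pi.mul_apply, zero_mul] at h1
    refine Eq.trans ?_ h1
    congr 1
    ext a
    rw [hg _ (smul_mem_ball hr0.le hr1.le (a.mem_ball hR)) (hne a b)]
  · intro a
    obtain ⟨g, hgd, hg0, hg⟩ := hE.exists_ext_right (smul_mem_ball hr0.le hr1.le (a.mem_ball hR))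
    have h1 := integral_μc_of_differentiableOn hR hgd
    rw [hg0] at h1
    refine Eq.trans ?_ h1
    congr 1
    ext b
    rw [hg _ (b.mem_ball hR) (hne a b).symm]
  · intro a
    obtain ⟨g, hgd, hg0, hg⟩ := hE.exists_ext_right (smul_mem_ball hr0.le hr1.le (a.mem_ball hR))
    have h1 := integral_μc_of_differentiableOn hR (hgd.mul hU2d)
    simp only [hg0, Pi.mul_apply, zero_mul] at h1
    refine Eq.trans ?_ h1
    congr 1
    ext b
    rw [hg _ (b.mem_ball hR) (hne a b).symm]
  · intro a b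
    exact hE.psi_pos (hrb a) b.norm_eq

/-- The kernel lemma. -/
theorem kernel_lemma (hE : ExtData E R) {p : ℂ → ℂ} (hp : DifferentiableOn ℂ p (ball 0 R))
    {F : Sph → ℂ} (hF : Continuous F)
    (hrep : ∀ a : ℂ, a ≠ 0 → ‖a‖ < 1 → p a = ∫ b, F b * ker E a b ∂μc) :
    ‖p 0‖ ^ 2 + ∫ a : Sph, ‖p a‖ ^ 2 ∂μc ≤ 2 * ∫ b, ‖F b‖ ^ 2 ∂μc := by
  have hR := hE.one_lt
  -- the mean square as a continuous function of the radius
  set m : Icc (0 : ℝ) 1 → ℝ := fun r => ∫ a : Sph, ‖p ((r : ℝ) * a) - p 0‖ ^ 2 ∂μc with hm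
  have hmc : Continuous m := by
    apply continuous_integral_μc
      (f := fun (r : Icc (0 : ℝ) 1) (a : Sph) => ‖p ((r : ℝ) * a) - p 0‖ ^ 2)
    have : Continuous (fun x : Icc (0 : ℝ) 1 × Sph => p ((x.1 : ℝ) * x.2)) :=
      hp.continuousOn.comp_continuous (by fun_prop)
        (fun x => smul_mem_ball x.1.2.1 x.1.2.2 (x.2.mem_ball hR))
    exact (this.sub continuous_const).norm.pow 2
  set sq : Icc (0 : ℝ) 1 → Icc (0 : ℝ) 1 :=
    fun r => ⟨r * r, mul_nonneg r.2.1 r.2.1, mul_le_one₀ r.2.2 r.2.1 r.2.2⟩ with hsq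
  have hsqc : Continuous sq := Continuous.subtype_mk (by fun_prop) _
  have hclosed : IsClosed {r : Icc (0 : ℝ) 1 |
      m r + ‖p 0‖ ^ 2 ≤ ∫ b, ‖F b‖ ^ 2 ∂μc + (m (sq r) + m r) / 4} :=
    isClosed_le (by fun_prop) (by fun_prop)
  have hone : (⟨1, zero_le_one, le_rfl⟩ : Icc (0 : ℝ) 1) ∈ closure {r : Icc (0 : ℝ) 1 |
      m r + ‖p 0‖ ^ 2 ≤ ∫ b, ‖F b‖ ^ 2 ∂μc + (m (sq r) + m r) / 4} := by
    have hsub : (Subtype.val ⁻¹' Ioo (0 : ℝ) 1 : Set (Icc (0 : ℝ) 1)) ⊆ {r : Icc (0 : ℝ) 1 |
        m r + ‖p 0‖ ^ 2 ≤ ∫ b, ‖F b‖ ^ 2 ∂μc + (m (sq r) + m r) / 4} := by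
      intro r hr
      have := kernel_r hE hp hF hrep hr.1 hr.2
      simp only [hm, hsq, mem_ofPred_eq, Complex.ofReal_mul, mul_assoc]
      exact this
    apply closure_mono hsub
    rw [Topology.IsInducing.subtypeVal.closure_eq_preimage_closure_image,
      Subtype.image_preimage_coe, inter_eq_right.2 Ioo_subset_Icc_self,
      closure_Ioo zero_ne_one]
    exact ⟨zero_le_one, le_rfl⟩
  rw [hclosed.closure_eq] at hone
  simp only [hm, hsq, mem_ofPred_eq, mul_one, Complex.ofReal_one, one_mul] at hone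
  have h1 := integral_normSq_conj_add (h := fun _ => conj (p 0)) (w := fun a : Sph => p a - p 0)
    continuous_const ((continuous_sph_of_ball hR hp.continuousOn).sub continuous_const)
  simp only [Complex.conj_conj, add_sub_cancel, Complex.norm_conj] at h1
  rw [integral_const_mul, integral_μc_of_differentiableOn hR (f := fun a => p a - p 0)
    (hp.sub (differentiableOn_const _))] at h1
  simp only [integral_const, probReal_univ, smul_eq_mul, one_mul, sub_self, mul_zero,
    Complex.zero_re, add_zero] at h1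
  linarith

end Crest.Agent.R132
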