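import Crest.Agent.R132.CircleMeasure

/-!
The abstract `L²` estimate behind the kernel lemma.  Owner: helper38.
-/

open Metric Set MeasureTheory
open scoped ComplexConjugate Real

namespace Crest.Agent.R132

lemma normSq_conj_add (h w : ℂ) : ‖conj h + w‖ ^ 2 = ‖h‖ ^ 2 + ‖w‖ ^ 2 + 2 * (h * w).re := by
  simp only [← Complex.normSq_eq_norm_sq, Complex.normSq_apply, Complex.add_re, Complex.conj_re,
    Complex.add_im, Complex.conj_im, Complex.mul_re]
  ring

lemma re_mul_le (x y : ℂ) : (x * y).re ≤ ‖x‖ ^ 2 + ‖y‖ ^ 2 / 4 := by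
  have h1 : (x * y).re ≤ ‖x‖ * ‖y‖ := by
    rw [← norm_mul]; exact Complex.re_le_norm _
  nlinarith [sq_nonneg (‖x‖ - ‖y‖ / 2)]

lemma integral_re_μc {f : Sph → ℂ} (hf : Continuous f) :
    ∫ a, (f a).re ∂μc = (∫ a, f a ∂μc).re :=
  (Complex.reCLM.integral_comp_comm (integrable_μc hf))

lemma integral_normSq_conj_add {h w : Sph → ℂ} (hh : Continuous h) (hw : Continuous w) :
    ∫ a, ‖conj (h a) + w a‖ ^ 2 ∂μc =
      ∫ a, ‖h a‖ ^ 2 ∂μc + ∫ a, ‖w a‖ ^ 2 ∂μc + 2 * (∫ a, h a * w a ∂μc).re := by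
  simp_rw [normSq_conj_add]
  rw [integral_add (integrable_μc (by fun_prop)) (integrable_μc (by fun_prop)),
    integral_add (integrable_μc (by fun_prop)) (integrable_μc (by fun_prop)),
    integral_const_mul, integral_re_μc (by fun_prop)]

/-- Jensen's inequality for a probability density. -/
lemma normSq_integral_le {K : Sph → ℝ} {u : Sph → ℂ} (hK : Continuous K) (hu : Continuous u)
    (hK0 : ∀ a, 0 ≤ K a) (hK1 : ∫ a, K a ∂μc = 1) :
    ‖∫ a, (K a : ℂ) * u a ∂μc‖ ^ 2 ≤ ∫ a, K a * ‖u a‖ ^ 2 ∂μc := by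
  set w := ∫ a, (K a : ℂ) * u a ∂μc with hw
  have h1 : 0 ≤ ∫ a, K a * ‖conj (-conj w) + u a‖ ^ 2 ∂μc :=
    integral_nonneg (fun a => mul_nonneg (hK0 a) (sq_nonneg _))
  have h2 : ∀ a, K a * ‖conj (-conj w) + u a‖ ^ 2 =
      ‖w‖ ^ 2 * K a + K a * ‖u a‖ ^ 2 + 2 * (-conj w * ((K a : ℂ) * u a)).re := by
    intro a
    rw [normSq_conj_add]
    simp only [norm_neg, Complex.norm_conj, Complex.mul_re, Complex.ofReal_re, Complex.ofReal_im,
      Complex.mul_im]
    ring
  simp_rw [h2] at h1
  rw [integral_add (integrable_μc (by fun_prop)) (integrable_μc (by fun_prop)),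
    integral_add (integrable_μc (by fun_prop)) (integrable_μc (by fun_prop)),
    integral_const_mul, integral_const_mul, integral_re_μc (by fun_prop), integral_const_mul,
    hK1, ← hw] at h1
  have h3 : (-conj w * w).re = -‖w‖ ^ 2 := by
    rw [neg_mul, Complex.conj_mul']
    simp [← Complex.ofReal_pow]
  rw [h3] at h1
  linarith

lemma kernel_abs {F U U₂ : Sph → ℂ} {C Ψ : Sph → Sph → ℂ} {p₀ : ℂ}
    (hF : Continuous F) (hU : Continuous U) (hU₂ : Continuous U₂)
    (hC : Continuous (Function.uncurry C)) (hΨ : Continuous (Function.uncurry Ψ))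
    (h1 : ∀ a, U a + p₀ = ∫ b, F b * (C a b + Ψ a b) ∂μc)
    (h2 : ∫ a, U a ∂μc = 0) (h2' : ∫ a, U₂ a ∂μc = 0)
    (h3 : ∀ b, ∫ a, C a b ∂μc = 1) (h3' : ∀ b, ∫ a, C a b * conj (U a) ∂μc = conj (U₂ b))
    (h4 : ∀ b, ∫ a, Ψ a b ∂μc = 0) (h4' : ∀ b, ∫ a, Ψ a b * U a ∂μc = 0)
    (h5 : ∀ a, ∫ b, Ψ a b ∂μc = 0) (h5' : ∀ a, ∫ b, Ψ a b * U₂ b ∂μc = 0)
    (h6 : ∀ a b, 0 ≤ 1 + 2 * (Ψ a b).re) :
    ∫ a, ‖U a‖ ^ 2 ∂μc + ‖p₀‖ ^ 2 ≤
      ∫ b, ‖F b‖ ^ 2 ∂μc + (∫ a, ‖U₂ a‖ ^ 2 ∂μc + ∫ a, ‖U a‖ ^ 2 ∂μc) / 4 := by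
  have hC' : Continuous (fun x : Sph × Sph => C x.1 x.2) := hC
  have hΨ' : Continuous (fun x : Sph × Sph => Ψ x.1 x.2) := hΨ
  have hCa : ∀ b, Continuous (fun a => C a b) := fun b => hC.uncurry_right b
  have hΨa : ∀ b, Continuous (fun a => Ψ a b) := fun b => hΨ.uncurry_right b
  have hΨb : ∀ a, Continuous (fun b => Ψ a b) := fun a => hΨ.uncurry_left a
  have hcU : Continuous (fun a => conj (U a)) := Complex.continuous_conj.comp hU
  -- the negative frequency part
  set w : Sph → ℂ := fun b => ∫ a, Ψ a b * conj (U a) ∂μc with hw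
  have hwc : Continuous w := by
    apply continuous_integral_μc (f := fun b a => Ψ a b * conj (U a))
    exact (hΨ'.comp continuous_swap).mul (hcU.comp continuous_snd)
  set h : Sph → ℂ := fun b => 2 * p₀ + U₂ b with hh
  have hhc : Continuous h := by rw [hh]; fun_prop
  -- step 1: left side as an integral
  have e1 : ∫ a, (U a + p₀) * (conj (U a) + 2 * conj p₀) ∂μc =
      ((∫ a, ‖U a‖ ^ 2 ∂μc + 2 * ‖p₀‖ ^ 2 : ℝ) : ℂ) := by
    have : ∀ a, (U a + p₀) * (conj (U a) + 2 * conj p₀) =
        ((‖U a‖ ^ 2 : ℝ) : ℂ) + (2 * conj p₀) * U a + p₀ * conj (U a) + 2 * ((‖p₀‖ ^ 2 : ℝ) : ℂ) := by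
      intro a
      push_cast
      rw [← Complex.mul_conj', ← Complex.mul_conj']
      ring
    simp_rw [this]
    rw [integral_add (integrable_μc (by fun_prop)) (integrable_μc (by fun_prop)),
      integral_add (integrable_μc (by fun_prop)) (integrable_μc (by fun_prop)),
      integral_add (integrable_μc (by fun_prop)) (integrable_μc (by fun_prop)),
      integral_const_mul, integral_const_mul, integral_conj, h2, integral_complex_ofReal]
    simp
  -- step 2: Fubini
  have e2 : ∫ a, (U a + p₀) * (conj (U a) + 2 * conj p₀) ∂μc =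
      ∫ b, F b * (conj (h b) + w b) ∂μc := by
    have : ∀ a, (U a + p₀) * (conj (U a) + 2 * conj p₀) =
        ∫ b, F b * (C a b + Ψ a b) * (conj (U a) + 2 * conj p₀) ∂μc := by
      intro a
      rw [h1 a, integral_mul_const]
    simp_rw [this]
    rw [integral_μc_swap]
    · congr 1
      ext b
      have : ∀ a, F b * (C a b + Ψ a b) * (conj (U a) + 2 * conj p₀) =
          F b * (C a b * conj (U a) + (2 * conj p₀) * C a b + Ψ a b * conj (U a)
            + (2 * conj p₀) * Ψ a b) := by
        intro a; ring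
      simp_rw [this]
      have := hCa b
      have := hΨa b
      rw [integral_const_mul, integral_add (integrable_μc (by fun_prop)) (integrable_μc (by fun_prop)),
        integral_add (integrable_μc (by fun_prop)) (integrable_μc (by fun_prop)),
        integral_add (integrable_μc (by fun_prop)) (integrable_μc (by fun_prop)),
        integral_const_mul, integral_const_mul, h3, h3', h4]
      simp only [hh, hw, map_add, map_mul, map_ofNat]
      ring
    · exact ((hF.comp continuous_snd).mul (hC'.add hΨ')).mul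
        ((hcU.comp continuous_fst).add continuous_const)
  -- step 3: norm of the test function
  have e3 : ∫ b, h b * w b ∂μc = 0 := by
    have : ∀ b, h b * w b = ∫ a, h b * (Ψ a b * conj (U a)) ∂μc := by
      intro b
      rw [integral_const_mul]
    simp_rw [this]
    rw [integral_μc_swap]
    · have : ∀ a, ∫ b, h b * (Ψ a b * conj (U a)) ∂μc = 0 := by
        intro a
        have : ∀ b, h b * (Ψ a b * conj (U a)) =
            conj (U a) * ((2 * p₀) * Ψ a b + Ψ a b * U₂ b) := by
          intro b; simp only [hh]; ring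
        simp_rw [this]
        have := hΨb a
        rw [integral_const_mul, integral_add (integrable_μc (by fun_prop))
          (integrable_μc (by fun_prop)), integral_const_mul, h5, h5']
        simp
      simp [this]
    · exact (hhc.comp continuous_fst).mul ((hΨ'.comp continuous_swap).mul (hcU.comp continuous_snd))
  have e4 : ∫ b, ‖h b‖ ^ 2 ∂μc = 4 * ‖p₀‖ ^ 2 + ∫ a, ‖U₂ a‖ ^ 2 ∂μc := by
    have := integral_normSq_conj_add (h := fun _ => conj (2 * p₀)) (w := U₂) continuous_const hU₂
    simp only [Complex.conj_conj] at this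
    rw [this, integral_const_mul, h2']
    simp
    ring
  have e5 : ∫ b, ‖w b‖ ^ 2 ∂μc ≤ ∫ a, ‖U a‖ ^ 2 ∂μc := by
    have hK : Continuous (fun x : Sph × Sph => 1 + 2 * (Ψ x.1 x.2).re) := by fun_prop
    have s1 : ∀ b, ‖w b‖ ^ 2 ≤ ∫ a, (1 + 2 * (Ψ a b).re) * ‖U a‖ ^ 2 ∂μc := by
      intro b
      have hb := hΨa b
      have t1 : ∫ a, (1 + 2 * (Ψ a b).re) ∂μc = 1 := by
        rw [integral_add (integrable_μc (by fun_prop)) (integrable_μc (by fun_prop)),
          integral_const_mul, integral_re_μc hb, h4]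
        simp
      have t2 := normSq_integral_le (K := fun a => 1 + 2 * (Ψ a b).re) (u := fun a => conj (U a))
        (by fun_prop) hcU (fun a => h6 a b) t1
      have t3 : ∫ a, ((1 + 2 * (Ψ a b).re : ℝ) : ℂ) * conj (U a) ∂μc = w b := by
        have : ∀ a, ((1 + 2 * (Ψ a b).re : ℝ) : ℂ) * conj (U a) =
            conj (U a) + Ψ a b * conj (U a) + conj (Ψ a b * U a) := by
          intro a
          have := Complex.add_conj (Ψ a b)
          push_cast at this ⊢
          rw [← this, map_mul]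
          ring
        simp_rw [this]
        have hc2 : Continuous (fun a => conj (Ψ a b * U a)) :=
          Complex.continuous_conj.comp (hb.mul hU)
        rw [integral_add (integrable_μc (by fun_prop)) (integrable_μc hc2),
          integral_add (integrable_μc (by fun_prop)) (integrable_μc (by fun_prop)),
          integral_conj, integral_conj, h2, h4']
        simp [hw]
      rw [t3] at t2
      simpa using t2
    calc ∫ b, ‖w b‖ ^ 2 ∂μc ≤ ∫ b, ∫ a, (1 + 2 * (Ψ a b).re) * ‖U a‖ ^ 2 ∂μc ∂μc := by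
          apply integral_mono (integrable_μc (by fun_prop)) (integrable_μc _) s1
          apply continuous_integral_μc (f := fun b a => (1 + 2 * (Ψ a b).re) * ‖U a‖ ^ 2)
          exact (hK.comp continuous_swap).mul ((hU.comp continuous_snd).norm.pow 2)
      _ = ∫ a, ∫ b, (1 + 2 * (Ψ a b).re) * ‖U a‖ ^ 2 ∂μc ∂μc := by
          rw [integral_μc_swap]
          exact (hK.comp continuous_swap).mul ((hU.comp continuous_snd).norm.pow 2)
      _ = ∫ a, ‖U a‖ ^ 2 ∂μc := by
          congr 1
          ext a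
          have ha := hΨb a
          rw [integral_mul_const, integral_add (integrable_μc (by fun_prop))
            (integrable_μc (by fun_prop)), integral_const_mul, integral_re_μc ha, h5]
          simp
  have hch : Continuous (fun b => conj (h b)) := Complex.continuous_conj.comp hhc
  have e6 : (∫ b, F b * (conj (h b) + w b) ∂μc).re ≤
      ∫ b, ‖F b‖ ^ 2 ∂μc + (∫ b, ‖conj (h b) + w b‖ ^ 2 ∂μc) / 4 := by
    rw [← integral_re_μc (by fun_prop), ← integral_div,
      ← integral_add (integrable_μc (by fun_prop)) (integrable_μc (by fun_prop))]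
    exact integral_mono (integrable_μc (by fun_prop)) (integrable_μc (by fun_prop))
      (fun b => re_mul_le _ _)
  rw [← e2, e1, Complex.ofReal_re, integral_normSq_conj_add hhc hwc, e3, e4] at e6
  simp only [Complex.zero_re, mul_zero, add_zero] at e6
  linarith

end Crest.Agent.R132
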