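import Crest.Agent.R132.Defs

/-!
Toeplitz--Hausdorff theorem and the reduction of S0179 to finite dimension.  Author: helper25.
-/

open Metric Set
open scoped ComplexOrder ComplexConjugate

namespace Crest.Agent.R132

theorem tp_exists_unit (w : ℂ) : ∃ l : ℂ, ‖l‖ = 1 ∧ (conj l * w).im = 0 := by
  by_cases hw : w = 0
  · exact ⟨1, by simp, by simp [hw]⟩
  · have hn : (‖w‖ : ℝ) ≠ 0 := norm_ne_zero_iff.mpr hw
    refine ⟨w / (‖w‖ : ℂ), ?_, ?_⟩
    · rw [norm_div, Complex.norm_real, norm_norm, div_self hn]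
    · have : conj (w / (‖w‖ : ℂ)) * w = ((Complex.normSq w / ‖w‖ : ℝ) : ℂ) := by
        rw [map_div₀, Complex.conj_ofReal, div_mul_eq_mul_div, ← Complex.normSq_eq_conj_mul_self]
        push_cast
        rfl
      rw [this, Complex.ofReal_im]

theorem convex_nr {H : Type*} [NormedAddCommGroup H] [InnerProductSpace ℂ H] (A : H →L[ℂ] H) :
    Convex ℝ (nr A) := by
  rintro a ⟨x, hx, ha⟩ b ⟨y, hy, hb⟩ s t hs ht hst
  by_cases hab : a = b
  · refine ⟨x, hx, ?_⟩
    rw [← ha, ← hab, ← add_smul, hst, one_smul]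
  have hc : b - a ≠ 0 := sub_ne_zero.mpr (Ne.symm hab)
  -- the normalised sesquilinear form
  set φ : H → H → ℂ := fun u w => (inner ℂ u (A w) - a * inner ℂ u w) / (b - a) with hφ
  have hxx : inner ℂ x x = (1 : ℂ) := by
    rw [inner_self_eq_norm_sq_to_K, hx]; simp
  have hyy : inner ℂ y y = (1 : ℂ) := by
    rw [inner_self_eq_norm_sq_to_K, hy]; simp
  have hφx : φ x x = 0 := by
    simp only [hφ]; rw [hxx, ← ha]; simp
  have hφy : φ y y = 1 := by
    simp only [hφ]; rw [hyy, ← hb, mul_one, div_self hc]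
  obtain ⟨l, hl, hlim⟩ := tp_exists_unit (φ x y - conj (φ y x))
  have hll : conj l * l = 1 := by
    rw [← Complex.normSq_eq_conj_mul_self, Complex.normSq_eq_norm_sq, hl]; simp
  set z : ℝ → H := fun r => ((1 - r : ℝ) * l : ℂ) • x + ((r : ℝ) : ℂ) • y with hz
  have hexp : ∀ r : ℝ, φ (z r) (z r) =
      ((1 - r : ℝ) : ℂ) ^ 2 * (conj l * l) * φ x x + (r : ℂ) ^ 2 * φ y y +
        (((1 - r) * r : ℝ) : ℂ) * (conj l * φ x y + l * φ y x) := by
    intro r
    simp only [hφ, hz, map_add, map_smul, inner_add_left, inner_add_right, inner_smul_left,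
      inner_smul_right, map_mul, Complex.conj_ofReal]
    push_cast
    field_simp
    ring
  have him : ∀ r : ℝ, (φ (z r) (z r)).im = 0 := by
    intro r
    rw [hexp, hφx, hφy]
    have h1 : (conj l * φ x y + l * φ y x).im = 0 := by
      have : (conj l * φ x y + l * φ y x).im = (conj l * (φ x y - conj (φ y x))).im := by
        simp [Complex.mul_im]; ring
      rw [this, hlim]
    rw [mul_zero, zero_add, mul_one, Complex.add_im, Complex.im_ofReal_mul, h1, mul_zero,
      add_zero, ← Complex.ofReal_pow, Complex.ofReal_im]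
  have hzc : Continuous z := by
    simp only [hz]; fun_prop
  set g : ℝ → ℝ := fun r => (φ (z r) (z r)).re - t * ‖z r‖ ^ 2 with hg
  have hgc : Continuous g := by
    simp only [hg, hφ]
    have h1 : Continuous fun r => inner ℂ (z r) (A (z r)) :=
      hzc.inner (A.continuous.comp hzc)
    have h2 : Continuous fun r => inner ℂ (z r) (z r) := hzc.inner hzc
    exact (Complex.continuous_re.comp ((h1.sub (continuous_const.mul h2)).div_const _)).sub
      (continuous_const.mul (hzc.norm.pow 2))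
  have hz0 : z 0 = l • x := by simp [hz]
  have hz1 : z 1 = y := by simp [hz]
  have hg0 : g 0 ≤ 0 := by
    simp only [hg]
    rw [hexp, hφx, hφy]
    simp
    positivity
  have hg1 : 0 ≤ g 1 := by
    simp only [hg]
    rw [hz1, hφy, hy]
    simp
    linarith
  obtain ⟨r, hr, hgr⟩ : (0 : ℝ) ∈ g '' Icc 0 1 :=
    intermediate_value_Icc zero_le_one hgc.continuousOn ⟨hg0, hg1⟩
  have hzr : z r ≠ 0 := by
    intro h0
    have hφ0 : φ (z r) (z r) = 0 := by rw [h0]; simp [hφ]
    have h1 : ((1 - r : ℝ) * l : ℂ) • x = -(((r : ℝ) : ℂ) • y) := eq_neg_of_add_eq_zero_left h0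
    have h2 : 1 - r = r := by
      have := congrArg norm h1
      rw [norm_neg, norm_smul, norm_smul, norm_mul, hl, hx, hy, Complex.norm_real,
        Complex.norm_real, Real.norm_of_nonneg hr.1, Real.norm_of_nonneg (by linarith [hr.2])]
        at this
      linarith
    have hr2 : r = 1 / 2 := by linarith
    have h3 : y = -(l • x) := by
      have h4 : ((r : ℝ) : ℂ) • (l • x + y) = 0 := by
        rw [smul_add, smul_smul]
        have : ((r : ℝ) : ℂ) * l = ((1 - r : ℝ) * l : ℂ) := by rw [h2]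
        rw [this]; exact h0
      have h5 : ((r : ℝ) : ℂ) ≠ 0 := by
        rw [hr2]; norm_num
      exact eq_neg_of_add_eq_zero_right ((smul_eq_zero.mp h4).resolve_left h5)
    apply hab
    rw [ha, hb, h3]
    simp only [map_neg, map_smul, inner_neg_left, inner_neg_right, inner_smul_left,
      inner_smul_right]
    linear_combination (-(inner ℂ x (A x))) * hll
  have hn : ‖z r‖ ≠ 0 := norm_ne_zero_iff.mpr hzr
  have hnc : ((‖z r‖ : ℝ) : ℂ) ≠ 0 := by exact_mod_cast hn
  have hval : φ (z r) (z r) = (t : ℂ) * ((‖z r‖ : ℝ) : ℂ) ^ 2 := by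
    apply Complex.ext
    · have : (φ (z r) (z r)).re = t * ‖z r‖ ^ 2 := by
        have := hgr; simp only [hg] at this; linarith
      rw [this, ← Complex.ofReal_pow, ← Complex.ofReal_mul, Complex.ofReal_re]
    · rw [him, ← Complex.ofReal_pow, ← Complex.ofReal_mul, Complex.ofReal_im]
  refine ⟨((‖z r‖ : ℝ) : ℂ)⁻¹ • z r, ?_, ?_⟩
  · rw [norm_smul, norm_inv, Complex.norm_real, norm_norm, inv_mul_cancel₀ hn]
  · have h1 : inner ℂ (z r) (A (z r)) = (a + t * (b - a)) * ((‖z r‖ : ℝ) : ℂ) ^ 2 := by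
      have h2 := hval
      simp only [hφ] at h2
      rw [div_eq_iff hc, inner_self_eq_norm_sq_to_K] at h2
      have h3 : ((‖z r‖ : ℝ) : ℂ) = (RCLike.ofReal ‖z r‖ : ℂ) := rfl
      rw [← h3] at h2
      linear_combination h2
    rw [map_smul, inner_smul_left, inner_smul_right, h1, map_inv₀, Complex.conj_ofReal]
    have hs' : (s : ℂ) = 1 - t := by
      have : s = 1 - t := by linarith
      rw [this]; push_cast; ring
    rw [Complex.real_smul, Complex.real_smul, hs']
    field_simp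
    ring

theorem isCompact_nr {H : Type*} [NormedAddCommGroup H] [InnerProductSpace ℂ H]
    [FiniteDimensional ℂ H] (A : H →L[ℂ] H) : IsCompact (nr A) := by
  have : ProperSpace H := FiniteDimensional.proper ℂ H
  have h : nr A = (fun x : H => inner ℂ x (A x)) '' sphere (0 : H) 1 := by
    ext z
    constructor
    · rintro ⟨x, hx, rfl⟩
      exact ⟨x, by simpa using hx, rfl⟩
    · rintro ⟨x, hx, rfl⟩
      exact ⟨x, by simpa using hx, rfl⟩
  rw [h]
  exact (isCompact_sphere _ _).image (continuous_id.inner A.continuous)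

/-- Reduction of S0179 to the finite dimensional theorem on open convex neighbourhoods. -/
theorem s0179_of_findim.{u}
    (hfin : ∀ (H : Type u) [NormedAddCommGroup H] [InnerProductSpace ℂ H] [FiniteDimensional ℂ H]
      (A : H →L[ℂ] H) (Ω : Set ℂ), IsOpen Ω → Convex ℝ Ω → nr A ⊆ Ω →
      ∀ (m d : ℕ) (B : Fin (d + 1) → Matrix (Fin m) (Fin m) ℂ) (M : ℝ),
      (∀ z ∈ Ω, ‖Matrix.toEuclideanCLM (n := Fin m) (𝕜 := ℂ)
          (∑ k : Fin (d + 1), z ^ (k : ℕ) • B k)‖ ≤ M) →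
      ∀ v : PiLp 2 (fun _ : Fin m => H),
        ‖(WithLp.toLp 2 (fun i : Fin m => ∑ j : Fin m, ∑ k : Fin (d + 1),
          B k i j • (A ^ (k : ℕ)) (v j)) : PiLp 2 (fun _ : Fin m => H))‖ ≤ 2 * M * ‖v‖)
    {H : Type u} [NormedAddCommGroup H] [InnerProductSpace ℂ H] [CompleteSpace H]
    (A : H →L[ℂ] H) (m d : ℕ) (B : Fin (d + 1) → Matrix (Fin m) (Fin m) ℂ) (M : ℝ)
    (hM : ∀ x : H, ‖x‖ = 1 →
      ‖Matrix.toEuclideanCLM (n := Fin m) (𝕜 := ℂ)
          (∑ k : Fin (d + 1), (inner ℂ x (A x)) ^ (k : ℕ) • B k)‖ ≤ M)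
    (v : PiLp 2 (fun _ : Fin m => H)) :
    ‖(WithLp.toLp 2 (fun i : Fin m => ∑ j : Fin m, ∑ k : Fin (d + 1), B k i j • (A ^ (k : ℕ)) (v j))
        : PiLp 2 (fun _ : Fin m => H))‖ ≤ 2 * M * ‖v‖ := by
  set H0 : Submodule ℂ H :=
    Submodule.span ℂ (range fun p : Fin (d + 1) × Fin m => (A ^ (p.1 : ℕ)) (v p.2)) with hH0
  have : FiniteDimensional ℂ H0 := FiniteDimensional.span_of_finite ℂ (finite_range _)
  have hmem : ∀ k : ℕ, k ≤ d → ∀ j, (A ^ k) (v j) ∈ H0 := by
    intro k hk j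
    exact Submodule.subset_span ⟨(⟨k, Nat.lt_succ_of_le hk⟩, j), rfl⟩
  set A0 : H0 →L[ℂ] H0 := H0.orthogonalProjectionOnto ∘L A ∘L H0.subtypeL with hA0
  have hv0 : ∀ j, v j ∈ H0 := fun j => by simpa using hmem 0 (Nat.zero_le _) j
  set w : PiLp 2 (fun _ : Fin m => H0) := WithLp.toLp 2 (fun j => (⟨v j, hv0 j⟩ : H0)) with hw
  have hpow : ∀ k : ℕ, k ≤ d → ∀ j, (((A0 ^ k) (w j) : H0) : H) = (A ^ k) (v j) := by
    intro k
    induction k with
    | zero => intro _ j; simp [hw]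
    | succ k ih =>
      intro hk j
      have h1 : (A0 ^ (k + 1)) (w j) = A0 ((A0 ^ k) (w j)) := by
        rw [pow_succ']; rfl
      have h2 : (A ^ (k + 1)) (v j) = A ((A ^ k) (v j)) := by
        rw [pow_succ']; rfl
      have h3 : A0 ((A0 ^ k) (w j)) = H0.orthogonalProjectionOnto (A ((A ^ k) (v j))) := by
        rw [← ih (Nat.le_of_succ_le hk) j]; rfl
      rw [h1, h3, ← h2]
      exact congrArg Subtype.val
        (Submodule.orthogonalProjectionOnto_mem_subspace_eq_self (⟨_, hmem (k + 1) hk j⟩ : H0))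
  have hnr : nr A0 ⊆ nr A := by
    rintro z ⟨x, hx, rfl⟩
    refine ⟨(x : H), hx, ?_⟩
    have : A0 x = H0.orthogonalProjectionOnto (A (x : H)) := rfl
    rw [this, Submodule.inner_orthogonalProjectionOnto_eq_of_mem_left]
  have hwv : ‖w‖ = ‖v‖ := by
    rw [PiLp.norm_eq_of_L2, PiLp.norm_eq_of_L2]
    rfl
  have hL : ‖(WithLp.toLp 2 (fun i : Fin m => ∑ j : Fin m, ∑ k : Fin (d + 1),
          B k i j • (A0 ^ (k : ℕ)) (w j)) : PiLp 2 (fun _ : Fin m => H0))‖ =
      ‖(WithLp.toLp 2 (fun i : Fin m => ∑ j : Fin m, ∑ k : Fin (d + 1),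
          B k i j • (A ^ (k : ℕ)) (v j)) : PiLp 2 (fun _ : Fin m => H))‖ := by
    rw [PiLp.norm_eq_of_L2, PiLp.norm_eq_of_L2]
    congr 1
    refine Finset.sum_congr rfl fun i _ => ?_
    congr 1
    rw [← Submodule.norm_coe]
    congr 1
    simp only [Submodule.coe_sum, Submodule.coe_smul]
    refine Finset.sum_congr rfl fun j _ => Finset.sum_congr rfl fun k _ => ?_
    rw [hpow k (Nat.le_of_lt_succ k.2) j]
  have hPc : Continuous fun z : ℂ => ‖Matrix.toEuclideanCLM (n := Fin m) (𝕜 := ℂ)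
          (∑ k : Fin (d + 1), z ^ (k : ℕ) • B k)‖ := by
    simp only [map_sum, map_smul]
    fun_prop
  have key : ∀ ε : ℝ, 0 < ε →
      ‖(WithLp.toLp 2 (fun i : Fin m => ∑ j : Fin m, ∑ k : Fin (d + 1),
          B k i j • (A ^ (k : ℕ)) (v j)) : PiLp 2 (fun _ : Fin m => H))‖ ≤ 2 * (M + ε) * ‖v‖ := by
    intro ε hε
    have hU : IsOpen {z : ℂ | ‖Matrix.toEuclideanCLM (n := Fin m) (𝕜 := ℂ)
          (∑ k : Fin (d + 1), z ^ (k : ℕ) • B k)‖ < M + ε} := isOpen_lt hPc continuous_const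
    obtain ⟨δ, hδ, hsub⟩ := (isCompact_nr A0).exists_thickening_subset_open hU (by
      intro z hz
      obtain ⟨x, hx, rfl⟩ := hnr hz
      exact lt_of_le_of_lt (hM x hx) (by linarith))
    rw [← hL, ← hwv]
    exact hfin H0 A0 (thickening δ (nr A0)) isOpen_thickening ((convex_nr A0).thickening δ)
      (self_subset_thickening hδ _) m d B (M + ε) (fun z hz => le_of_lt (hsub hz)) w
  have hlim : Filter.Tendsto (fun ε : ℝ => 2 * (M + ε) * ‖v‖) (nhdsWithin 0 (Ioi 0))
      (nhds (2 * (M + 0) * ‖v‖)) :=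
    tendsto_nhdsWithin_of_tendsto_nhds
      ((by fun_prop : Continuous fun ε : ℝ => 2 * (M + ε) * ‖v‖).tendsto 0)
  rw [add_zero] at hlim
  exact ge_of_tendsto hlim (eventually_nhdsWithin_of_forall fun ε hε => key ε hε)

end Crest.Agent.R132
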