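import Crest.Agent.R132.Resolvent
import Crest.Agent.R132.ExtMap
import Crest.Agent.R132.HolFC
import Crest.Agent.R132.Toeplitz

/-!
The complete Crouzeix bound in finite dimension.  Owner: helper38.
-/

open Metric Set MeasureTheory
open scoped ComplexConjugate InnerProductSpace

namespace Crest.Agent.R132

/-- The block operator with entries `T i j`. -/
noncomputable def blockOp {H : Type*} [NormedAddCommGroup H] [InnerProductSpace ℂ H]
    [FiniteDimensional ℂ H] {m : ℕ} (T : Fin m → Fin m → H →L[ℂ] H) :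
    PiLp 2 (fun _ : Fin m => H) →L[ℂ] PiLp 2 (fun _ : Fin m => H) :=
  LinearMap.toContinuousLinearMap
    { toFun := fun v => WithLp.toLp 2 (fun i => ∑ j, T i j (v j))
      map_add' := by
        intro v w
        ext i
        simp [Finset.sum_add_distrib]
      map_smul' := by
        intro c v
        ext i
        simp [Finset.smul_sum] }

lemma blockOp_apply {H : Type*} [NormedAddCommGroup H] [InnerProductSpace ℂ H]
    [FiniteDimensional ℂ H] {m : ℕ} (T : Fin m → Fin m → H →L[ℂ] H)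
    (v : PiLp 2 (fun _ : Fin m => H)) :
    blockOp T v = WithLp.toLp 2 (fun i => ∑ j, T i j (v j)) := rfl

theorem hol_crouzeix {H : Type*} [NormedAddCommGroup H] [InnerProductSpace ℂ H]
    [FiniteDimensional ℂ H] (A : H →L[ℂ] H) {Ω : Set ℂ} (hΩo : IsOpen Ω) (hΩc : Convex ℝ Ω)
    (hA : nr A ⊆ Ω) {χ : Polynomial ℂ} (hχ : Polynomial.aeval A χ = 0) {m : ℕ}
    {Φ : ℂ → Matrix (Fin m) (Fin m) ℂ} {q : Fin m → Fin m → Polynomial ℂ}
    (hq : ∀ i j, Rep Ω χ (fun z => Φ z i j) (q i j)) {M : ℝ}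
    (hM : ∀ z ∈ Ω, ‖Matrix.toEuclideanCLM (n := Fin m) (𝕜 := ℂ) (Φ z)‖ ≤ M)
    (v : PiLp 2 (fun _ : Fin m => H)) :
    ‖(WithLp.toLp 2 (fun i : Fin m => ∑ j : Fin m, Polynomial.aeval A (q i j) (v j)) :
      PiLp 2 (fun _ : Fin m => H))‖ ≤ 2 * M * ‖v‖ := by
  have : CompleteSpace H := FiniteDimensional.complete ℂ H
  set T : Fin m → Fin m → H →L[ℂ] H := fun i j => Polynomial.aeval A (q i j) with hT
  change ‖blockOp T v‖ ≤ _
  by_cases hv : v = 0
  · simp [hv]
  have hnt : Nontrivial (PiLp 2 (fun _ : Fin m => H)) := nontrivial_of_ne v 0 hv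
  obtain ⟨j0, hj0⟩ : ∃ j, v j ≠ 0 := by
    by_contra h
    push Not at h
    exact hv (by ext j; simp [h j])
  have hne : (nr A).Nonempty := ⟨_, inner_div_mem_nr A hj0⟩
  obtain ⟨E, R, hE, h1, h2, hΓ⟩ := exists_extData (isCompact_nr A) (convex_nr A) hne hΩo hA
  have hM0 : 0 ≤ M := (norm_nonneg _).trans (hM _ (hA hne.some_mem))
  by_cases hL : blockOp T = 0
  · rw [hL]
    simp only [zero_apply, norm_zero]
    positivity
  obtain ⟨x, y, hx1, hx, hy⟩ := exists_singular (blockOp T) hL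
  have hu : ∀ a ∈ ball (0 : ℂ) R, IsUnit (Lop E A a) :=
    fun a ha => isUnit_Lop A (fun z hz => h1 z hz a ha)
  have hΓc := continuous_Gamma hE
  have hκ := core_ineq hE (differentiableOn_Res hE hu) (Res_zero hE (hu 0 hE.zero_mem))
    (fun b w => Res_pos (hu b (b.mem_ball hE.one_lt)) (fun z hz => h2 z hz b b.norm_eq) w)
    (Φ := fun b : Sph => Φ (E b / b))
    (fun i j => (hq i j).differentiableOn.continuousOn.comp_continuous hΓc
      (fun b => hΓ b b.norm_eq))
    (fun b => hM _ (hΓ b b.norm_eq)) (T := T)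
    (fun a ha0 ha i j => Res_mul_aeval hE hu hΩo hΩc hΓ hχ (hq i j).differentiableOn (hq i j) ha0 ha)
    (fun a _ ha i j => commute_Res (by
        have := Polynomial.commute_X (q i j)
        have h3 := this.symm.map (Polynomial.aeval A)
        simpa using h3)
      (hu a (by simp; linarith [hE.one_lt])))
    (x := fun i => x i) (y := fun i => y i) (κ := ‖blockOp T‖)
    (fun i => by
      have := congrArg (fun w : PiLp 2 (fun _ : Fin m => H) => w i) hx
      simpa [blockOp_apply] using this)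
    (fun k w => by
      have := hy (WithLp.toLp 2 (Pi.single k w))
      rw [blockOp_apply, PiLp.inner_apply, PiLp.inner_apply] at this
      simp only [Pi.single_apply, apply_ite, map_zero, Finset.sum_ite_eq', Finset.mem_univ,
        if_true, inner_zero_right] at this
      simpa using this)
    (by
      intro h
      have : x = 0 := by ext i; exact congrFun h i
      rw [this, norm_zero] at hx1
      exact zero_ne_one hx1)
  have hκ' : ‖blockOp T‖ ≤ 2 * M := by
    apply abs_le_of_sq_le_sq' _ (by positivity) |>.2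
    nlinarith
  exact (blockOp T).le_of_opNorm_le hκ' v

theorem crouzeix_comp {H : Type*} [NormedAddCommGroup H] [InnerProductSpace ℂ H]
    [FiniteDimensional ℂ H] (A : H →L[ℂ] H) {Ω : Set ℂ} (hΩo : IsOpen Ω) (hΩc : Convex ℝ Ω)
    (hA : nr A ⊆ Ω) {χ : Polynomial ℂ} (hχ : Polynomial.aeval A χ = 0)
    {f : ℂ → ℂ} {p : Polynomial ℂ} (hp : Rep Ω χ f p)
    (m d : ℕ) (B : Fin (d + 1) → Matrix (Fin m) (Fin m) ℂ) (M : ℝ)
    (hM : ∀ z ∈ Ω, ‖Matrix.toEuclideanCLM (n := Fin m) (𝕜 := ℂ)
          (∑ k : Fin (d + 1), f z ^ (k : ℕ) • B k)‖ ≤ M)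
    (v : PiLp 2 (fun _ : Fin m => H)) :
    ‖(WithLp.toLp 2 (fun i : Fin m => ∑ j : Fin m, ∑ k : Fin (d + 1),
      B k i j • ((Polynomial.aeval A p) ^ (k : ℕ)) (v j)) : PiLp 2 (fun _ : Fin m => H))‖
        ≤ 2 * M * ‖v‖ := by
  have h := hol_crouzeix A hΩo hΩc hA hχ
    (Φ := fun z => ∑ k : Fin (d + 1), f z ^ (k : ℕ) • B k)
    (q := fun i j => ∑ k : Fin (d + 1), Polynomial.C (B k i j) * p ^ (k : ℕ)) (fun i j => by
      have := Rep.sum (Ω := Ω) (χ := χ) Finset.univ
        (h := fun (k : Fin (d + 1)) z => B k i j * f z ^ (k : ℕ))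
        (q := fun k => Polynomial.C (B k i j) * p ^ (k : ℕ))
        (fun k _ => (hp.pow k).const_mul (B k i j))
      refine this.congr ?_
      intro z _
      simp [Matrix.sum_apply, mul_comm]) hM v
  simpa [Algebra.algebraMap_eq_smul_one, sum_apply] using h

end Crest.Agent.R132
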