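import Mathlib

/-!
Change of variables on the unit circle under an injective holomorphic self-map of the circle
(helper file for S0181, author helper70).
-/

open Metric Set Complex
open scoped ComplexConjugate

namespace Crest.Agent.R132

theorem pc_norm_exp (θ : ℝ) : ‖Complex.exp ((θ : ℂ) * Complex.I)‖ = 1 :=
  Complex.norm_exp_ofReal_mul_I θ

theorem pc_exp_mem (θ : ℝ) : Complex.exp ((θ : ℂ) * Complex.I) ∈ sphere (0 : ℂ) 1 := by
  simp

theorem pc_hasDerivAt_exp (θ : ℝ) :
    HasDerivAt (fun s : ℝ => Complex.exp ((s : ℂ) * Complex.I))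
      (Complex.exp ((θ : ℂ) * Complex.I) * Complex.I) θ := by
  have h1 : HasDerivAt (fun s : ℝ => (s : ℂ) * Complex.I) (Complex.I) θ := by
    simpa using (Complex.ofRealCLM.hasDerivAt (x := θ)).mul_const Complex.I
  exact h1.cexp

theorem pc_continuous_exp : Continuous (fun s : ℝ => Complex.exp ((s : ℂ) * Complex.I)) := by
  fun_prop

/-- derivative of the squared norm of a path -/
theorem pc_hasDerivAt_normSq {c : ℝ → ℂ} {c' : ℂ} {x : ℝ} (h : HasDerivAt c c' x) :
    HasDerivAt (fun s => (conj (c s) * c s).re) (2 * (conj (c x) * c').re) x := by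
  have h1 : HasDerivAt (fun s => conj (c s)) (conj c') x := by
    simpa using h.star
  have h2 := h1.mul h
  have h3 := Complex.reCLM.hasFDerivAt.comp_hasDerivAt x h2
  have h4 : (conj c' * c x + conj (c x) * c').re = 2 * (conj (c x) * c').re := by
    simp
    ring
  rw [← h4]
  exact h3

theorem pc_conj_mul_re (z : ℂ) : (conj z * z).re = ‖z‖ ^ 2 := by
  rw [Complex.sq_norm, Complex.normSq_apply]
  simp

theorem pc_conj_mul {z : ℂ} (hz : ‖z‖ = 1) : conj z * z = 1 := by
  rw [mul_comm, Complex.mul_conj, Complex.normSq_eq_norm_sq, hz]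
  simp

theorem pc_exp_inj {a b : ℝ} (hab : a < b) (hb : b < a + 2 * Real.pi) :
    Complex.exp ((a : ℂ) * Complex.I) ≠ Complex.exp ((b : ℂ) * Complex.I) := by
  intro h
  rw [Complex.exp_eq_exp_iff_exists_int] at h
  obtain ⟨k, hk⟩ := h
  have h2 : a = b + k * (2 * Real.pi) := by
    have := congrArg Complex.im hk
    simpa using this
  have hpi := Real.pi_pos
  have h3 : (k : ℝ) < 0 := by
    by_contra hcon
    push Not at hcon
    nlinarith
  have h4 : (-1 : ℝ) < k := by
    by_contra hcon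
    push Not at hcon
    nlinarith
  have h5 : k < 0 := by exact_mod_cast h3
  have h6 : -1 < k := by exact_mod_cast h4
  omega

theorem exists_circle_density {ψ : ℂ → ℂ} {O : Set ℂ} (hO : IsOpen O)
    (hsO : sphere (0 : ℂ) 1 ⊆ O) (hψ : DifferentiableOn ℂ ψ O)
    (hinj : InjOn ψ (sphere 0 1)) (hnorm : ∀ t ∈ sphere (0 : ℂ) 1, ‖ψ t‖ = 1)
    (hout : ∀ t ∈ O, 1 < ‖t‖ → 1 ≤ ‖ψ t‖) :
    ∃ w : ℝ → ℝ, Continuous w ∧ Function.Periodic w (2 * Real.pi) ∧ (∀ θ, 0 ≤ w θ) ∧
      ∀ F : ℂ → ℂ, ContinuousOn F (sphere 0 1) →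
        ∫ θ in (0 : ℝ)..2 * Real.pi, (w θ : ℂ) * F (ψ (Complex.exp ((θ : ℂ) * Complex.I))) =
          ∫ θ in (0 : ℝ)..2 * Real.pi, F (Complex.exp ((θ : ℂ) * Complex.I)) := by
  set e : ℝ → ℂ := fun θ => Complex.exp ((θ : ℂ) * Complex.I) with he
  have heO : ∀ θ, e θ ∈ O := fun θ => hsO (pc_exp_mem θ)
  have hder : ∀ t ∈ O, HasDerivAt ψ (deriv ψ t) t := fun t ht =>
    (hψ.differentiableAt (hO.mem_nhds ht)).hasDerivAt
  have hcont' : ContinuousOn (deriv ψ) O := (hψ.deriv hO).continuousOn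
  have hce : Continuous e := pc_continuous_exp
  have hΨc : Continuous (fun θ => ψ (e θ)) := hψ.continuousOn.comp_continuous hce heO
  have hΨ'c : Continuous (fun θ => deriv ψ (e θ)) := hcont'.comp_continuous hce heO
  set w : ℝ → ℝ := fun θ => (conj (ψ (e θ)) * (deriv ψ (e θ) * e θ)).re with hw
  have hwc : Continuous w := by
    exact Complex.continuous_re.comp
      ((Complex.continuous_conj.comp hΨc).mul (hΨ'c.mul hce))
  have heper : Function.Periodic e (2 * Real.pi) := by
    intro θ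
    simp only [he]
    push_cast
    rw [add_mul, Complex.exp_add, Complex.exp_two_pi_mul_I, mul_one]
  have hwper : Function.Periodic w (2 * Real.pi) := by
    intro θ
    simp only [hw, heper θ]
  -- derivative along the circle
  have hΨd : ∀ θ, HasDerivAt (fun s => ψ (e s)) (deriv ψ (e θ) * (e θ * Complex.I)) θ := by
    intro θ
    exact (hder _ (heO θ)).comp_of_eq θ (pc_hasDerivAt_exp θ) rfl
  have him : ∀ θ, (conj (ψ (e θ)) * (deriv ψ (e θ) * e θ)).im = 0 := by
    intro θ
    have h1 := pc_hasDerivAt_normSq (hΨd θ)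
    have h2 : (fun s => (conj (ψ (e s)) * ψ (e s)).re) = fun _ => (1 : ℝ) := by
      funext s
      rw [pc_conj_mul (hnorm _ (pc_exp_mem s))]
      simp
    rw [h2] at h1
    have h3 := h1.unique (hasDerivAt_const θ (1 : ℝ))
    have h4 : conj (ψ (e θ)) * (deriv ψ (e θ) * (e θ * Complex.I))
        = (conj (ψ (e θ)) * (deriv ψ (e θ) * e θ)) * Complex.I := by ring
    rw [h4, Complex.mul_I_re] at h3
    linarith
  have hwnn : ∀ θ, 0 ≤ w θ := by
    intro θ
    have hr : HasDerivAt (fun ρ : ℝ => (ρ : ℂ) * e θ) (e θ) 1 := by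
      simpa using (Complex.ofRealCLM.hasDerivAt (x := (1 : ℝ))).mul_const (e θ)
    have h1 : HasDerivAt (fun ρ : ℝ => ψ ((ρ : ℂ) * e θ)) (deriv ψ (e θ) * e θ) 1 :=
      (hder _ (heO θ)).comp_of_eq (1 : ℝ) hr (by simp)
    have h2 := pc_hasDerivAt_normSq h1
    simp only [Complex.ofReal_one, one_mul] at h2
    have h3 : ∀ᶠ ρ : ℝ in nhds 1, (ρ : ℂ) * e θ ∈ O := by
      apply hr.continuousAt.preimage_mem_nhds
      simpa using hO.mem_nhds (heO θ)
    have h4 := (hasDerivAt_iff_tendsto_slope_left_right.1 h2).2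
    have h5 : ∀ᶠ ρ : ℝ in nhdsWithin 1 (Ioi 1),
        0 ≤ slope (fun s : ℝ => (conj (ψ ((s : ℂ) * e θ)) * ψ ((s : ℂ) * e θ)).re) 1 ρ := by
      filter_upwards [nhdsWithin_le_nhds h3, self_mem_nhdsWithin] with ρ hρ hρ1
      have hρ1' : 1 < ρ := hρ1
      rw [slope_def_field]
      apply div_nonneg _ (by linarith)
      simp only [Complex.ofReal_one, one_mul, pc_conj_mul_re]
      rw [hnorm _ (pc_exp_mem θ)]
      have h6 : 1 ≤ ‖ψ ((ρ : ℂ) * e θ)‖ := by
        apply hout _ hρ
        rw [norm_mul, pc_norm_exp, mul_one, Complex.norm_real, Real.norm_eq_abs]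
        exact lt_of_lt_of_le hρ1' (le_abs_self _)
      nlinarith
    have h6 := ge_of_tendsto h4 h5
    simp only [hw]
    linarith
  -- the angle function
  set φ : ℝ → ℝ := fun θ => Complex.arg (ψ (e 0)) + ∫ s in (0 : ℝ)..θ, w s with hφ
  have hφd : ∀ θ, HasDerivAt φ (w θ) θ := by
    intro θ
    exact (hwc.integral_hasStrictDerivAt 0 θ).hasDerivAt.const_add _
  have hΨd' : ∀ θ, HasDerivAt (fun s => ψ (e s)) (ψ (e θ) * ((w θ : ℂ) * Complex.I)) θ := by
    intro θ
    convert hΨd θ using 1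
    have h1 : (w θ : ℂ) = conj (ψ (e θ)) * (deriv ψ (e θ) * e θ) := by
      apply Complex.ext
      · simp [hw]
      · rw [him θ]; simp
    rw [h1]
    have h2 := pc_conj_mul (hnorm _ (pc_exp_mem θ))
    change conj (ψ (e θ)) * ψ (e θ) = 1 at h2
    linear_combination (deriv ψ (e θ) * e θ * Complex.I) * h2
  have hΨφ : ∀ θ, ψ (e θ) = e (φ θ) := by
    have hd : ∀ θ, HasDerivAt (fun s => ψ (e s) * e (-φ s)) 0 θ := by
      intro θ
      have h1 : HasDerivAt (fun s => e (-φ s)) ((-w θ : ℝ) • (e (-φ θ) * Complex.I)) θ :=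
        HasDerivAt.scomp (h := fun s => -φ s) θ (pc_hasDerivAt_exp (-φ θ)) (hφd θ).neg
      have h2 := (hΨd' θ).mul h1
      have h3 : ψ (e θ) * ((w θ : ℂ) * Complex.I) * e (-φ θ) +
          ψ (e θ) * ((-w θ : ℝ) • (e (-φ θ) * Complex.I)) = 0 := by
        simp only [Complex.real_smul]
        push_cast
        ring
      rw [h3] at h2
      exact h2
    have hc := is_const_of_deriv_eq_zero (fun θ => (hd θ).differentiableAt)
      (fun θ => (hd θ).deriv)
    have hmul : ∀ s, e (-s) * e s = 1 := by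
      intro s
      simp only [he]
      rw [← Complex.exp_add]
      simp
    have h0 : ψ (e 0) = e (φ 0) := by
      have := Complex.norm_mul_exp_arg_mul_I (ψ (e 0))
      rw [hnorm _ (pc_exp_mem 0)] at this
      simp only [hφ, intervalIntegral.integral_same, add_zero]
      simpa using this.symm
    intro θ
    have h1 := hc θ 0
    rw [h0, mul_comm (e (φ 0)), hmul] at h1
    have h2 := hmul (φ θ)
    calc ψ (e θ) = ψ (e θ) * (e (-φ θ) * e (φ θ)) := by rw [h2, mul_one]
      _ = (ψ (e θ) * e (-φ θ)) * e (φ θ) := by ring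
      _ = e (φ θ) := by rw [h1, one_mul]
  have hφmono : Monotone φ := monotone_of_deriv_nonneg (fun θ => (hφd θ).differentiableAt)
    (fun θ => by rw [(hφd θ).deriv]; exact hwnn θ)
  have hφc : Continuous φ := continuous_iff_continuousAt.2 fun θ => (hφd θ).continuousAt
  have hpi := Real.pi_pos
  have hne : ∀ θ, 0 < θ → θ < 2 * Real.pi → e (φ θ) ≠ e (φ 0) := by
    intro θ h0 h1 h
    rw [← hΨφ, ← hΨφ] at h
    have h2 := hinj (pc_exp_mem θ) (pc_exp_mem 0) h
    exact pc_exp_inj h0 (by simpa using h1) h2.symm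
  have hturn : φ (2 * Real.pi) = φ 0 + 2 * Real.pi := by
    have h1 : e (φ (2 * Real.pi)) = e (φ 0) := by
      rw [← hΨφ, ← hΨφ]
      have := heper 0
      rw [zero_add] at this
      rw [this]
    have h2 : φ 0 < φ (2 * Real.pi) := by
      have h3 : φ 0 ≤ φ Real.pi := hφmono hpi.le
      have h4 : φ Real.pi ≤ φ (2 * Real.pi) := hφmono (by linarith)
      have h5 : φ Real.pi ≠ φ 0 := by
        intro h
        exact hne Real.pi hpi (by linarith) (by rw [h])
      exact lt_of_lt_of_le (lt_of_le_of_ne h3 h5.symm) h4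
    rcases lt_trichotomy (φ (2 * Real.pi)) (φ 0 + 2 * Real.pi) with h | h | h
    · exact absurd h1.symm (pc_exp_inj h2 h)
    · exact h
    · exfalso
      have h3 : φ 0 + 2 * Real.pi ∈ Ioo (φ 0) (φ (2 * Real.pi)) := ⟨by linarith, h⟩
      obtain ⟨θ, hθ, hθ'⟩ := intermediate_value_Ioo (by linarith : (0 : ℝ) ≤ 2 * Real.pi)
        hφc.continuousOn h3
      apply hne θ hθ.1 hθ.2
      rw [hθ', heper]
  refine ⟨w, hwc, hwper, hwnn, fun F hF => ?_⟩
  have hFe : Continuous (fun s => F (e s)) := hF.comp_continuous hce pc_exp_mem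
  have h1 := intervalIntegral.integral_deriv_smul_comp (a := 0) (b := 2 * Real.pi)
    (f := φ) (f' := w) (g := fun s => F (e s)) (fun x _ => hφd x) hwc.continuousOn hFe
  have h2 : Function.Periodic (fun s => F (e s)) (2 * Real.pi) := fun s => by
    simp only [heper s]
  rw [hturn, h2.intervalIntegral_add_eq (φ 0) 0, zero_add] at h1
  rw [← h1]
  apply intervalIntegral.integral_congr
  intro θ _
  simp only [Function.comp, Complex.real_smul]
  rw [← hΨφ]

end Crest.Agent.R132
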