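import Mathlib
import Crest.Agent.R132.PoissonCircle

/-!
Entrywise circle means of matrix functions, the Poisson kernel of a matrix contraction and the
norm estimate for positive densities (helper file for S0181, author helper70).
-/

open Metric Set Matrix
open scoped ComplexConjugate ComplexOrder Kronecker

namespace Crest.Agent.R132

/-- entrywise mean over one period -/
noncomputable def mavg {ι κ : Type*} (N : ℝ → Matrix ι κ ℂ) : Matrix ι κ ℂ :=
  Matrix.of fun i j => (2 * Real.pi : ℂ)⁻¹ * ∫ θ in (0 : ℝ)..2 * Real.pi, N θ i j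

section mavg

variable {ι κ μ : Type*}

theorem pm_ii {N : ℝ → Matrix ι κ ℂ} (h : Continuous N) (i : ι) (j : κ) (a b : ℝ) :
    IntervalIntegrable (fun θ => N θ i j) MeasureTheory.volume a b :=
  (h.matrix_elem i j).intervalIntegrable a b

theorem mavg_add {N₁ N₂ : ℝ → Matrix ι κ ℂ} (h₁ : Continuous N₁) (h₂ : Continuous N₂) :
    mavg (fun θ => N₁ θ + N₂ θ) = mavg N₁ + mavg N₂ := by
  ext i j
  simp only [mavg, Matrix.of_apply, Matrix.add_apply]
  rw [intervalIntegral.integral_add (pm_ii h₁ i j _ _) (pm_ii h₂ i j _ _), mul_add]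

theorem mavg_sub {N₁ N₂ : ℝ → Matrix ι κ ℂ} (h₁ : Continuous N₁) (h₂ : Continuous N₂) :
    mavg (fun θ => N₁ θ - N₂ θ) = mavg N₁ - mavg N₂ := by
  ext i j
  simp only [mavg, Matrix.of_apply, Matrix.sub_apply]
  rw [intervalIntegral.integral_sub (pm_ii h₁ i j _ _) (pm_ii h₂ i j _ _), mul_sub]

theorem mavg_smul (c : ℂ) (N : ℝ → Matrix ι κ ℂ) :
    mavg (fun θ => c • N θ) = c • mavg N := by
  ext i j
  simp only [mavg, Matrix.of_apply, Matrix.smul_apply, smul_eq_mul]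
  rw [intervalIntegral.integral_const_mul]
  ring

theorem mavg_mul_left [Fintype κ] (C : Matrix ι κ ℂ) {N : ℝ → Matrix κ μ ℂ} (h : Continuous N) :
    mavg (fun θ => C * N θ) = C * mavg N := by
  ext i j
  simp only [mavg, Matrix.of_apply, Matrix.mul_apply]
  rw [intervalIntegral.integral_finsetSum
    (fun k _ => (pm_ii h k j _ _).const_mul (C i k)), Finset.mul_sum]
  refine Finset.sum_congr rfl fun k _ => ?_
  rw [intervalIntegral.integral_const_mul]
  ring

theorem mavg_mul_right [Fintype κ] (C : Matrix κ μ ℂ) {N : ℝ → Matrix ι κ ℂ} (h : Continuous N) :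
    mavg (fun θ => N θ * C) = mavg N * C := by
  ext i j
  simp only [mavg, Matrix.of_apply, Matrix.mul_apply]
  rw [intervalIntegral.integral_finsetSum
    (fun k _ => (pm_ii h i k _ _).mul_const (C k j)), Finset.mul_sum]
  refine Finset.sum_congr rfl fun k _ => ?_
  rw [intervalIntegral.integral_mul_const]
  ring

theorem mavg_conjTranspose (N : ℝ → Matrix ι κ ℂ) :
    mavg (fun θ => (N θ)ᴴ) = (mavg N)ᴴ := by
  ext i j
  simp only [mavg, Matrix.of_apply, Matrix.conjTranspose_apply, star_mul', Complex.star_def]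
  have h : ∫ θ in (0 : ℝ)..2 * Real.pi, conj (N θ j i)
      = conj (∫ θ in (0 : ℝ)..2 * Real.pi, N θ j i) := by
    simp only [intervalIntegral, integral_conj, map_sub]
  rw [h]
  simp [Complex.conj_ofNat]

theorem mavg_posSemidef [Fintype ι] {N : ℝ → Matrix ι ι ℂ} (h : Continuous N)
    (hp : ∀ θ, (N θ).PosSemidef) : (mavg N).PosSemidef := by
  refine PosSemidef.of_dotProduct_mulVec_nonneg ?_ fun x => ?_
  · rw [IsHermitian, ← mavg_conjTranspose]
    congr 1
    funext θ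
    exact (hp θ).1
  · set X : Matrix ι Unit ℂ := Matrix.of fun i _ => x i with hX
    have key : ∀ M : Matrix ι ι ℂ, star x ⬝ᵥ (M *ᵥ x) = (Xᴴ * (M * X)) () () := by
      intro M
      simp [hX, Matrix.mul_apply, dotProduct, mulVec]
    have hc : Continuous fun θ => N θ * X := h.matrix_mul continuous_const
    rw [key, ← mavg_mul_right X h, ← mavg_mul_left Xᴴ hc]
    simp only [mavg, Matrix.of_apply, ← key]
    have h1 : ∀ θ, star x ⬝ᵥ (N θ *ᵥ x) = (((star x ⬝ᵥ (N θ *ᵥ x)).re : ℝ) : ℂ) := by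
      intro θ
      have := (hp θ).dotProduct_mulVec_nonneg x
      apply Complex.ext
      · simp
      · rw [Complex.ofReal_im]
        exact ((Complex.nonneg_iff.1 this).2).symm
    rw [intervalIntegral.integral_congr (fun θ _ => h1 θ), intervalIntegral.integral_ofReal]
    have h2 : 0 ≤ ∫ θ in (0 : ℝ)..2 * Real.pi, (star x ⬝ᵥ (N θ *ᵥ x)).re :=
      intervalIntegral.integral_nonneg (by positivity)
        fun θ _ => (Complex.nonneg_iff.1 ((hp θ).dotProduct_mulVec_nonneg x)).1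
    have h3 : (2 * Real.pi : ℂ)⁻¹ = (((2 * Real.pi)⁻¹ : ℝ) : ℂ) := by push_cast; ring
    rw [h3, ← Complex.ofReal_mul]
    exact Complex.zero_le_real.2 (by positivity)

theorem mavg_holo {F : ℂ → Matrix ι κ ℂ}
    (hF : ∀ i j, DifferentiableOn ℂ (fun z => F z i j) (closedBall 0 1)) :
    mavg (fun θ => F (Complex.exp ((θ : ℂ) * Complex.I))) = F 0 := by
  ext i j
  have h1 : DiffContOnCl ℂ (fun z => F z i j) (ball 0 |1|) := by
    apply DifferentiableOn.diffContOnCl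
    rw [abs_one, closure_ball _ one_ne_zero]
    exact hF i j
  have h2 := h1.circleAverage
  rw [Real.circleAverage_def] at h2
  simp only [mavg, Matrix.of_apply]
  rw [← h2]
  simp [circleMap]

theorem pm_continuous_holo {F : ℂ → Matrix ι κ ℂ}
    (hF : ∀ i j, DifferentiableOn ℂ (fun z => F z i j) (closedBall 0 1)) :
    Continuous (fun θ : ℝ => F (Complex.exp ((θ : ℂ) * Complex.I))) :=
  continuous_matrix fun i j => (hF i j).continuousOn.comp_continuous pc_continuous_exp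
    fun θ => sphere_subset_closedBall (pc_exp_mem θ)

end mavg

section resolvent

variable {ι : Type*} [Fintype ι] [DecidableEq ι]

theorem pm_diff_det {M : ℂ → Matrix ι ι ℂ} (h : ∀ i j, Differentiable ℂ (fun z => M z i j)) :
    Differentiable ℂ (fun z => (M z).det) := by
  simp only [Matrix.det_apply']
  refine Differentiable.fun_sum fun σ _ => Differentiable.const_mul ?_ _
  exact Differentiable.fun_finsetProd fun i _ => h _ _

theorem pm_diff_inv {M : ℂ → Matrix ι ι ℂ} (h : ∀ i j, Differentiable ℂ (fun z => M z i j))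
    {s : Set ℂ} (hs : ∀ z ∈ s, (M z).det ≠ 0) (i j : ι) :
    DifferentiableOn ℂ (fun z => (M z)⁻¹ i j) s := by
  simp only [Matrix.inv_def, Matrix.smul_apply, smul_eq_mul, Ring.inverse_eq_inv',
    Matrix.adjugate_apply]
  refine DifferentiableOn.mul ((pm_diff_det h).differentiableOn.inv hs) ?_
  refine (pm_diff_det fun a b => ?_).differentiableOn
  simp only [Matrix.updateRow_apply]
  split_ifs
  · exact differentiable_const _
  · exact h a b

/-- the resolvent-type kernel -/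
noncomputable def kern (T : Matrix ι ι ℂ) (z : ℂ) : Matrix ι ι ℂ := (1 - z • Tᴴ)⁻¹

/-- the Poisson kernel -/
noncomputable def pois (T : Matrix ι ι ℂ) (z : ℂ) : Matrix ι ι ℂ :=
  (kern T z)ᴴ + kern T z - 1

variable {T : Matrix ι ι ℂ}

theorem kern_diff (hT : ∀ z : ℂ, ‖z‖ ≤ 1 → (1 - z • Tᴴ).det ≠ 0) (i j : ι) :
    DifferentiableOn ℂ (fun z => kern T z i j) (closedBall 0 1) := by
  refine pm_diff_inv (fun a b => ?_) (fun z hz => hT z (by simpa using hz)) i j
  simp only [Matrix.sub_apply, Matrix.smul_apply, smul_eq_mul]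
  fun_prop

theorem kern_zero : kern T 0 = 1 := by simp [kern]

theorem kern_mul {z : ℂ} (hz : (1 - z • Tᴴ).det ≠ 0) : kern T z * (1 - z • Tᴴ) = 1 :=
  Matrix.nonsing_inv_mul _ (Ne.isUnit hz)

theorem mul_kern {z : ℂ} (hz : (1 - z • Tᴴ).det ≠ 0) : (1 - z • Tᴴ) * kern T z = 1 :=
  Matrix.mul_nonsing_inv _ (Ne.isUnit hz)

theorem smul_kern_conj {z : ℂ} (hz1 : ‖z‖ = 1) (hz : (1 - z • Tᴴ).det ≠ 0) :
    z • (kern T z)ᴴ = T * (kern T z)ᴴ + z • (1 : Matrix ι ι ℂ) := by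
  have h1 := congrArg Matrix.conjTranspose (kern_mul hz)
  simp only [conjTranspose_mul, conjTranspose_sub, conjTranspose_one, conjTranspose_smul,
    conjTranspose_conjTranspose, Matrix.sub_mul, Matrix.one_mul, Matrix.smul_mul] at h1
  rw [← h1, smul_sub, smul_smul, Complex.star_def, mul_comm z, pc_conj_mul hz1, one_smul]
  abel

theorem pois_posSemidef (hc : (1 - Tᴴ * T).PosSemidef) {z : ℂ} (hz1 : ‖z‖ = 1)
    (hz : (1 - z • Tᴴ).det ≠ 0) : (pois T z).PosSemidef := by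
  have h1 := hc.mul_mul_conjTranspose_same (kern T z)
  convert h1 using 1
  set X := (1 : Matrix ι ι ℂ) - z • Tᴴ with hX
  have h2 : kern T z * X = 1 := kern_mul hz
  have h3 : Xᴴ * (kern T z)ᴴ = 1 := by
    rw [← conjTranspose_mul, h2, conjTranspose_one]
  have h4 : (1 : Matrix ι ι ℂ) - Tᴴ * T = X + Xᴴ - X * Xᴴ := by
    simp only [hX, conjTranspose_sub, conjTranspose_one, conjTranspose_smul,
      conjTranspose_conjTranspose, Matrix.sub_mul, Matrix.mul_sub, Matrix.one_mul,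
      Matrix.mul_one, Matrix.smul_mul, Matrix.mul_smul, smul_sub, smul_smul, Complex.star_def]
    rw [pc_conj_mul hz1, one_smul]
    abel
  rw [h4, pois]
  simp only [Matrix.mul_sub, Matrix.mul_add, Matrix.sub_mul, Matrix.add_mul, ← Matrix.mul_assoc,
    h2, Matrix.one_mul]
  simp only [Matrix.mul_assoc, h3, Matrix.mul_one]

theorem pois_continuousOn (hT : ∀ z : ℂ, ‖z‖ ≤ 1 → (1 - z • Tᴴ).det ≠ 0) (i j : ι) :
    ContinuousOn (fun z => pois T z i j) (sphere 0 1) := by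
  simp only [pois, Matrix.sub_apply, Matrix.add_apply, Matrix.conjTranspose_apply]
  refine ContinuousOn.sub (ContinuousOn.add ?_ ?_) continuousOn_const
  · exact ((kern_diff hT j i).continuousOn.mono sphere_subset_closedBall).star
  · exact (kern_diff hT i j).continuousOn.mono sphere_subset_closedBall

/-- Cauchy-type integral -/
noncomputable def cauI (T : Matrix ι ι ℂ) (h : ℂ → ℂ) : Matrix ι ι ℂ :=
  mavg fun θ => h (Complex.exp ((θ : ℂ) * Complex.I)) •
    (kern T (Complex.exp ((θ : ℂ) * Complex.I)))ᴴ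

theorem pm_cont_scalar {h : ℂ → ℂ} (hh : DifferentiableOn ℂ h (closedBall 0 1)) :
    Continuous (fun θ : ℝ => h (Complex.exp ((θ : ℂ) * Complex.I))) :=
  hh.continuousOn.comp_continuous pc_continuous_exp
    fun θ => sphere_subset_closedBall (pc_exp_mem θ)

theorem cauI_cont (hT : ∀ z : ℂ, ‖z‖ ≤ 1 → (1 - z • Tᴴ).det ≠ 0) {h : ℂ → ℂ}
    (hh : DifferentiableOn ℂ h (closedBall 0 1)) :
    Continuous fun θ : ℝ => h (Complex.exp ((θ : ℂ) * Complex.I)) •
      (kern T (Complex.exp ((θ : ℂ) * Complex.I)))ᴴ :=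
  (pm_cont_scalar hh).smul (pm_continuous_holo (kern_diff hT)).matrix_conjTranspose

theorem cauI_one (hT : ∀ z : ℂ, ‖z‖ ≤ 1 → (1 - z • Tᴴ).det ≠ 0) : cauI T (fun _ => 1) = 1 := by
  simp only [cauI, one_smul]
  rw [mavg_conjTranspose, mavg_holo (kern_diff hT), kern_zero, conjTranspose_one]

theorem cauI_add (hT : ∀ z : ℂ, ‖z‖ ≤ 1 → (1 - z • Tᴴ).det ≠ 0) {h₁ h₂ : ℂ → ℂ}
    (hh₁ : DifferentiableOn ℂ h₁ (closedBall 0 1)) (hh₂ : DifferentiableOn ℂ h₂ (closedBall 0 1)) :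
    cauI T (fun z => h₁ z + h₂ z) = cauI T h₁ + cauI T h₂ := by
  simp only [cauI, add_smul]
  exact mavg_add (cauI_cont hT hh₁) (cauI_cont hT hh₂)

theorem cauI_const_mul (a : ℂ) (h : ℂ → ℂ) : cauI T (fun z => a * h z) = a • cauI T h := by
  simp only [cauI, mul_smul]
  exact mavg_smul _ _

theorem cauI_X_mul (hT : ∀ z : ℂ, ‖z‖ ≤ 1 → (1 - z • Tᴴ).det ≠ 0) {h : ℂ → ℂ}
    (hh : DifferentiableOn ℂ h (closedBall 0 1)) :
    cauI T (fun z => z * h z) = T * cauI T h := by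
  have h1 : ∀ z : ℂ, ‖z‖ = 1 → (z * h z) • (kern T z)ᴴ
      = T * (h z • (kern T z)ᴴ) + (z * h z) • (1 : Matrix ι ι ℂ) := by
    intro z hz
    rw [mul_comm z, mul_smul, smul_kern_conj hz (hT z hz.le), smul_add, mul_smul, Matrix.mul_smul]
  have h2 : ∀ i j, DifferentiableOn ℂ (fun z => ((z * h z) • (1 : Matrix ι ι ℂ)) i j)
      (closedBall 0 1) := by
    intro i j
    simp only [Matrix.smul_apply, smul_eq_mul]
    exact (differentiableOn_id.mul hh).mul_const _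
  simp only [cauI, h1 _ (pc_norm_exp _)]
  rw [mavg_add (continuous_const.matrix_mul (cauI_cont hT hh)) (pm_continuous_holo h2),
    mavg_mul_left T (cauI_cont hT hh), mavg_holo h2]
  simp

theorem cauI_poly_mul (hT : ∀ z : ℂ, ‖z‖ ≤ 1 → (1 - z • Tᴴ).det ≠ 0) {h : ℂ → ℂ}
    (hh : DifferentiableOn ℂ h (closedBall 0 1)) (s : Polynomial ℂ) :
    cauI T (fun z => s.eval z * h z) = Polynomial.aeval T s * cauI T h := by
  induction s using Polynomial.induction_on with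
  | C a =>
    simp only [Polynomial.eval_C, Polynomial.aeval_C]
    rw [cauI_const_mul, Algebra.smul_def]
  | add p q hp hq =>
    simp only [Polynomial.eval_add, add_mul, map_add]
    rw [cauI_add hT (p.differentiable.differentiableOn.fun_mul hh)
      (q.differentiable.differentiableOn.fun_mul hh), hp, hq]
  | monomial k a hk =>
    have h1 : (fun z => (Polynomial.C a * Polynomial.X ^ (k + 1)).eval z * h z)
        = fun z => z * ((Polynomial.C a * Polynomial.X ^ k).eval z * h z) := by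
      funext z
      simp only [Polynomial.eval_mul, Polynomial.eval_C, Polynomial.eval_pow, Polynomial.eval_X]
      ring
    rw [h1, cauI_X_mul hT ((Polynomial.differentiable _).differentiableOn.fun_mul hh), hk,
      ← Matrix.mul_assoc]
    congr 1
    rw [show Polynomial.C a * Polynomial.X ^ (k + 1)
      = Polynomial.X * (Polynomial.C a * Polynomial.X ^ k) by ring, map_mul _ Polynomial.X,
      Polynomial.aeval_X]

theorem mavg_pois (hT : ∀ z : ℂ, ‖z‖ ≤ 1 → (1 - z • Tᴴ).det ≠ 0) {g : ℂ → ℂ}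
    (hg : DifferentiableOn ℂ g (closedBall 0 1)) :
    mavg (fun θ => g (Complex.exp ((θ : ℂ) * Complex.I)) •
      pois T (Complex.exp ((θ : ℂ) * Complex.I))) = cauI T g := by
  have h2 : ∀ i j, DifferentiableOn ℂ (fun z => (g z • (kern T z - 1)) i j) (closedBall 0 1) := by
    intro i j
    simp only [Matrix.smul_apply, smul_eq_mul, Matrix.sub_apply]
    exact hg.mul ((kern_diff hT i j).sub_const _)
  simp only [pois, add_sub_assoc, smul_add]
  rw [mavg_add (cauI_cont hT hg) (pm_continuous_holo h2), mavg_holo h2, kern_zero]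
  simp [cauI]

theorem mavg_pois_rep (hT : ∀ z : ℂ, ‖z‖ ≤ 1 → (1 - z • Tᴴ).det ≠ 0) {g g₁ : ℂ → ℂ}
    (hg₁ : DifferentiableOn ℂ g₁ (closedBall 0 1)) {s χ : Polynomial ℂ}
    (hχ : Polynomial.aeval T χ = 0)
    (hg : ∀ z ∈ closedBall (0 : ℂ) 1, g z = s.eval z + χ.eval z * g₁ z) :
    mavg (fun θ => g (Complex.exp ((θ : ℂ) * Complex.I)) •
      pois T (Complex.exp ((θ : ℂ) * Complex.I))) = Polynomial.aeval T s := by
  have h1 : DifferentiableOn ℂ (fun z => s.eval z * 1) (closedBall (0 : ℂ) 1) :=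
    s.differentiable.differentiableOn.mul_const _
  have h2 : DifferentiableOn ℂ (fun z => χ.eval z * g₁ z) (closedBall (0 : ℂ) 1) :=
    χ.differentiable.differentiableOn.mul hg₁
  have h3 := mavg_pois hT (h1.add h2)
  have h4 : cauI T ((fun z => s.eval z * 1) + fun z => χ.eval z * g₁ z)
      = Polynomial.aeval T s := by
    have := cauI_add hT h1 h2
    rw [cauI_poly_mul hT (differentiableOn_const 1), cauI_poly_mul hT hg₁, hχ, cauI_one hT,
      Matrix.zero_mul, Matrix.mul_one, add_zero] at this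
    exact this
  rw [← h4, ← h3]
  congr 1
  funext θ
  rw [hg _ (sphere_subset_closedBall (pc_exp_mem θ))]
  simp

end resolvent

section norms

variable {ι κ : Type*} [Fintype ι] [DecidableEq ι] [Fintype κ] [DecidableEq κ]

omit [DecidableEq ι] in
theorem pm_dot_self (x : ι → ℂ) :
    star x ⬝ᵥ x = ((‖(WithLp.toLp 2 x : EuclideanSpace ℂ ι)‖ ^ 2 : ℝ) : ℂ) := by
  rw [EuclideanSpace.norm_sq_eq]
  push_cast
  simp only [dotProduct, Pi.star_apply, Complex.star_def]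
  refine Finset.sum_congr rfl fun i _ => ?_
  rw [mul_comm, Complex.mul_conj, Complex.normSq_eq_norm_sq]
  push_cast
  rfl

theorem pm_quad (X : Matrix ι ι ℂ) (c : ℝ) (x : ι → ℂ) :
    star x ⬝ᵥ (((c : ℂ) • (1 : Matrix ι ι ℂ) - Xᴴ * X) *ᵥ x)
      = ((c * ‖(WithLp.toLp 2 x : EuclideanSpace ℂ ι)‖ ^ 2
        - ‖Matrix.toEuclideanCLM (n := ι) (𝕜 := ℂ) X (WithLp.toLp 2 x)‖ ^ 2 : ℝ) : ℂ) := by
  rw [Matrix.toEuclideanCLM_toLp, Complex.ofReal_sub, Complex.ofReal_mul, ← pm_dot_self,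
    ← pm_dot_self, sub_mulVec, dotProduct_sub, smul_mulVec, one_mulVec, dotProduct_smul,
    ← mulVec_mulVec, star_mulVec, dotProduct_mulVec, smul_eq_mul]

theorem norm_le_of_psd (X : Matrix ι ι ℂ) {c : ℝ} (hc : 0 ≤ c)
    (h : (((c ^ 2 : ℝ) : ℂ) • (1 : Matrix ι ι ℂ) - Xᴴ * X).PosSemidef) :
    ‖Matrix.toEuclideanCLM (n := ι) (𝕜 := ℂ) X‖ ≤ c := by
  refine ContinuousLinearMap.opNorm_le_bound _ hc fun x => ?_
  have h1 := h.dotProduct_mulVec_nonneg x.ofLp
  rw [pm_quad, Complex.zero_le_real] at h1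
  simp only [WithLp.toLp_ofLp] at h1
  refine (pow_le_pow_iff_left₀ (n := 2) (norm_nonneg _) (by positivity) two_ne_zero).1 ?_
  rw [mul_pow]; linarith

theorem psd_of_norm_le (X : Matrix ι ι ℂ) {c : ℝ}
    (h : ‖Matrix.toEuclideanCLM (n := ι) (𝕜 := ℂ) X‖ ≤ c) :
    (((c ^ 2 : ℝ) : ℂ) • (1 : Matrix ι ι ℂ) - Xᴴ * X).PosSemidef := by
  refine PosSemidef.of_dotProduct_mulVec_nonneg ?_ fun x => ?_
  · refine IsHermitian.sub ?_ (isHermitian_conjTranspose_mul_self X)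
    simp [IsHermitian]
  · rw [pm_quad, Complex.zero_le_real]
    have h1 := (Matrix.toEuclideanCLM (n := ι) (𝕜 := ℂ) X).le_of_opNorm_le h (WithLp.toLp 2 x)
    have h2 := pow_le_pow_left₀ (norm_nonneg _) h1 2
    rw [mul_pow] at h2
    linarith

theorem psd_mavg_kron {Λ : ℝ → Matrix ι ι ℂ} {v : ℝ → Matrix κ κ ℂ} (hΛ : Continuous Λ)
    (hv : Continuous v) (hp : ∀ θ, (Λ θ).PosSemidef) (h1 : mavg Λ = 1) (c : ℂ)
    (hc : ∀ θ, (c • (1 : Matrix κ κ ℂ) - (v θ)ᴴ * v θ).PosSemidef) :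
    (c • (1 : Matrix (ι × κ) (ι × κ) ℂ)
      - (mavg fun θ => Λ θ ⊗ₖ v θ)ᴴ * mavg fun θ => Λ θ ⊗ₖ v θ).PosSemidef := by
  set Φ := mavg fun θ => Λ θ ⊗ₖ v θ with hΦ
  have hk : ∀ {u : ℝ → Matrix κ κ ℂ}, Continuous u → Continuous fun θ => Λ θ ⊗ₖ u θ := by
    intro u hu
    refine continuous_matrix fun i j => ?_
    simp only [Matrix.kroneckerMap_apply]
    exact (hΛ.matrix_elem _ _).mul (hu.matrix_elem _ _)
  have hL : Continuous fun θ => Λ θ ⊗ₖ (1 : Matrix κ κ ℂ) := hk continuous_const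
  have hV : Continuous fun θ => Λ θ ⊗ₖ v θ := hk hv
  have hone : mavg (fun θ => Λ θ ⊗ₖ (1 : Matrix κ κ ℂ)) = 1 := by
    rw [← Matrix.one_kronecker_one, ← h1]
    ext i j
    simp only [mavg, Matrix.of_apply, Matrix.kroneckerMap_apply]
    rw [intervalIntegral.integral_mul_const]
    ring
  have hN : ∀ θ, (Φᴴ * (Λ θ ⊗ₖ (1 : Matrix κ κ ℂ)) * Φ + c • (Λ θ ⊗ₖ (1 : Matrix κ κ ℂ))
      - Φᴴ * (Λ θ ⊗ₖ v θ) - (Λ θ ⊗ₖ v θ)ᴴ * Φ).PosSemidef := by
    intro θ
    have a0 : (Λ θ ⊗ₖ (1 : Matrix κ κ ℂ)).PosSemidef := (hp θ).kronecker PosSemidef.one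
    have a1 := a0.conjTranspose_mul_mul_same (Φ - (1 : Matrix ι ι ℂ) ⊗ₖ v θ)
    have a2 : (Λ θ ⊗ₖ (c • (1 : Matrix κ κ ℂ) - (v θ)ᴴ * v θ)).PosSemidef :=
      (hp θ).kronecker (hc θ)
    convert a1.add a2 using 1
    have e1 : (Λ θ ⊗ₖ (1 : Matrix κ κ ℂ)) * ((1 : Matrix ι ι ℂ) ⊗ₖ v θ) = Λ θ ⊗ₖ v θ := by
      rw [← Matrix.mul_kronecker_mul, Matrix.mul_one, Matrix.one_mul]
    have e2 : ((1 : Matrix ι ι ℂ) ⊗ₖ v θ)ᴴ * (Λ θ ⊗ₖ (1 : Matrix κ κ ℂ)) = (Λ θ ⊗ₖ v θ)ᴴ := by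
      rw [Matrix.conjTranspose_kronecker, Matrix.conjTranspose_kronecker,
        ← Matrix.mul_kronecker_mul, conjTranspose_one, Matrix.mul_one, Matrix.one_mul, (hp θ).1]
    have e3 : (Λ θ ⊗ₖ v θ)ᴴ * ((1 : Matrix ι ι ℂ) ⊗ₖ v θ) = Λ θ ⊗ₖ ((v θ)ᴴ * v θ) := by
      rw [Matrix.conjTranspose_kronecker, ← Matrix.mul_kronecker_mul, Matrix.mul_one, (hp θ).1]
    have e4 : Λ θ ⊗ₖ (c • (1 : Matrix κ κ ℂ) - (v θ)ᴴ * v θ)
        = c • (Λ θ ⊗ₖ (1 : Matrix κ κ ℂ)) - Λ θ ⊗ₖ ((v θ)ᴴ * v θ) := by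
      ext i j
      simp only [Matrix.kroneckerMap_apply, Matrix.sub_apply, Matrix.smul_apply, smul_eq_mul]
      ring
    rw [e4, conjTranspose_sub, Matrix.sub_mul, e2, Matrix.sub_mul, Matrix.mul_sub, Matrix.mul_sub,
      e3, Matrix.mul_assoc Φᴴ _ ((1 : Matrix ι ι ℂ) ⊗ₖ v θ), e1]
    abel
  have c1 : Continuous fun θ => Φᴴ * (Λ θ ⊗ₖ (1 : Matrix κ κ ℂ)) :=
    continuous_const.matrix_mul hL
  have c2 : Continuous fun θ => Φᴴ * (Λ θ ⊗ₖ (1 : Matrix κ κ ℂ)) * Φ :=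
    c1.matrix_mul continuous_const
  have c3 : Continuous fun θ => c • (Λ θ ⊗ₖ (1 : Matrix κ κ ℂ)) := hL.const_smul c
  have c4 : Continuous fun θ => Φᴴ * (Λ θ ⊗ₖ v θ) := continuous_const.matrix_mul hV
  have c5 : Continuous fun θ => (Λ θ ⊗ₖ v θ)ᴴ * Φ :=
    hV.matrix_conjTranspose.matrix_mul continuous_const
  have hfin := mavg_posSemidef (((c2.add c3).sub c4).sub c5) hN
  convert hfin using 1
  have r1 := mavg_sub ((c2.add c3).sub c4) c5
  have r2 := mavg_sub (c2.add c3) c4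
  have r3 := mavg_add c2 c3
  have r4 := mavg_mul_right Φ c1
  have r5 := mavg_mul_left Φᴴ hL
  have r6 := mavg_smul c fun θ => Λ θ ⊗ₖ (1 : Matrix κ κ ℂ)
  have r7 := mavg_mul_left Φᴴ hV
  have r8 := mavg_mul_right Φ hV.matrix_conjTranspose
  have r9 := mavg_conjTranspose fun θ => Λ θ ⊗ₖ v θ
  rw [r9, ← hΦ] at r8
  rw [← hΦ] at r7
  rw [hone] at r5 r6
  rw [r5, Matrix.mul_one] at r4
  rw [r4, r6] at r3
  erw [r3, r7] at r2
  erw [r2, r8] at r1
  erw [r1]
  abel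

end norms

end Crest.Agent.R132
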