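import Mathlib
import Crest.Agent.R132.PoissonMat
import Crest.Agent.R132.HolFC
import Crest.Agent.Lib.RMT.Inverse

/-!
Auxiliary lemmas for S0181 (author helper70).
-/

open Metric Set Matrix
open scoped ComplexConjugate ComplexOrder Kronecker
open Crest.AnalysisR.NumRange

namespace Crest.Agent.R132

section conjugation

variable {ι κ : Type*} [Fintype ι] [DecidableEq ι] [Fintype κ] [DecidableEq κ]

theorem pa_aeval_conj {S : Matrix ι ι ℂ} (hS : IsUnit S.det) (A : Matrix ι ι ℂ)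
    (q : Polynomial ℂ) :
    Polynomial.aeval (S * A * S⁻¹) q = S * Polynomial.aeval A q * S⁻¹ := by
  induction q using Polynomial.induction_on with
  | C a =>
    simp only [Polynomial.aeval_C, Algebra.algebraMap_eq_smul_one, Matrix.mul_smul,
      Matrix.smul_mul, Matrix.mul_one, Matrix.mul_nonsing_inv _ hS]
  | add p q hp hq => simp only [map_add, hp, hq, Matrix.mul_add, Matrix.add_mul]
  | monomial k a hk =>
    rw [pow_succ, ← mul_assoc, map_mul _ _ Polynomial.X, map_mul _ _ Polynomial.X, hk,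
      Polynomial.aeval_X, Polynomial.aeval_X]
    simp only [Matrix.mul_assoc]
    rw [← Matrix.mul_assoc S⁻¹ S, Matrix.nonsing_inv_mul _ hS, Matrix.one_mul]

theorem pa_det_ne {T : Matrix ι ι ℂ} (hT : spectrum ℂ T ⊆ ball 0 1) {S : Matrix ι ι ℂ}
    (hS : IsUnit S.det) (z : ℂ) (hz : ‖z‖ ≤ 1) : (1 - z • (S * T * S⁻¹)ᴴ).det ≠ 0 := by
  have h1 : (1 : Matrix ι ι ℂ) - z • (S * T * S⁻¹)ᴴ = (S * (1 - conj z • T) * S⁻¹)ᴴ := by
    rw [Matrix.mul_sub, Matrix.sub_mul, Matrix.mul_one, Matrix.mul_nonsing_inv _ hS,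
      Matrix.mul_smul, Matrix.smul_mul, conjTranspose_sub, conjTranspose_one, conjTranspose_smul]
    simp
  rw [h1, det_conjTranspose, det_mul, det_mul]
  have h2 : (1 - conj z • T).det ≠ 0 := by
    by_cases h0 : z = 0
    · simp [h0]
    · have hc : conj z ≠ 0 := by simpa using h0
      have h3 : (conj z)⁻¹ ∉ spectrum ℂ T := by
        intro h
        have h4 := hT h
        rw [mem_ball_zero_iff, norm_inv, Complex.norm_conj] at h4
        have h5 : 0 < ‖z‖ := norm_pos_iff.2 h0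
        have := inv_lt_one_iff₀.1 h4
        rcases this with h | h <;> linarith
      rw [spectrum.notMem_iff, Matrix.isUnit_iff_isUnit_det] at h3
      have h4 : (1 : Matrix ι ι ℂ) - conj z • T
          = conj z • (algebraMap ℂ (Matrix ι ι ℂ) (conj z)⁻¹ - T) := by
        rw [Algebra.algebraMap_eq_smul_one, smul_sub, smul_smul, mul_inv_cancel₀ hc, one_smul]
      rw [h4, det_smul]
      exact mul_ne_zero (pow_ne_zero _ hc) h3.ne_zero
  have h3 : (S⁻¹).det ≠ 0 := (Matrix.isUnit_nonsing_inv_det S hS).ne_zero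
  exact star_ne_zero.2 (mul_ne_zero (mul_ne_zero hS.ne_zero h2) h3)

theorem pa_isUnit_det {S H : Matrix ι ι ℂ} (hS₂ : S * S = H) (hH : (H - 1).PosSemidef) :
    IsUnit S.det := by
  have h1 : H.PosDef := by
    have := PosDef.posSemidef_add hH (PosDef.one (n := ι) (R := ℂ))
    simpa using this
  have h2 := (Matrix.isUnit_iff_isUnit_det _).1 h1.isUnit
  rw [← hS₂, det_mul] at h2
  exact isUnit_of_mul_isUnit_left h2

theorem pa_contraction {S H T : Matrix ι ι ℂ} (hS₁ : S.PosSemidef) (hS₂ : S * S = H)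
    (hS : IsUnit S.det) (hH : (H - Tᴴ * H * T).PosSemidef) :
    (1 - (S * T * S⁻¹)ᴴ * (S * T * S⁻¹)).PosSemidef := by
  have h1 := hH.conjTranspose_mul_mul_same S⁻¹
  convert h1 using 1
  have h2 : (S⁻¹)ᴴ = S⁻¹ := hS₁.inv.1
  have h3 : Sᴴ = S := hS₁.1
  rw [← hS₂]
  simp only [conjTranspose_mul, h2, h3, Matrix.mul_sub, Matrix.sub_mul, Matrix.mul_assoc]
  rw [Matrix.mul_nonsing_inv _ hS, Matrix.mul_one, Matrix.nonsing_inv_mul _ hS]

theorem pa_norm_bound [Nonempty ι] {S H : Matrix ι ι ℂ} (hS₁ : S.PosSemidef) (hS₂ : S * S = H)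
    {k : ℝ} (hH₁ : (H - 1).PosSemidef) (hH₂ : ((k : ℂ) • (1 : Matrix ι ι ℂ) - H).PosSemidef)
    {Φ : Matrix (ι × κ) (ι × κ) ℂ} {M : ℝ} (hM : 0 ≤ M)
    (hΦ : (((M ^ 2 : ℝ) : ℂ) • (1 : Matrix (ι × κ) (ι × κ) ℂ) - Φᴴ * Φ).PosSemidef) :
    ‖Matrix.toEuclideanCLM (n := ι × κ) (𝕜 := ℂ)
      ((S⁻¹ ⊗ₖ (1 : Matrix κ κ ℂ)) * Φ * (S ⊗ₖ (1 : Matrix κ κ ℂ)))‖ ≤ Real.sqrt k * M := by
  have hS := pa_isUnit_det hS₂ hH₁
  have hk : 0 ≤ k := by
    have h1 := ((hH₂.add hH₁).add PosSemidef.one).diag_nonneg (i := Classical.arbitrary ι)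
    simpa using h1
  refine norm_le_of_psd _ (by positivity) ?_
  have h2 : (S⁻¹)ᴴ = S⁻¹ := hS₁.inv.1
  have h3 : Sᴴ = S := hS₁.1
  set R : Matrix (ι × κ) (ι × κ) ℂ := S⁻¹ ⊗ₖ (1 : Matrix κ κ ℂ) with hR
  set Q : Matrix (ι × κ) (ι × κ) ℂ := S ⊗ₖ (1 : Matrix κ κ ℂ) with hQ
  have a1 : ((k : ℂ) • (1 : Matrix (ι × κ) (ι × κ) ℂ) - Qᴴ * Q).PosSemidef := by
    have b : (((k : ℂ) • (1 : Matrix ι ι ℂ) - H) ⊗ₖ (1 : Matrix κ κ ℂ)).PosSemidef :=
      hH₂.kronecker PosSemidef.one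
    convert b using 1
    rw [hQ, Matrix.conjTranspose_kronecker, ← Matrix.mul_kronecker_mul, h3, hS₂,
      conjTranspose_one, Matrix.mul_one, ← Matrix.one_kronecker_one]
    ext i j
    simp only [Matrix.kroneckerMap_apply, Matrix.sub_apply, Matrix.smul_apply, smul_eq_mul]
    ring
  have a2 : ((1 : Matrix (ι × κ) (ι × κ) ℂ) - Rᴴ * R).PosSemidef := by
    have b0 := hH₁.conjTranspose_mul_mul_same S⁻¹
    have b1 : (S⁻¹)ᴴ * (H - 1) * S⁻¹ = 1 - S⁻¹ * S⁻¹ := by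
      rw [← hS₂, h2]
      simp only [Matrix.mul_sub, Matrix.sub_mul, Matrix.mul_assoc, Matrix.mul_one]
      rw [Matrix.mul_nonsing_inv _ hS, Matrix.mul_one, Matrix.nonsing_inv_mul _ hS]
    rw [b1] at b0
    have b : ((1 - S⁻¹ * S⁻¹) ⊗ₖ (1 : Matrix κ κ ℂ)).PosSemidef := b0.kronecker PosSemidef.one
    convert b using 1
    rw [hR, Matrix.conjTranspose_kronecker, ← Matrix.mul_kronecker_mul, h2,
      conjTranspose_one, Matrix.mul_one, ← Matrix.one_kronecker_one]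
    ext i j
    simp only [Matrix.kroneckerMap_apply, Matrix.sub_apply]
    ring
  have a3 := a2.conjTranspose_mul_mul_same (Φ * Q)
  have a4 := hΦ.conjTranspose_mul_mul_same Q
  have a5 : (((M ^ 2 : ℝ) : ℂ) • ((k : ℂ) • (1 : Matrix (ι × κ) (ι × κ) ℂ) - Qᴴ * Q)).PosSemidef :=
    a1.smul (Complex.zero_le_real.2 (by positivity))
  convert (a5.add a4).add a3 using 1
  rw [mul_pow, Real.sq_sqrt hk]
  simp only [conjTranspose_mul, Matrix.mul_sub, Matrix.sub_mul, Matrix.mul_assoc, Matrix.mul_one,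
    Matrix.mul_smul, Matrix.smul_mul, smul_sub, smul_smul, Complex.ofReal_mul]
  rw [mul_comm (k : ℂ)]
  abel

omit [DecidableEq ι] in
theorem pa_kron_conj (R Q : Matrix ι ι ℂ) (X : κ → κ → Matrix ι ι ℂ) :
    (R ⊗ₖ (1 : Matrix κ κ ℂ)) * (Matrix.of fun (i j : ι × κ) => X i.2 j.2 i.1 j.1)
      * (Q ⊗ₖ (1 : Matrix κ κ ℂ))
      = Matrix.of fun (i j : ι × κ) => (R * X i.2 j.2 * Q) i.1 j.1 := by
  ext ⟨a, c⟩ ⟨b, d⟩
  simp [Matrix.mul_apply, Fintype.sum_prod_type, Matrix.one_apply]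

end conjugation

section geometry

variable {Ω U : Set ℂ} {f G : ℂ → ℂ} {r : ℝ}

theorem pa_G_mem (hΩ₁ : IsOpen Ω) (hr₂ : r < 1) (hG₁ : DifferentiableOn ℂ G {t : ℂ | r < ‖t‖})
    (hG₂ : Set.InjOn G {t : ℂ | r < ‖t‖}) (hG₃ : G '' {t : ℂ | 1 < ‖t‖} = (closure Ω)ᶜ)
    {t : ℂ} (ht : ‖t‖ = 1) : G t ∈ closure Ω ∧ G t ∉ Ω := by
  have htr : t ∈ {t : ℂ | r < ‖t‖} := by simp [ht, hr₂]
  constructor
  · by_contra h
    have h1 : G t ∈ G '' {t : ℂ | 1 < ‖t‖} := by rw [hG₃]; exact h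
    obtain ⟨t', ht', h2⟩ := h1
    have h3 : t' = t := hG₂ (lt_trans hr₂ ht') htr h2
    rw [h3, mem_ofPred_eq, ht] at ht'
    exact lt_irrefl _ ht'
  · intro h
    have hopen : IsOpen {t : ℂ | r < ‖t‖} := isOpen_lt continuous_const continuous_norm
    have hc : ContinuousAt G t := (hG₁.differentiableAt (hopen.mem_nhds htr)).continuousAt
    have hρ : ContinuousAt (fun ρ : ℝ => (ρ : ℂ) * t) 1 := by fun_prop
    have h1 : ContinuousAt (fun ρ : ℝ => G ((ρ : ℂ) * t)) 1 :=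
      hc.comp_of_eq hρ (by simp)
    have h2 : ∀ᶠ ρ : ℝ in nhds 1, G ((ρ : ℂ) * t) ∈ Ω := by
      apply h1.preimage_mem_nhds
      simpa using hΩ₁.mem_nhds h
    obtain ⟨ρ, hρ1, hρ2⟩ := ((h2.filter_mono (nhdsWithin_le_nhds (s := Ioi 1))).and
      self_mem_nhdsWithin).exists
    have hρ2' : 1 < ρ := hρ2
    have h3 : G ((ρ : ℂ) * t) ∈ (closure Ω)ᶜ := by
      rw [← hG₃]
      refine ⟨_, ?_, rfl⟩
      rw [mem_ofPred_eq, norm_mul, ht, mul_one, Complex.norm_real, Real.norm_eq_abs]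
      exact lt_of_lt_of_le hρ2' (le_abs_self _)
    exact h3 (subset_closure hρ1)

theorem pa_f_ge (hΩU : closure Ω ⊆ U) (hf₂ : Set.InjOn f U) (hf₃ : f '' Ω = ball 0 1)
    {z : ℂ} (hz : z ∈ U) (hz' : z ∉ Ω) : 1 ≤ ‖f z‖ := by
  by_contra h
  have h1 : f z ∈ f '' Ω := by
    rw [hf₃, mem_ball_zero_iff]
    exact lt_of_not_ge h
  obtain ⟨z', hz1, hz2⟩ := h1
  have := hf₂ (hΩU (subset_closure hz1)) hz hz2
  exact hz' (this ▸ hz1)

theorem pa_f_le (hΩU : closure Ω ⊆ U) (hf₁ : DifferentiableOn ℂ f U) (hf₃ : f '' Ω = ball 0 1)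
    {z : ℂ} (hz : z ∈ closure Ω) : ‖f z‖ ≤ 1 := by
  have h1 : f z ∈ closure (f '' Ω) :=
    (hf₁.continuousOn.mono hΩU).image_closure ⟨z, hz, rfl⟩
  rw [hf₃, closure_ball _ one_ne_zero] at h1
  simpa using h1

theorem pa_closedBall_subset (hΩ₂ : Bornology.IsBounded Ω) (hΩU : closure Ω ⊆ U)
    (hf₁ : DifferentiableOn ℂ f U) (hf₃ : f '' Ω = ball 0 1) :
    closedBall (0 : ℂ) 1 ⊆ f '' closure Ω := by
  have h1 : IsCompact (f '' closure Ω) :=
    hΩ₂.isCompact_closure.image_of_continuousOn (hf₁.continuousOn.mono hΩU)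
  rw [← closure_ball _ one_ne_zero, ← hf₃]
  exact closure_minimal (image_mono subset_closure) h1.isClosed

end geometry

/-- transfer of the functional calculus through `f`. -/
theorem pa_transfer {n : ℕ} (A : Matrix (Fin n) (Fin n) ℂ) {W : Set ℂ} (hW : IsOpen W)
    (hA : spectrum ℂ A ⊆ W) {f : ℂ → ℂ} (hf₁ : DifferentiableOn ℂ f W) (hf₂ : InjOn f W)
    {p : Polynomial ℂ} (hp : AgreesOnSpectrum A f p) {v : ℂ → ℂ} (hv : DifferentiableOn ℂ v W)
    {q : Polynomial ℂ} (hq : AgreesOnSpectrum A v q) :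
    ∃ (g g₁ : ℂ → ℂ) (s : Polynomial ℂ), DifferentiableOn ℂ g (f '' W) ∧
      DifferentiableOn ℂ g₁ (f '' W) ∧ (∀ z ∈ W, g (f z) = v z) ∧
      (∀ z ∈ f '' W, g z = s.eval z + (Polynomial.aeval A p).charpoly.eval z * g₁ z) ∧
      Polynomial.aeval A q = Polynomial.aeval (Polynomial.aeval A p) s := by
  obtain ⟨hW', finv, hfi, hfi'⟩ := Crest.Agent.Lib.RMT.exists_holomorphic_inverse hW hf₁ hf₂
  have hmaps : MapsTo finv (f '' W) W := by
    rintro _ ⟨z, hz, rfl⟩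
    rw [hfi' z hz]
    exact hz
  have hg : DifferentiableOn ℂ (v ∘ finv) (f '' W) := hv.comp hfi hmaps
  set T := Polynomial.aeval A p with hT
  obtain ⟨s, g₁, hg₁, hs⟩ := exists_rep hW' T.charpoly_monic.ne_zero hg
  have hgv : ∀ z ∈ W, (v ∘ finv) (f z) = v z := fun z hz => by
    simp only [Function.comp, hfi' z hz]
  refine ⟨v ∘ finv, g₁, s, hg, hg₁, hgv, hs, ?_⟩
  have r1 : Rep W A.charpoly f p := rep_of_agrees A hW hA hf₁ hp
  have r2 : Rep W A.charpoly v q := rep_of_agrees A hW hA hv hq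
  obtain ⟨u, r3⟩ := exists_rep hW A.charpoly_monic.ne_zero
    (hg₁.comp hf₁ (mapsTo_image f W))
  have r4 := ((r1.comp_poly s).add ((r1.comp_poly T.charpoly).mul r3)).congr (h' := v)
    (fun z hz => by
      rw [← hgv z hz, hs _ ⟨z, hz, rfl⟩]
      rfl)
  rw [Rep.aeval_eq A hW hA r2 r4, map_add, map_mul, Polynomial.aeval_comp,
    Polynomial.aeval_comp, ← hT, Matrix.aeval_self_charpoly, zero_mul, add_zero]

end Crest.Agent.R132
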