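import Crest.Agent.R132.Core

/-!
The resolvent along the exterior curve and the boundary functional calculus.  Owner: helper38.
-/

open Metric Set MeasureTheory
open scoped ComplexConjugate InnerProductSpace

namespace Crest.Agent.R132

variable {H : Type*} [NormedAddCommGroup H] [InnerProductSpace ℂ H]
variable {E : ℂ → ℂ} {R : ℝ}

/-- `a (Γ a - A)`. -/
noncomputable def Lop (E : ℂ → ℂ) (A : H →L[ℂ] H) (a : ℂ) : H →L[ℂ] H :=
  E a • (1 : H →L[ℂ] H) - a • A

/-- `N(a) (Γ a - A)⁻¹`. -/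
noncomputable def Res (E : ℂ → ℂ) (A : H →L[ℂ] H) (a : ℂ) : H →L[ℂ] H :=
  nu E a • Ring.inverse (Lop E A a)

lemma inner_div_mem_nr (A : H →L[ℂ] H) {w : H} (hw : w ≠ 0) :
    ⟪w, A w⟫_ℂ / ((‖w‖ : ℂ) ^ 2) ∈ nr A := by
  have hw' : (‖w‖ : ℂ) ≠ 0 := by exact_mod_cast (norm_pos_iff.2 hw).ne'
  refine ⟨(‖w‖ : ℂ)⁻¹ • w, ?_, ?_⟩
  · rw [norm_smul, norm_inv, Complex.norm_real, norm_norm, inv_mul_cancel₀ (norm_pos_iff.2 hw).ne']
  · rw [map_smul, inner_smul_left, inner_smul_right, map_inv₀, Complex.conj_ofReal]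
    field_simp

lemma inner_Lop (A : H →L[ℂ] H) (a : ℂ) {w : H} (hw : w ≠ 0) :
    ⟪w, Lop E A a w⟫_ℂ = (‖w‖ : ℂ) ^ 2 * (E a - a * (⟪w, A w⟫_ℂ / ((‖w‖ : ℂ) ^ 2))) := by
  have hw' : (‖w‖ : ℂ) ≠ 0 := by exact_mod_cast (norm_pos_iff.2 hw).ne'
  simp only [Lop, sub_apply, smul_apply, one_apply_eq_self,
    inner_sub_right, inner_smul_right, inner_self_eq_norm_sq_to_K]
  simp only [Complex.coe_algebraMap]
  field_simp

lemma isUnit_Lop [FiniteDimensional ℂ H] (A : H →L[ℂ] H) {a : ℂ}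
    (ha : ∀ z ∈ nr A, E a ≠ a * z) : IsUnit (Lop E A a) := by
  have : CompleteSpace H := FiniteDimensional.complete ℂ H
  have hinj : Function.Injective (Lop E A a) := by
    rw [injective_iff_map_eq_zero]
    intro w hw
    by_contra hw0
    have h1 := inner_Lop (E := E) A a hw0
    rw [hw, inner_zero_right] at h1
    have hw' : (‖w‖ : ℂ) ≠ 0 := by exact_mod_cast (norm_pos_iff.2 hw0).ne'
    have h2 := (mul_eq_zero.1 h1.symm).resolve_left (pow_ne_zero 2 hw')
    exact ha _ (inner_div_mem_nr A hw0) (sub_eq_zero.1 h2)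
  rw [ContinuousLinearMap.isUnit_iff_bijective]
  exact ⟨hinj, LinearMap.surjective_of_injective (f := (Lop E A a : H →ₗ[ℂ] H)) hinj⟩

lemma Lop_mul_Res {A : H →L[ℂ] H} {a : ℂ} (hu : IsUnit (Lop E A a)) :
    Lop E A a * Res E A a = nu E a • (1 : H →L[ℂ] H) := by
  rw [Res, mul_smul_comm, Ring.mul_inverse_cancel _ hu]

lemma Res_mul_Lop {A : H →L[ℂ] H} {a : ℂ} (hu : IsUnit (Lop E A a)) :
    Res E A a * Lop E A a = nu E a • (1 : H →L[ℂ] H) := by
  rw [Res, smul_mul_assoc, Ring.inverse_mul_cancel _ hu]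

lemma differentiableOn_Res [CompleteSpace H] (hE : ExtData E R) {A : H →L[ℂ] H}
    (hu : ∀ a ∈ ball (0 : ℂ) R, IsUnit (Lop E A a)) :
    DifferentiableOn ℂ (Res E A) (ball 0 R) := by
  have h1 : DifferentiableOn ℂ (Lop E A) (ball 0 R) :=
    (hE.diff.smul_const _).sub (differentiableOn_id.smul_const _)
  exact (differentiableOn_nu hE.diff).smul (h1.inverse hu)

lemma Res_zero (hE : ExtData E R) {A : H →L[ℂ] H} (hu : IsUnit (Lop E A 0)) : Res E A 0 = 1 := by
  have h1 := Lop_mul_Res hu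
  have h0 := hE.E0_ne
  simp only [Lop, zero_smul, sub_zero, smul_mul_assoc, one_mul, nu, zero_mul] at h1
  exact smul_right_injective _ h0 h1

lemma Res_pos {A : H →L[ℂ] H} {a : ℂ} (hu : IsUnit (Lop E A a))
    (hpos : ∀ z ∈ nr A, 0 ≤ (conj (nu E a) * (E a - a * z)).re) (w : H) :
    0 ≤ (⟪w, Res E A a w⟫_ℂ).re := by
  set w' := Ring.inverse (Lop E A a) w with hw'
  have h1 : Lop E A a w' = w := by
    rw [hw', ← mul_apply_eq_comp, Ring.mul_inverse_cancel _ hu, one_apply_eq_self]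
  have h2 : Res E A a w = nu E a • w' := by rw [Res, smul_apply]
  rw [h2]
  by_cases h0 : w' = 0
  · simp [h0]
  · have h3 := hpos _ (inner_div_mem_nr A h0)
    have h4 : ⟪w, nu E a • w'⟫_ℂ = conj (((‖w'‖ ^ 2 : ℝ) : ℂ) * (conj (nu E a) *
        (E a - a * (⟪w', A w'⟫_ℂ / ((‖w'‖ : ℂ) ^ 2))))) := by
      rw [inner_smul_right]
      conv_lhs => rw [← h1, ← inner_conj_symm, inner_Lop A a h0]
      simp only [map_mul, Complex.conj_conj]
      push_cast
      ring
    rw [h4, Complex.conj_re, Complex.re_ofReal_mul]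
    exact mul_nonneg (sq_nonneg _) h3

lemma commute_Res {A T : H →L[ℂ] H} (hT : Commute T A) {a : ℂ} (hu : IsUnit (Lop E A a)) :
    T * Res E A a = Res E A a * T := by
  have h1 : Commute T (Lop E A a) :=
    ((Commute.one_right T).smul_right _).sub_right (hT.smul_right _)
  obtain ⟨u, hu'⟩ := hu
  rw [Res, ← hu', Ring.inverse_unit]
  rw [← hu'] at h1
  exact (h1.units_inv_right.smul_right _).eq

section FC

variable [CompleteSpace H] {A : H →L[ℂ] H}

lemma continuous_Gamma (hE : ExtData E R) : Continuous (fun b : Sph => E b / b) :=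
  (continuous_sph_of_ball hE.one_lt hE.diff.continuousOn).div continuous_subtype_val
    (fun b => b.ne_zero)

lemma continuous_normal (hE : ExtData E R) : Continuous (fun b : Sph => nu E b / b) :=
  (continuous_sph_of_ball hE.one_lt (differentiableOn_nu hE.diff).continuousOn).div
    continuous_subtype_val (fun b => b.ne_zero)

lemma sub_mul_integral (hE : ExtData E R) (hu : ∀ a ∈ ball (0 : ℂ) R, IsUnit (Lop E A a))
    (σ : ℂ) {h : Sph → ℂ} (hh : Continuous h) :
    (σ • (1 : H →L[ℂ] H) - A) * ∫ b : Sph, h b • Res E A b ∂μc =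
      ∫ b : Sph, ((σ - E b / b) * h b) • Res E A b ∂μc +
        (∫ b : Sph, h b * (nu E b / b) ∂μc) • (1 : H →L[ℂ] H) := by
  have hR := hE.one_lt
  have hRc : Continuous (fun b : Sph => Res E A b) :=
    continuous_sph_of_ball hR (differentiableOn_Res hE hu).continuousOn
  have hΓ := continuous_Gamma hE
  have hN := continuous_normal hE
  have h1 := (ContinuousLinearMap.mul ℂ (H →L[ℂ] H) (σ • (1 : H →L[ℂ] H) - A)).integral_comp_comm
    (integrable_μc (f := fun b : Sph => h b • Res E A b) (hh.smul hRc))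
  simp only [ContinuousLinearMap.mul_apply'] at h1
  rw [← h1, ← integral_smul_const, ← integral_add
    (integrable_μc (f := fun b : Sph => ((σ - E b / b) * h b) • Res E A b) (by fun_prop))
    (integrable_μc (f := fun b : Sph => (h b * (nu E b / b)) • (1 : H →L[ℂ] H)) (by fun_prop))]
  congr 1
  ext1 b
  have h2 := Lop_mul_Res (hu b (b.mem_ball hR))
  have hb := b.ne_zero
  have h3 : A * Res E A b = (E b / b) • Res E A b - (nu E b / b) • (1 : H →L[ℂ] H) := by
    rw [Lop, sub_mul, smul_mul_assoc, one_mul, smul_mul_assoc] at h2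
    have h4 : (b : ℂ) • (A * Res E A b) = E b • Res E A b - nu E b • (1 : H →L[ℂ] H) := by
      rw [← h2]; abel
    have h5 : A * Res E A b = (b : ℂ)⁻¹ • ((b : ℂ) • (A * Res E A b)) := by
      rw [smul_smul, inv_mul_cancel₀ hb, one_smul]
    rw [h5, h4, smul_sub, smul_smul, smul_smul, div_eq_inv_mul, div_eq_inv_mul]
  rw [mul_smul_comm, sub_mul, h3, smul_mul_assoc, one_mul]
  module

variable {Ω : Set ℂ}

lemma integral_poly_mul (hE : ExtData E R) (hu : ∀ a ∈ ball (0 : ℂ) R, IsUnit (Lop E A a))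
    (hΩo : IsOpen Ω) (hΩc : Convex ℝ Ω) (hΓ : ∀ b : ℂ, ‖b‖ = 1 → E b / b ∈ Ω)
    {ψ : ℂ → ℂ} (hψ : DifferentiableOn ℂ ψ Ω) (q : Polynomial ℂ) :
    ∫ b : Sph, (q.eval (E b / b) * ψ (E b / b)) • Res E A b ∂μc =
      Polynomial.aeval A q * ∫ b : Sph, ψ (E b / b) • Res E A b ∂μc := by
  have hR := hE.one_lt
  have hRc : Continuous (fun b : Sph => Res E A b) :=
    continuous_sph_of_ball hR (differentiableOn_Res hE hu).continuousOn
  have hΓc := continuous_Gamma hE
  have hψc : Continuous (fun b : Sph => ψ (E b / b)) :=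
    hψ.continuousOn.comp_continuous hΓc (fun b => hΓ b b.norm_eq)
  have hqc : ∀ q : Polynomial ℂ, Continuous (fun b : Sph => q.eval (E b / b)) :=
    fun q => q.continuous.comp hΓc
  induction q using Polynomial.induction_on with
  | C c =>
    simp only [Polynomial.eval_C, Polynomial.aeval_C, Algebra.algebraMap_eq_smul_one,
      smul_mul_assoc, one_mul, mul_smul]
    rw [integral_smul]
  | add p q hp hq =>
    have h1 := hqc p
    have h2 := hqc q
    simp only [Polynomial.eval_add, add_mul, add_smul, map_add]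
    rw [integral_add
      (integrable_μc (f := fun b : Sph => (p.eval (E b / b) * ψ (E b / b)) • Res E A b)
        ((h1.mul hψc).smul hRc))
      (integrable_μc (f := fun b : Sph => (q.eval (E b / b) * ψ (E b / b)) • Res E A b)
        ((h2.mul hψc).smul hRc)), hp, hq]
  | monomial n c ih =>
    set q := Polynomial.C c * Polynomial.X ^ n with hq
    have h1 : Polynomial.C c * Polynomial.X ^ (n + 1) = Polynomial.X * q := by rw [hq]; ring
    have h2 := sub_mul_integral hE hu 0 (h := fun b : Sph => q.eval (E b / b) * ψ (E b / b))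
      ((hqc q).mul hψc)
    have h3 := integral_μc_exact hR hE.diff hΩo hΩc hΓ (h := fun z => q.eval z * ψ z)
      (q.differentiableOn.mul hψ)
    rw [h3, ih] at h2
    simp only [zero_smul, zero_sub, add_zero, neg_mul, neg_smul, integral_neg, neg_inj] at h2
    rw [h1, map_mul, Polynomial.aeval_X, mul_assoc, h2]
    simp only [Polynomial.eval_mul, Polynomial.eval_X, mul_assoc]

lemma integral_rep (hE : ExtData E R) (hu : ∀ a ∈ ball (0 : ℂ) R, IsUnit (Lop E A a))
    (hΩo : IsOpen Ω) (hΩc : Convex ℝ Ω) (hΓ : ∀ b : ℂ, ‖b‖ = 1 → E b / b ∈ Ω)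
    {χ q : Polynomial ℂ} (hχ : Polynomial.aeval A χ = 0) {φ : ℂ → ℂ} (hφ : Rep Ω χ φ q) :
    ∫ b : Sph, φ (E b / b) • Res E A b ∂μc = Polynomial.aeval A q := by
  obtain ⟨ψ, hψ, hrep⟩ := hφ
  have hR := hE.one_lt
  have hRc : Continuous (fun b : Sph => Res E A b) :=
    continuous_sph_of_ball hR (differentiableOn_Res hE hu).continuousOn
  have hΓc := continuous_Gamma hE
  have hψc : Continuous (fun b : Sph => ψ (E b / b)) :=
    hψ.continuousOn.comp_continuous hΓc (fun b => hΓ b b.norm_eq)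
  have hqc : ∀ q : Polynomial ℂ, Continuous (fun b : Sph => q.eval (E b / b)) :=
    fun q => q.continuous.comp hΓc
  have h1 := integral_poly_mul hE hu hΩo hΩc hΓ hψ χ
  have h2 := integral_poly_mul hE hu hΩo hΩc hΓ (ψ := fun _ => 1) (differentiableOn_const _) q
  rw [hχ, zero_mul] at h1
  simp only [mul_one, one_smul] at h2
  rw [integral_μc_of_differentiableOn hR (differentiableOn_Res hE hu),
    Res_zero hE (hu 0 hE.zero_mem), mul_one] at h2
  have h3 : ∀ b : Sph, φ (E b / b) • Res E A b = q.eval (E b / b) • Res E A b +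
      (χ.eval (E b / b) * ψ (E b / b)) • Res E A b := by
    intro b
    rw [hrep _ (hΓ b b.norm_eq), add_smul]
  simp_rw [h3]
  rw [integral_add
    (integrable_μc (f := fun b : Sph => q.eval (E b / b) • Res E A b) ((hqc q).smul hRc))
    (integrable_μc (f := fun b : Sph => (χ.eval (E b / b) * ψ (E b / b)) • Res E A b)
      (((hqc χ).mul hψc).smul hRc)), h1, h2, add_zero]

lemma Gamma_ne (hE : ExtData E R) {a : ℂ} (ha0 : a ≠ 0) (ha : ‖a‖ < 1) (b : Sph) :
    E a / a - E b / b ≠ 0 := by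
  have hb := b.ne_zero
  have h1 : (b : ℂ) * E a - a * E b ≠ 0 := by
    refine hE.den_ne (by simp; linarith [hE.one_lt]) (b.mem_ball hE.one_lt) ?_
    intro h
    rw [h, b.norm_eq] at ha
    exact lt_irrefl _ ha
  have h2 : E a / a - E b / b = (b * E a - a * E b) / (a * b) := by field_simp
  rw [h2]
  exact div_ne_zero h1 (mul_ne_zero ha0 hb)

lemma integral_winding_zero (hE : ExtData E R) {a : ℂ} (ha0 : a ≠ 0) (ha : ‖a‖ < 1) :
    ∫ b : Sph, (E a / a - E b / b)⁻¹ * (nu E b / b) ∂μc = 0 := by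
  have hR := hE.one_lt
  have haR : a ∈ ball (0 : ℂ) R := by simp; linarith
  obtain ⟨g, hgd, hg0, hg⟩ := hE.exists_ext_left haR ha0
  have hne : ∀ b : Sph, (b : ℂ) ≠ a := by
    intro b h
    rw [← h, b.norm_eq] at ha
    exact lt_irrefl _ ha
  have h1 : ∀ b : Sph, (E a / a - E b / b)⁻¹ * (nu E b / b) = (b : ℂ) / (b - a) * 1 - (g b + 1) := by
    intro b
    have hb := b.ne_zero
    have h2 : E a / a - E b / b = (b * E a - a * E b) / (a * b) := by field_simp
    have h3 : (b : ℂ) * E a - a * E b ≠ 0 := hE.den_ne haR (b.mem_ball hR) (hne b).symm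
    have h4 : a * E b - (b : ℂ) * E a ≠ 0 := hE.den_ne (b.mem_ball hR) haR (hne b)
    have h5 : (b : ℂ) - a ≠ 0 := sub_ne_zero.2 (hne b)
    have h6 : a - (b : ℂ) ≠ 0 := sub_ne_zero.2 (hne b).symm
    rw [hg b (b.mem_ball hR) (hne b), h2, Psi, ker]
    have h7 : a * E b - (b : ℂ) * E a = -((b : ℂ) * E a - a * E b) := by ring
    have h8 : a - (b : ℂ) = -((b : ℂ) - a) := by ring
    rw [h7, h8]
    field_simp
    ring
  simp_rw [h1]
  have hc1 : Continuous (fun b : Sph => (b : ℂ) / (b - a) * 1) :=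
    (continuous_subtype_val.div (continuous_subtype_val.sub continuous_const)
      (fun b => sub_ne_zero.2 (hne b))).mul continuous_const
  have hd2 : DifferentiableOn ℂ (fun b => g b + 1) (ball 0 R) := hgd.add (differentiableOn_const _)
  rw [integral_sub (integrable_μc hc1) (integrable_μc (continuous_sph_of_ball hR hd2.continuousOn)),
    integral_μc_cauchy hR (f := fun _ => 1) (differentiableOn_const _) ha,
    integral_μc_of_differentiableOn hR hd2, hg0]
  simp

lemma integral_cauchy_zero (hE : ExtData E R)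
    (hΩo : IsOpen Ω) (hΩc : Convex ℝ Ω) (hΓ : ∀ b : ℂ, ‖b‖ = 1 → E b / b ∈ Ω)
    {φ : ℂ → ℂ} (hφ : DifferentiableOn ℂ φ Ω) {a : ℂ} (ha0 : a ≠ 0) (ha : ‖a‖ < 1) :
    ∫ b : Sph, (φ (E b / b) * (E a / a - E b / b)⁻¹) * (nu E b / b) ∂μc = 0 := by
  have hR := hE.one_lt
  set σ := E a / a with hσ
  by_cases hσΩ : σ ∈ Ω
  · have hd : DifferentiableOn ℂ (dslope φ σ) Ω :=
      (Complex.differentiableOn_dslope (hΩo.mem_nhds hσΩ)).2 hφ
    have h1 := integral_μc_exact hR hE.diff hΩo hΩc hΓ hd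
    have h2 := integral_winding_zero hE ha0 ha
    have h3 : ∀ b : Sph, (φ (E b / b) * (σ - E b / b)⁻¹) * (nu E b / b) =
        φ σ * ((σ - E b / b)⁻¹ * (nu E b / b)) - dslope φ σ (E b / b) * (nu E b / b) := by
      intro b
      have h4 := Gamma_ne hE ha0 ha b
      rw [← hσ] at h4
      have h5 := sub_smul_dslope φ σ (E b / b)
      rw [smul_eq_mul] at h5
      have h6 : φ (E b / b) = φ σ - (σ - E b / b) * dslope φ σ (E b / b) := by
        linear_combination -h5
      rw [h6]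
      generalize (nu E b / b) = N
      generalize dslope φ σ (E b / b) = D
      generalize σ - E b / b = W at h4 ⊢
      field_simp
    simp_rw [h3]
    have hΓc := continuous_Gamma hE
    have hN := continuous_normal hE
    have hc1 : Continuous (fun b : Sph => (σ - E b / b)⁻¹) :=
      (continuous_const.sub hΓc).inv₀ (fun b => Gamma_ne hE ha0 ha b)
    have hc2 : Continuous (fun b : Sph => dslope φ σ (E b / b)) :=
      hd.continuousOn.comp_continuous hΓc (fun b => hΓ b b.norm_eq)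
    rw [integral_sub
      (integrable_μc (f := fun b : Sph => φ σ * ((σ - E b / b)⁻¹ * (nu E b / b)))
        (continuous_const.mul (hc1.mul hN)))
      (integrable_μc (f := fun b : Sph => dslope φ σ (E b / b) * (nu E b / b))
        (hc2.mul hN)), integral_const_mul, h1, h2]
    simp
  · refine integral_μc_exact hR hE.diff hΩo hΩc hΓ (h := fun z => φ z * (σ - z)⁻¹) ?_
    refine hφ.mul (((differentiableOn_const _).sub differentiableOn_id).inv ?_)
    intro z hz h
    apply hσΩ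
    rw [sub_eq_zero] at h
    rw [h]
    exact hz

lemma Res_mul_aeval (hE : ExtData E R) (hu : ∀ a ∈ ball (0 : ℂ) R, IsUnit (Lop E A a))
    (hΩo : IsOpen Ω) (hΩc : Convex ℝ Ω) (hΓ : ∀ b : ℂ, ‖b‖ = 1 → E b / b ∈ Ω)
    {χ q : Polynomial ℂ} (hχ : Polynomial.aeval A χ = 0) {φ : ℂ → ℂ}
    (hφd : DifferentiableOn ℂ φ Ω) (hφ : Rep Ω χ φ q) {a : ℂ} (ha0 : a ≠ 0) (ha : ‖a‖ < 1) :
    Res E A a * Polynomial.aeval A q =
      ∫ b : Sph, (φ (E b / b) * ker E a b) • Res E A b ∂μc := by
  have hR := hE.one_lt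
  have haR : a ∈ ball (0 : ℂ) R := by simp; linarith
  have hΓc := continuous_Gamma hE
  have hc1 : Continuous (fun b : Sph => (E a / a - E b / b)⁻¹) :=
    (continuous_const.sub hΓc).inv₀ (fun b => Gamma_ne hE ha0 ha b)
  have hφc : Continuous (fun b : Sph => φ (E b / b)) :=
    hφd.continuousOn.comp_continuous hΓc (fun b => hΓ b b.norm_eq)
  have h1 := sub_mul_integral hE hu (E a / a)
    (h := fun b : Sph => φ (E b / b) * (E a / a - E b / b)⁻¹) (hφc.mul hc1)
  rw [integral_cauchy_zero hE hΩo hΩc hΓ hφd ha0 ha, zero_smul, add_zero] at h1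
  have h2 : ∀ b : Sph, (E a / a - E b / b) * (φ (E b / b) * (E a / a - E b / b)⁻¹) =
      φ (E b / b) := by
    intro b
    have := Gamma_ne hE ha0 ha b
    generalize (E a / a - E b / b) = D at this ⊢
    field_simp
  simp_rw [h2] at h1
  rw [integral_rep hE hu hΩo hΩc hΓ hχ hφ] at h1
  have h3 : (E a / a) • (1 : H →L[ℂ] H) - A = a⁻¹ • Lop E A a := by
    rw [Lop, smul_sub, smul_smul, smul_smul, inv_mul_cancel₀ ha0, one_smul, div_eq_inv_mul]
  rw [← h1, ← mul_assoc, h3, mul_smul_comm, Res_mul_Lop (hu a haR), smul_mul_assoc, smul_mul_assoc,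
    one_mul, smul_smul, ← integral_smul]
  congr 1
  ext1 b
  rw [smul_smul]
  congr 1
  have hb := b.ne_zero
  have h4 : E a / a - E b / b = (b * E a - a * E b) / (a * b) := by field_simp
  have h5 : (b : ℂ) * E a - a * E b ≠ 0 := by
    refine hE.den_ne haR (b.mem_ball hR) ?_
    intro h
    rw [h, b.norm_eq] at ha
    exact lt_irrefl _ ha
  rw [h4, ker]
  generalize φ (E b / b) = t
  field_simp

end FC

end Crest.Agent.R132
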