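import Crest.Agent.R132.Defs

/-!
Row 132, task SDP, part B (helper23): the lurking contraction argument.
-/

open Matrix
open scoped ComplexOrder ComplexConjugate

namespace Crest.Agent.R132

/-- Euclidean norm of a plain vector. -/
noncomputable def sdpEn {ι : Type*} [Fintype ι] (x : ι → ℂ) : ℝ :=
  ‖(WithLp.toLp 2 x : EuclideanSpace ℂ ι)‖

section En
variable {ι κ : Type*} [Fintype ι] [Fintype κ]

theorem sdpEn_nonneg (x : ι → ℂ) : 0 ≤ sdpEn x := norm_nonneg _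

theorem sdpEn_sq (x : ι → ℂ) : sdpEn x ^ 2 = ∑ i, ‖x i‖ ^ 2 := by
  rw [sdpEn, EuclideanSpace.norm_sq_eq]

theorem sdpEn_zero : sdpEn (0 : ι → ℂ) = 0 := by simp [sdpEn]

theorem sdpEn_add_le (x y : ι → ℂ) : sdpEn (x + y) ≤ sdpEn x + sdpEn y := by
  unfold sdpEn
  rw [WithLp.toLp_add]
  exact norm_add_le _ _

theorem sdpEn_le_add (x y : ι → ℂ) : sdpEn x ≤ sdpEn (x + y) + sdpEn y := by
  unfold sdpEn
  rw [WithLp.toLp_add]
  exact norm_le_add_norm_add _ _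

theorem sdpEn_smul (t : ℂ) (x : ι → ℂ) : sdpEn (t • x) = ‖t‖ * sdpEn x := by
  unfold sdpEn
  rw [WithLp.toLp_smul, norm_smul]

theorem sdpEn_sum_elim (x : ι → ℂ) (y : κ → ℂ) :
    sdpEn (Sum.elim x y) ^ 2 = sdpEn x ^ 2 + sdpEn y ^ 2 := by
  simp [sdpEn_sq, Fintype.sum_sum_type]

theorem sdpEn_sq_dot (x : ι → ℂ) : sdpEn x ^ 2 = (star x ⬝ᵥ x).re := by
  rw [sdpEn_sq, dotProduct, Complex.re_sum]
  refine Finset.sum_congr rfl fun i _ => ?_
  simp only [Pi.star_apply, RCLike.star_def]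
  rw [Complex.conj_mul']
  norm_cast

theorem sdpEn_mulVec_sq (ξ : Matrix κ ι ℂ) (l : ι → ℂ) :
    sdpEn (ξ *ᵥ l) ^ 2 = (star l ⬝ᵥ (ξᴴ * ξ) *ᵥ l).re := by
  rw [sdpEn_sq_dot, star_mulVec, ← Matrix.mulVec_mulVec, dotProduct_mulVec _ ξᴴ]

end En

/-- Douglas' lemma in finite dimension. -/
theorem sdp_douglas {E F : Type*} [AddCommGroup E] [Module ℂ E] [NormedAddCommGroup F]
    [InnerProductSpace ℂ F] [FiniteDimensional ℂ F] (A B : E →ₗ[ℂ] F)
    (h : ∀ l, ‖B l‖ ≤ ‖A l‖) : ∃ V : F →ₗ[ℂ] F, (∀ y, ‖V y‖ ≤ ‖y‖) ∧ V ∘ₗ A = B := by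
  obtain ⟨g, hg⟩ := LinearMap.exists_rightInverse_of_surjective A.rangeRestrict
    (LinearMap.range_rangeRestrict A)
  have hg' : ∀ p : LinearMap.range A, A (g p) = p := fun p => by
    have := LinearMap.congr_fun hg p
    exact congrArg Subtype.val this
  refine ⟨B ∘ₗ g ∘ₗ ((LinearMap.range A).orthogonalProjectionOnto : F →L[ℂ] LinearMap.range A),
    fun y => ?_, ?_⟩
  · simp only [LinearMap.comp_apply, ContinuousLinearMap.coe_coe]
    refine (h _).trans ?_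
    rw [hg']
    exact (LinearMap.range A).norm_orthogonalProjectionOnto_apply_le y
  · ext l
    simp only [LinearMap.comp_apply, ContinuousLinearMap.coe_coe]
    have h1 : (LinearMap.range A).orthogonalProjectionOnto (A l) = ⟨A l, l, rfl⟩ :=
      Submodule.orthogonalProjectionOnto_mem_subspace_eq_self (K := LinearMap.range A) ⟨A l, l, rfl⟩
    rw [h1]
    have h2 := h (g ⟨A l, l, rfl⟩ - l)
    rw [map_sub A, hg', sub_self, norm_zero, map_sub] at h2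
    exact sub_eq_zero.mp (norm_le_zero_iff.mp h2)

variable {n : ℕ}

local notation "Mat" => Matrix (Fin n) (Fin n) ℂ

/-- The block contraction. -/
theorem sdp_blocks (ξ η ζ θ : Mat) (h : ξᴴ * ξ + ζᴴ * ζ = ηᴴ * η + θᴴ * θ) :
    ∃ a b c d : Mat, ξ = a * η + b * θ ∧ ζ = c * η + d * θ ∧
      ∀ x y : Fin n → ℂ, sdpEn (a *ᵥ x + b *ᵥ y) ^ 2 + sdpEn (c *ᵥ x + d *ᵥ y) ^ 2 ≤
        sdpEn x ^ 2 + sdpEn y ^ 2 := by
  obtain ⟨V, hV, hVA⟩ := sdp_douglas (toEuclideanLin (fromRows η θ))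
    (toEuclideanLin (fromRows ξ ζ)) (fun l => by
      have h1 : sdpEn (fromRows ξ ζ *ᵥ l.ofLp) ^ 2 = sdpEn (fromRows η θ *ᵥ l.ofLp) ^ 2 := by
        rw [sdpEn_mulVec_sq, sdpEn_mulVec_sq, conjTranspose_fromRows_eq_fromCols_conjTranspose,
          conjTranspose_fromRows_eq_fromCols_conjTranspose, fromCols_mul_fromRows,
          fromCols_mul_fromRows, h]
      have h2 := (pow_left_inj₀ (sdpEn_nonneg _) (sdpEn_nonneg _) two_ne_zero).mp h1
      exact h2.le)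
  obtain ⟨W, rfl⟩ := toEuclideanLin.surjective V
  have hW : W * fromRows η θ = fromRows ξ ζ := by
    apply toEuclideanLin.injective
    rw [← hVA]
    ext l i
    simp [toLpLin_apply]
  rw [← fromBlocks_toBlocks W, fromBlocks_mul_fromRows] at hW
  obtain ⟨h1, h2⟩ := (fromRows_ext_iff _ _ _ _).mp hW
  refine ⟨W.toBlocks₁₁, W.toBlocks₁₂, W.toBlocks₂₁, W.toBlocks₂₂, h1.symm, h2.symm, fun x y => ?_⟩
  have h3 := hV (WithLp.toLp 2 (Sum.elim x y))
  have h4 : sdpEn (W *ᵥ Sum.elim x y) ≤ sdpEn (Sum.elim x y) := h3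
  have h5 := pow_le_pow_left₀ (sdpEn_nonneg _) h4 2
  rw [← fromBlocks_toBlocks W, fromBlocks_mulVec, sdpEn_sum_elim, sdpEn_sum_elim] at h5
  simpa using h5

/-- Rows of a matrix as a vector of vectors. -/
noncomputable def sdpRows (ξ : Mat) : PiLp 2 (fun _ : Fin n => EuclideanSpace ℂ (Fin n)) :=
  WithLp.toLp 2 fun i => WithLp.toLp 2 (ξ i)

theorem sdpRows_norm_sq (ξ : Mat) : ‖sdpRows ξ‖ ^ 2 = (ξᴴ * ξ).trace.re := by
  rw [PiLp.norm_sq_eq_of_L2, Matrix.trace_mul_comm, Matrix.trace, Complex.re_sum]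
  refine Finset.sum_congr rfl fun i _ => ?_
  change sdpEn (ξ i) ^ 2 = _
  rw [sdpEn_sq_dot, dotProduct_comm]
  simp [Matrix.mul_apply, dotProduct]

theorem sdpRows_add (ξ η : Mat) : sdpRows (ξ + η) = sdpRows ξ + sdpRows η := rfl

theorem sdpRows_zero : sdpRows (0 : Mat) = 0 := rfl

theorem sdpRows_eq_zero {ξ : Mat} (h : ‖sdpRows ξ‖ ≤ 0) : ξ = 0 := by
  have h1 := norm_le_zero_iff.mp h
  ext i j
  exact congrArg (fun v : PiLp 2 (fun _ : Fin n => EuclideanSpace ℂ (Fin n)) => v i j) h1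

theorem sdp_rows_bound {T : Mat} {r C : ℝ}
    (hT : CompleteBound (Matrix.toEuclideanCLM (n := Fin n) (𝕜 := ℂ) T) n r C)
    (N : ℕ) (B : ℕ → Mat) (M : ℝ) (hM0 : 0 ≤ M)
    (hM : ∀ w : ℂ, ‖w‖ ≤ r → ∀ x : Fin n → ℂ,
      sdpEn ((∑ k ∈ Finset.range (N + 1), w ^ k • B k) *ᵥ x) ≤ M * sdpEn x) (η : Mat) :
    ‖sdpRows (∑ k ∈ Finset.range (N + 1), B k * η * Tᵀ ^ k)‖ ≤ C * M * ‖sdpRows η‖ := by
  have h := hT N (fun k => B k) M (fun w hw => by
    refine ContinuousLinearMap.opNorm_le_bound _ hM0 fun x => ?_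
    rw [Fin.sum_univ_eq_sum_range (fun k => w ^ k • B k)]
    exact hM w hw x.ofLp) (sdpRows η)
  convert h using 2
  ext i a
  rw [← Fin.sum_univ_eq_sum_range (fun k => B k * η * Tᵀ ^ k)]
  simp only [sdpRows, ← map_pow, Matrix.sum_apply, WithLp.ofLp_sum, Finset.sum_apply,
    WithLp.ofLp_smul, Pi.smul_apply, ofLp_toEuclideanCLM, smul_eq_mul]
  rw [Finset.sum_comm]
  refine Finset.sum_congr rfl fun k _ => ?_
  rw [Matrix.mul_assoc, Matrix.mul_apply]
  refine Finset.sum_congr rfl fun j _ => ?_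
  congr 1
  rw [← Matrix.transpose_pow, Matrix.mul_apply]
  simp only [Matrix.transpose_apply, Matrix.mulVec, dotProduct, mul_comm]

theorem sdp_tail_bound {T : Mat} {r C : ℝ} (hr0 : 0 ≤ r)
    (hT : CompleteBound (Matrix.toEuclideanCLM (n := Fin n) (𝕜 := ℂ) T) n r C)
    (N : ℕ) (D : Mat) (hD : ∀ x, sdpEn (D *ᵥ x) ≤ sdpEn x) (ζ : Mat) :
    ‖sdpRows (D * ζ * Tᵀ ^ N)‖ ≤ C * r ^ N * ‖sdpRows ζ‖ := by
  have h := sdp_rows_bound hT N (fun k => if k = N then D else 0) (r ^ N) (by positivity)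
    (fun w hw x => by
      rw [Finset.sum_eq_single N (fun k _ hk => by simp [hk]) (by simp)]
      simp only [if_true, Matrix.smul_mulVec, sdpEn_smul, norm_pow]
      exact mul_le_mul (pow_le_pow_left₀ (norm_nonneg _) hw N) (hD x) (sdpEn_nonneg _)
        (by positivity)) ζ
  rw [Finset.sum_eq_single N (fun k _ hk => by simp [hk]) (by simp)] at h
  simpa using h

/-- The truncated transfer function is almost contractive. -/
theorem sdp_transfer {a b c d : Mat}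
    (hV : ∀ x y : Fin n → ℂ, sdpEn (a *ᵥ x + b *ᵥ y) ^ 2 + sdpEn (c *ᵥ x + d *ᵥ y) ^ 2 ≤
        sdpEn x ^ 2 + sdpEn y ^ 2) {r : ℝ} (hr0 : 0 ≤ r) (hr : r < 1)
    (hc : ∀ x, sdpEn (c *ᵥ x) ≤ sdpEn x) (hd : ∀ (k : ℕ) x, sdpEn ((d ^ k) *ᵥ x) ≤ sdpEn x)
    (N : ℕ) (w : ℂ) (hw : ‖w‖ ≤ r) (x : Fin n → ℂ) :
    sdpEn ((a + ∑ k ∈ Finset.range N, w ^ (k + 1) • (b * d ^ k * c)) *ᵥ x) ≤
      (1 + r ^ N / (1 - r)) * sdpEn x := by
  let e : ℕ → Fin n → ℂ := fun k => w ^ k • ((d ^ k) *ᵥ (c *ᵥ x))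
  have he : ∀ k, sdpEn (e k) ≤ r ^ k * sdpEn x := fun k => by
    simp only [e, sdpEn_smul, norm_pow]
    exact mul_le_mul (pow_le_pow_left₀ (norm_nonneg _) hw k) ((hd k _).trans (hc x))
      (sdpEn_nonneg _) (by positivity)
  let g : ℕ → Fin n → ℂ := fun N => ∑ k ∈ Finset.range N, e k
  have h1r : 0 < 1 - r := by linarith
  have hx := sdpEn_nonneg x
  have hg : ∀ N, sdpEn (g N) ≤ (1 - r ^ N) / (1 - r) * sdpEn x := by
    intro N
    induction N with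
    | zero => simp [g, sdpEn_zero]
    | succ N ih =>
      simp only [g, Finset.sum_range_succ] at ih ⊢
      refine (sdpEn_add_le _ _).trans ((add_le_add ih (he N)).trans (le_of_eq ?_))
      field_simp
      ring
  have hg' : sdpEn (g N) ≤ 1 / (1 - r) * sdpEn x := by
    refine (hg N).trans (mul_le_mul_of_nonneg_right ?_ hx)
    have : 0 ≤ r ^ N := by positivity
    exact div_le_div_of_nonneg_right (by linarith) h1r.le
  have h1 : a *ᵥ x + b *ᵥ (w • g N) =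
      (a + ∑ k ∈ Finset.range N, w ^ (k + 1) • (b * d ^ k * c)) *ᵥ x := by
    simp only [g, e, Matrix.add_mulVec, Matrix.sum_mulVec, Finset.smul_sum, Matrix.mulVec_sum,
      Matrix.mulVec_smul, Matrix.smul_mulVec, Matrix.mulVec_mulVec, smul_smul, pow_succ',
      Matrix.mul_assoc]
  have h2 : c *ᵥ x + d *ᵥ (w • g N) = g N + e N := by
    have h3 : g N + e N = ∑ k ∈ Finset.range N, e (k + 1) + e 0 := by
      rw [← Finset.sum_range_succ', Finset.sum_range_succ]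
    rw [h3, add_comm]
    simp only [g, e, Finset.smul_sum, Matrix.mulVec_sum, Matrix.mulVec_smul, Matrix.mulVec_mulVec,
      smul_smul, pow_succ', Matrix.mul_assoc, pow_zero, one_smul, Matrix.one_mul]
  have h4 := hV x (w • g N)
  rw [h1, h2, sdpEn_smul] at h4
  have h5 := sdpEn_le_add (g N) (e N)
  have h6 := he N
  set P := sdpEn ((a + ∑ k ∈ Finset.range N, w ^ (k + 1) • (b * d ^ k * c)) *ᵥ x)
  set G := sdpEn (g N)
  set G' := sdpEn (g N + e N)
  set ε := sdpEn (e N)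
  have hG : 0 ≤ G := sdpEn_nonneg _
  have hG' : 0 ≤ G' := sdpEn_nonneg _
  have hε : 0 ≤ ε := sdpEn_nonneg _
  have h7 : (‖w‖ * G) ^ 2 ≤ G ^ 2 := by
    apply pow_le_pow_left₀ (by positivity)
    exact mul_le_of_le_one_left hG (hw.trans hr.le)
  have h8 : G ^ 2 ≤ G' ^ 2 + 2 * (G * ε) := by
    rcases le_total G ε with h | h
    · nlinarith
    · have : (G - ε) ^ 2 ≤ G' ^ 2 := pow_le_pow_left₀ (by linarith) (by linarith) 2
      nlinarith
  have h9 : G * ε ≤ (1 / (1 - r) * sdpEn x) * (r ^ N * sdpEn x) :=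
    mul_le_mul hg' h6 hε (by positivity)
  have h10 : (1 / (1 - r) * sdpEn x) * (r ^ N * sdpEn x) = r ^ N / (1 - r) * sdpEn x ^ 2 := by
    ring
  have hs : 0 ≤ r ^ N / (1 - r) := by positivity
  apply le_of_sq_le_sq _ (by positivity)
  set s := r ^ N / (1 - r)
  have : 0 ≤ s ^ 2 * sdpEn x ^ 2 := by positivity
  nlinarith

theorem sdp_expand {ζ η S c d : Mat} (h : ζ = c * η + d * (ζ * S)) (N : ℕ) :
    ζ = ∑ k ∈ Finset.range N, d ^ k * c * η * S ^ k + d ^ N * ζ * S ^ N := by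
  induction N with
  | zero => simp
  | succ N ih =>
    rw [Finset.sum_range_succ, add_assoc]
    have : d ^ N * ζ * S ^ N = d ^ N * c * η * S ^ N + d ^ (N + 1) * ζ * S ^ (N + 1) := by
      conv_lhs => rw [h]
      rw [pow_succ d, pow_succ' S]
      simp only [Matrix.mul_add, Matrix.add_mul, Matrix.mul_assoc]
    rw [← this]
    exact ih

/-- No nonzero dual certificate exists under a complete bound. -/
theorem sdp_no_certificate {T : Mat} {r C τ : ℝ} (hr0 : 0 ≤ r) (hr : r < 1)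
    (hT : CompleteBound (Matrix.toEuclideanCLM (n := Fin n) (𝕜 := ℂ) T) n r C)
    (hτ : C ^ 2 < τ) (ξ η ζ : Mat)
    (h : ξᴴ * ξ + ζᴴ * ζ = ηᴴ * η + (ζ * Tᵀ)ᴴ * (ζ * Tᵀ))
    (htr : τ * (ηᴴ * η).trace.re ≤ (ξᴴ * ξ).trace.re) : ξ = 0 ∧ η = 0 ∧ ζ = 0 := by
  obtain ⟨a, b, c, d, h1, h2, hV⟩ := sdp_blocks ξ η ζ (ζ * Tᵀ) h
  have hle : ∀ p q : ℝ, 0 ≤ q → p ^ 2 ≤ q ^ 2 → p ≤ q := fun p q hq h =>
    le_of_sq_le_sq h hq
  have hb : ∀ x, sdpEn (b *ᵥ x) ≤ sdpEn x := fun x => by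
    have := hV 0 x
    simp only [Matrix.mulVec_zero, zero_add, sdpEn_zero] at this
    exact hle _ _ (sdpEn_nonneg _) (by nlinarith [sq_nonneg (sdpEn (d *ᵥ x))])
  have hc : ∀ x, sdpEn (c *ᵥ x) ≤ sdpEn x := fun x => by
    have := hV x 0
    simp only [Matrix.mulVec_zero, add_zero, sdpEn_zero] at this
    exact hle _ _ (sdpEn_nonneg _) (by nlinarith [sq_nonneg (sdpEn (a *ᵥ x))])
  have hd1 : ∀ x, sdpEn (d *ᵥ x) ≤ sdpEn x := fun x => by
    have := hV 0 x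
    simp only [Matrix.mulVec_zero, zero_add, sdpEn_zero] at this
    exact hle _ _ (sdpEn_nonneg _) (by nlinarith [sq_nonneg (sdpEn (b *ᵥ x))])
  have hd : ∀ (k : ℕ) x, sdpEn ((d ^ k) *ᵥ x) ≤ sdpEn x := by
    intro k
    induction k with
    | zero => intro x; simp
    | succ k ih =>
      intro x
      rw [pow_succ, ← Matrix.mulVec_mulVec]
      exact (ih _).trans (hd1 x)
  have hbd : ∀ (k : ℕ) x, sdpEn ((b * d ^ k) *ᵥ x) ≤ sdpEn x := fun k x => by
    rw [← Matrix.mulVec_mulVec]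
    exact (hb _).trans (hd k x)
  have h1r : 0 < 1 - r := by linarith
  have hrN : Filter.Tendsto (fun N : ℕ => r ^ N) Filter.atTop (nhds 0) :=
    tendsto_pow_atTop_nhds_zero_of_lt_one hr0 hr
  have hmain : ∀ N : ℕ, ‖sdpRows ξ‖ ≤
      C * (1 + r ^ N / (1 - r)) * ‖sdpRows η‖ + C * (r ^ N * r) * ‖sdpRows ζ‖ := by
    intro N
    let B : ℕ → Mat := fun k => Nat.casesOn k a fun k => b * d ^ k * c
    have hξ : ξ = ∑ k ∈ Finset.range (N + 1), B k * η * Tᵀ ^ k +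
        (b * d ^ N) * ζ * Tᵀ ^ (N + 1) := by
      rw [Finset.sum_range_succ']
      conv_lhs => rw [h1, sdp_expand h2 N]
      simp only [B, Matrix.add_mul, Matrix.mul_add, Matrix.sum_mul, Matrix.mul_sum, pow_succ,
        Matrix.mul_assoc, pow_zero, Matrix.mul_one, Nat.rec_zero]
      abel
    have hA := sdp_rows_bound hT N B (1 + r ^ N / (1 - r)) (by positivity) (fun w hw x => by
      have := sdp_transfer hV hr0 hr hc hd N w hw x
      rw [Finset.sum_range_succ', add_comm]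
      simpa [B] using this) η
    have hB := sdp_tail_bound hr0 hT (N + 1) (b * d ^ N) (hbd N) ζ
    rw [pow_succ] at hB
    conv_lhs => rw [hξ, sdpRows_add]
    refine (norm_add_le _ _).trans (add_le_add hA ?_)
    rw [pow_succ]
    exact hB
  have hlim : ‖sdpRows ξ‖ ≤ C * ‖sdpRows η‖ := by
    have ht : Filter.Tendsto (fun N : ℕ => C * (1 + r ^ N / (1 - r)) * ‖sdpRows η‖ +
        C * (r ^ N * r) * ‖sdpRows ζ‖) Filter.atTop
        (nhds (C * (1 + 0 / (1 - r)) * ‖sdpRows η‖ + C * (0 * r) * ‖sdpRows ζ‖)) :=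
      ((((hrN.div_const _).const_add _).const_mul _).mul_const _).add
        (((hrN.mul_const _).const_mul _).mul_const _)
    have := ge_of_tendsto' ht hmain
    simpa using this
  rw [← sdpRows_norm_sq, ← sdpRows_norm_sq] at htr
  have hsq : ‖sdpRows ξ‖ ^ 2 ≤ C ^ 2 * ‖sdpRows η‖ ^ 2 := by
    rw [← mul_pow]
    exact pow_le_pow_left₀ (norm_nonneg _) hlim 2
  have hη : η = 0 := by
    apply sdpRows_eq_zero
    by_contra hcon
    push Not at hcon
    have : 0 < ‖sdpRows η‖ ^ 2 := by positivity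
    nlinarith
  subst hη
  have hξ : ξ = 0 := sdpRows_eq_zero (by simpa [sdpRows_zero] using hlim)
  refine ⟨hξ, rfl, sdpRows_eq_zero ?_⟩
  have hz : ∀ N : ℕ, ‖sdpRows ζ‖ ≤ C * r ^ N * ‖sdpRows ζ‖ := fun N => by
    have h3 := sdp_expand h2 N
    simp only [Matrix.mul_zero, Matrix.zero_mul, Finset.sum_const_zero, zero_add] at h3
    conv_lhs => rw [h3]
    exact sdp_tail_bound hr0 hT N (d ^ N) (hd N) ζ
  have ht : Filter.Tendsto (fun N : ℕ => C * r ^ N * ‖sdpRows ζ‖) Filter.atTop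
      (nhds (C * 0 * ‖sdpRows ζ‖)) := (hrN.const_mul _).mul_const _
  simpa using ge_of_tendsto' ht hz

end Crest.Agent.R132
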