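import Crest.Agent.R132.SDPDual
import Crest.Agent.R132.SDPLurk

/-!
Row 132, task SDP (helper23): finite dimensional Paulsen similarity theorem and attainment of the
optimal metric.
-/

open Matrix
open scoped ComplexOrder ComplexConjugate MatrixOrder
open Crest.AnalysisR.NumRange

namespace Crest.Agent.R132

theorem strictlyFeasible_of_completeBound {n : ℕ} (T : Matrix (Fin n) (Fin n) ℂ) (r C : ℝ)
    (hr0 : 0 ≤ r) (hr : r < 1)
    (hT : CompleteBound (Matrix.toEuclideanCLM (n := Fin n) (𝕜 := ℂ) T) n r C)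
    (τ : ℝ) (hτ : C ^ 2 < τ) : ∃ H, MetricStrictlyFeasible T H τ := by
  by_contra hno
  push Not at hno
  obtain ⟨X, Y, Z, hX, hY, hZ, hrel, htr, hne⟩ := sdp_dual T τ hno
  obtain ⟨ξ, hξ⟩ := CStarAlgebra.nonneg_iff_eq_star_mul_self.mp hX.transpose.nonneg
  obtain ⟨η, hη⟩ := CStarAlgebra.nonneg_iff_eq_star_mul_self.mp hY.transpose.nonneg
  obtain ⟨ζ, hζ⟩ := CStarAlgebra.nonneg_iff_eq_star_mul_self.mp hZ.transpose.nonneg
  rw [Matrix.star_eq_conjTranspose] at hξ hη hζ
  have h1 : ξᴴ * ξ + ζᴴ * ζ = ηᴴ * η + (ζ * Tᵀ)ᴴ * (ζ * Tᵀ) := by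
    have h2 := congrArg Matrix.transpose hrel
    rw [transpose_add, transpose_add, transpose_mul, transpose_mul, hξ, hη, hζ] at h2
    rw [h2, conjTranspose_mul]
    simp only [Matrix.mul_assoc]
    rfl
  have h3 := sdp_no_certificate hr0 hr hT hτ ξ η ζ h1 (by
    rw [← hξ, ← hη, Matrix.trace_transpose, Matrix.trace_transpose]
    exact htr)
  obtain ⟨rfl, rfl, rfl⟩ := h3
  apply hne
  simp only [Matrix.mul_zero, Matrix.transpose_eq_zero] at hξ hη hζ
  exact ⟨hξ, hη, hζ⟩

theorem sdp_isClosed_posSemidef {n : ℕ} :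
    IsClosed {P : Matrix (Fin n) (Fin n) ℂ | P.PosSemidef} := by
  simp only [posSemidef_iff_dotProduct_mulVec, Set.ofPred_and, Set.ofPred_forall]
  refine IsClosed.inter ?_ (isClosed_iInter fun x => ?_)
  · exact isClosed_eq continuous_id.matrix_conjTranspose continuous_id
  · exact isClosed_le continuous_const
      (Continuous.dotProduct continuous_const (continuous_id.matrix_mulVec continuous_const))

theorem sdp_entry_bound {n : ℕ} {P : Matrix (Fin n) (Fin n) ℂ} (hP : P.PosSemidef) {t : ℝ}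
    (ht : ∀ i, (P i i).re ≤ t) (i j : Fin n) : ‖P i j‖ ≤ t := by
  have h0 : ∀ i, 0 ≤ (P i i).re ∧ (P i i).im = 0 := fun i => by
    have := hP.diag_nonneg (i := i)
    rw [Complex.le_def] at this
    exact ⟨by simpa using this.1, by simpa using this.2.symm⟩
  have h1 := (hP.submatrix ![i, j]).det_nonneg
  rw [Matrix.det_fin_two, Complex.le_def] at h1
  have h2 : P j i = conj (P i j) := by
    have := hP.1.apply j i
    simpa using this.symm
  have h3 := h1.1
  simp only [submatrix_apply, cons_val_zero, cons_val_one, Complex.zero_re, Complex.sub_re,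
    Complex.mul_re, h2, Complex.conj_re, Complex.conj_im, (h0 i).2, (h0 j).2] at h3
  have h4 : ‖P i j‖ ^ 2 = (P i j).re * (P i j).re + (P i j).im * (P i j).im := by
    rw [Complex.sq_norm, Complex.normSq_apply]
  have h5 : (P i i).re * (P j j).re ≤ t * t :=
    mul_le_mul (ht i) (ht j) (h0 j).1 ((h0 i).1.trans (ht i))
  apply le_of_sq_le_sq _ ((h0 i).1.trans (ht i))
  nlinarith

theorem sdp_diag_bounds {n : ℕ} {T H : Matrix (Fin n) (Fin n) ℂ} {τ : ℝ}
    (h : MetricFeasible T H τ) (i : Fin n) : 1 ≤ (H i i).re ∧ (H i i).re ≤ τ := by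
  have h1 := h.1.diag_nonneg (i := i)
  have h2 := h.2.1.diag_nonneg (i := i)
  rw [Complex.le_def] at h1 h2
  constructor
  · simpa using h1.1
  · simpa using h2.1

theorem exists_optimal_of_strictlyFeasible {n : ℕ} (hn : 1 ≤ n) (T : Matrix (Fin n) (Fin n) ℂ)
    (c : ℝ) (h : ∀ τ : ℝ, c < τ → ∃ H, MetricStrictlyFeasible T H τ) :
    ∃ (H : Matrix (Fin n) (Fin n) ℂ) (κsq : ℝ), IsOptimalMetric T H κsq ∧ 1 ≤ κsq ∧ κsq ≤ c := by
  have hf : ∀ τ : ℝ, c < τ → ∃ H, MetricFeasible T H τ := fun τ hτ => by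
    obtain ⟨H, h1, h2, h3⟩ := h τ hτ
    exact ⟨H, h1.posSemidef, h2.posSemidef, h3.posSemidef⟩
  have hone : ∀ H τ, MetricFeasible T H τ → 1 ≤ τ := fun H τ hH =>
    (sdp_diag_bounds hH ⟨0, hn⟩).1.trans (sdp_diag_bounds hH ⟨0, hn⟩).2
  let K : Set (Matrix (Fin n) (Fin n) ℂ × ℝ) := {p | MetricFeasible T p.1 p.2 ∧ p.2 ≤ c + 1}
  have hKc : IsClosed K := by
    refine IsClosed.inter (IsClosed.inter ?_ (IsClosed.inter ?_ ?_))
      (isClosed_le continuous_snd continuous_const)
    · exact sdp_isClosed_posSemidef.preimage (continuous_fst.sub continuous_const)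
    · exact sdp_isClosed_posSemidef.preimage
        (((Complex.continuous_ofReal.comp continuous_snd).smul continuous_const).sub
          continuous_fst)
    · exact sdp_isClosed_posSemidef.preimage (continuous_fst.sub
        ((continuous_const.matrix_mul continuous_fst).matrix_mul continuous_const))
  have hbox : IsCompact (Set.univ.pi fun _ : Fin n => Set.univ.pi fun _ : Fin n =>
      Metric.closedBall (0 : ℂ) (c + 1)) :=
    isCompact_univ_pi fun _ => isCompact_univ_pi fun _ => isCompact_closedBall _ _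
  have hK : IsCompact K := by
    refine IsCompact.of_isClosed_subset (hbox.prod (isCompact_Icc (a := 1) (b := c + 1))) hKc ?_
    rintro ⟨H, τ⟩ ⟨hH, hτ⟩
    refine ⟨fun i _ j _ => ?_, hone H τ hH, hτ⟩
    have hP : H.PosSemidef := by simpa using hH.1.add PosSemidef.one
    simpa using sdp_entry_bound hP (fun i => (sdp_diag_bounds hH i).2.trans hτ) i j
  have hne : K.Nonempty := by
    obtain ⟨H, hH⟩ := hf (c + 1) (by linarith)
    exact ⟨(H, c + 1), hH, le_rfl⟩
  obtain ⟨⟨H, κ⟩, ⟨hH, hκ⟩, hmin⟩ := hK.exists_isMinOn hne continuous_snd.continuousOn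
  have hopt : ∀ H' τ', MetricFeasible T H' τ' → κ ≤ τ' := fun H' τ' h' => by
    rcases le_total τ' (c + 1) with h1 | h1
    · exact hmin (show (H', τ') ∈ K from ⟨h', h1⟩)
    · exact hκ.trans h1
  refine ⟨H, κ, ⟨hH, hopt⟩, hone H κ hH, le_of_forall_gt_imp_ge_of_dense fun τ hτ => ?_⟩
  obtain ⟨H', h'⟩ := hf τ hτ
  exact hopt H' τ h'

end Crest.Agent.R132
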