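import Crest.Agent.R132.Defs

/-!
Row 132, task SDP, part A (helper23): the dual certificate obtained by Hahn-Banach separation.
-/

open Matrix
open scoped ComplexOrder ComplexConjugate
open Crest.AnalysisR.NumRange

namespace Crest.Agent.R132

/-- Matrices with positive definite Hermitian part. -/
def sdpPosRe (n : ℕ) : Set (Matrix (Fin n) (Fin n) ℂ) :=
  {P | ∀ x : Fin n → ℂ, x ≠ 0 → 0 < (star x ⬝ᵥ P *ᵥ x).re}

variable {n : ℕ}

theorem sdp_form_smul (P : Matrix (Fin n) (Fin n) ℂ) (x : Fin n → ℂ) (t : ℝ) :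
    (star ((t : ℂ) • x) ⬝ᵥ P *ᵥ ((t : ℂ) • x)).re = t ^ 2 * (star x ⬝ᵥ P *ᵥ x).re := by
  rw [Matrix.mulVec_smul, star_smul, smul_dotProduct, dotProduct_smul]
  simp only [smul_eq_mul, RCLike.star_def, Complex.conj_ofReal]
  rw [← mul_assoc, ← Complex.ofReal_mul, Complex.re_ofReal_mul]
  ring

theorem isOpen_sdpPosRe : IsOpen (sdpPosRe n) := by
  rw [isOpen_iff_mem_nhds]
  intro P hP
  have hK : IsCompact (Metric.sphere (0 : Fin n → ℂ) 1) := isCompact_sphere _ _
  have h := hK.eventually_forall_of_forall_eventually (x₀ := P)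
    (P := fun (Q : Matrix (Fin n) (Fin n) ℂ) (x : Fin n → ℂ) => 0 < (star x ⬝ᵥ Q *ᵥ x).re) (by
      intro y hy
      have hy0 : y ≠ 0 := by
        rintro rfl
        simp at hy
      have hc : Continuous fun z : Matrix (Fin n) (Fin n) ℂ × (Fin n → ℂ) =>
          (star z.2 ⬝ᵥ z.1 *ᵥ z.2).re := by
        refine Complex.continuous_re.comp ?_
        exact Continuous.dotProduct (continuous_star.comp continuous_snd)
          (Continuous.matrix_mulVec continuous_fst continuous_snd)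
      exact hc.continuousAt.eventually (lt_mem_nhds (hP y hy0)))
  filter_upwards [h] with Q hQ x hx
  have hn : 0 < ‖x‖ := norm_pos_iff.mpr hx
  have h1 := hQ (((‖x‖⁻¹ : ℝ) : ℂ) • x) (by
    simp only [mem_sphere_iff_norm, sub_zero, norm_smul, Complex.norm_real, norm_inv, norm_norm]
    exact inv_mul_cancel₀ hn.ne')
  rw [sdp_form_smul] at h1
  exact (mul_pos_iff_of_pos_left (by positivity)).mp h1

theorem sdp_form_rsmul (P : Matrix (Fin n) (Fin n) ℂ) (x : Fin n → ℂ) (t : ℝ) :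
    (star x ⬝ᵥ (t • P) *ᵥ x).re = t * (star x ⬝ᵥ P *ᵥ x).re := by
  rw [Matrix.smul_mulVec, dotProduct_smul]
  simp

theorem sdp_form_add (P Q : Matrix (Fin n) (Fin n) ℂ) (x : Fin n → ℂ) :
    (star x ⬝ᵥ (P + Q) *ᵥ x).re = (star x ⬝ᵥ P *ᵥ x).re + (star x ⬝ᵥ Q *ᵥ x).re := by
  rw [Matrix.add_mulVec, dotProduct_add, Complex.add_re]

theorem convex_sdpPosRe : Convex ℝ (sdpPosRe n) := by
  intro P hP Q hQ a b ha hb hab x hx
  rw [sdp_form_add, sdp_form_rsmul, sdp_form_rsmul]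
  have h1 := hP x hx
  have h2 := hQ x hx
  rcases eq_or_lt_of_le ha with h | h
  · subst h
    have : b = 1 := by linarith
    subst this
    simpa using h2
  · have := mul_pos h h1
    have := mul_nonneg hb h2.le
    linarith

theorem posDef_of_sdpPosRe {P : Matrix (Fin n) (Fin n) ℂ} (hP : P.IsHermitian)
    (h : P ∈ sdpPosRe n) : P.PosDef := by
  refine PosDef.of_dotProduct_mulVec_pos hP fun x hx => ?_
  rw [Complex.lt_def]
  refine ⟨by simpa using h x hx, ?_⟩
  simpa using (hP.im_star_dotProduct_mulVec_self x).symm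

theorem sdpPosRe_of_posSemidef {P : Matrix (Fin n) (Fin n) ℂ} (hP : P.PosSemidef) {t : ℝ}
    (ht : 0 < t) : P + t • (1 : Matrix (Fin n) (Fin n) ℂ) ∈ sdpPosRe n := by
  intro x hx
  rw [sdp_form_add, sdp_form_rsmul]
  have h1 := hP.re_dotProduct_nonneg x
  have h2 := (PosDef.one (n := Fin n) (R := ℂ)).re_dotProduct_pos hx
  have := mul_pos ht h2
  simp only [RCLike.re_to_complex] at h1 h2 this
  linarith

/-- A real-linear functional on matrices is, on Hermitian matrices, a trace pairing. -/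
theorem sdp_exists_rep (φ : Matrix (Fin n) (Fin n) ℂ →ₗ[ℝ] ℝ) :
    ∃ X : Matrix (Fin n) (Fin n) ℂ, X.IsHermitian ∧
      ∀ P : Matrix (Fin n) (Fin n) ℂ, P.IsHermitian → φ P = (X * P).trace.re := by
  classical
  let X0 : Matrix (Fin n) (Fin n) ℂ := Matrix.of fun a b =>
    (φ (Matrix.single b a 1) : ℂ) - Complex.I * (φ (Matrix.single b a Complex.I) : ℂ)
  have h0 : ∀ P : Matrix (Fin n) (Fin n) ℂ, φ P = (X0 * P).trace.re := by
    intro P
    have hP : P = ∑ a, ∑ b, ((P b a).re • Matrix.single b a (1 : ℂ) +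
        (P b a).im • Matrix.single b a Complex.I) := by
      rw [Finset.sum_comm]
      conv_lhs => rw [Matrix.matrix_eq_sum_single P]
      refine Finset.sum_congr rfl fun b _ => Finset.sum_congr rfl fun a _ => ?_
      rw [Matrix.smul_single, Matrix.smul_single, ← Matrix.single_add]
      congr 1
      simp [Complex.re_add_im]
    conv_lhs => rw [hP]
    simp only [map_sum, map_add, map_smul, smul_eq_mul, Matrix.trace, Matrix.diag_apply,
      Matrix.mul_apply, Complex.re_sum]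
    refine Finset.sum_congr rfl fun a _ => Finset.sum_congr rfl fun b _ => ?_
    simp [X0]
    ring
  refine ⟨(1 / 2 : ℝ) • (X0 + X0ᴴ), ?_, fun P hP => ?_⟩
  · rw [Matrix.IsHermitian, conjTranspose_smul, conjTranspose_add, conjTranspose_conjTranspose,
      add_comm]
    simp
  · have h1 : (X0ᴴ * P).trace.re = (X0 * P).trace.re := by
      have : (X0ᴴ * P).trace = star (X0 * P).trace := by
        rw [← Matrix.trace_conjTranspose, conjTranspose_mul, hP.eq, Matrix.trace_mul_comm]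
      rw [this]
      simp
    rw [Matrix.smul_mul, Matrix.add_mul, Matrix.trace_smul, Matrix.trace_add, h0 P]
    simp only [Complex.real_smul, Complex.re_ofReal_mul, Complex.add_re, h1]
    ring

theorem sdp_posSemidef_of_pairing {X : Matrix (Fin n) (Fin n) ℂ} (hX : X.IsHermitian)
    (h : ∀ P : Matrix (Fin n) (Fin n) ℂ, P.PosSemidef → 0 ≤ (X * P).trace.re) :
    X.PosSemidef := by
  refine PosSemidef.of_dotProduct_mulVec_nonneg hX fun x => ?_
  have h1 := h _ (posSemidef_vecMulVec_self_star x)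
  have h2 : (X * vecMulVec x (star x)).trace = star x ⬝ᵥ X *ᵥ x := by
    rw [Matrix.mul_vecMulVec, Matrix.trace_vecMulVec, dotProduct_comm]
  rw [h2] at h1
  rw [Complex.le_def]
  refine ⟨by simpa using h1, ?_⟩
  simpa using (hX.im_star_dotProduct_mulVec_self x).symm

theorem sdp_eq_zero_of_pairing {W : Matrix (Fin n) (Fin n) ℂ} (hW : W.IsHermitian)
    (h : (W * W).trace.re = 0) : W = 0 := by
  have h1 : (Wᴴ * W).trace = 0 := by
    have h2 := (posSemidef_conjTranspose_mul_self W).trace_nonneg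
    rw [Complex.le_def] at h2
    rw [hW.eq] at h2 ⊢
    apply Complex.ext
    · simpa using h
    · simpa using h2.2.symm
  exact trace_conjTranspose_mul_self_eq_zero_iff.mp h1

/-- The dual certificate. -/
theorem sdp_dual (T : Matrix (Fin n) (Fin n) ℂ) (τ : ℝ)
    (hno : ∀ H, ¬ MetricStrictlyFeasible T H τ) :
    ∃ X Y Z : Matrix (Fin n) (Fin n) ℂ, X.PosSemidef ∧ Y.PosSemidef ∧ Z.PosSemidef ∧
      X + Z = Y + T * Z * Tᴴ ∧ τ * Y.trace.re ≤ X.trace.re ∧ ¬ (X = 0 ∧ Y = 0 ∧ Z = 0) := by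
  classical
  let S : Set ((Matrix (Fin n) (Fin n) ℂ) × (Matrix (Fin n) (Fin n) ℂ) × (Matrix (Fin n) (Fin n) ℂ)) := sdpPosRe n ×ˢ sdpPosRe n ×ˢ sdpPosRe n
  let c : (Matrix (Fin n) (Fin n) ℂ) → (Matrix (Fin n) (Fin n) ℂ) × (Matrix (Fin n) (Fin n) ℂ) × (Matrix (Fin n) (Fin n) ℂ) := fun H => (H - 1, (τ : ℂ) • (1 : (Matrix (Fin n) (Fin n) ℂ)) - H, H - Tᴴ * H * T)
  let A : Set ((Matrix (Fin n) (Fin n) ℂ) × (Matrix (Fin n) (Fin n) ℂ) × (Matrix (Fin n) (Fin n) ℂ)) := c '' {H | H.IsHermitian}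
  have hh1 : ∀ H : (Matrix (Fin n) (Fin n) ℂ), H.IsHermitian → (H - 1).IsHermitian := fun H hH =>
    hH.sub isHermitian_one
  have hh2 : ∀ H : (Matrix (Fin n) (Fin n) ℂ), H.IsHermitian → ((τ : ℂ) • (1 : (Matrix (Fin n) (Fin n) ℂ)) - H).IsHermitian := fun H hH => by
    refine IsHermitian.sub ?_ hH
    rw [Matrix.IsHermitian, conjTranspose_smul, conjTranspose_one]
    simp
  have hh3 : ∀ H : (Matrix (Fin n) (Fin n) ℂ), H.IsHermitian → (H - Tᴴ * H * T).IsHermitian := fun H hH =>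
    hH.sub (isHermitian_conjTranspose_mul_mul T hH)
  have hrs : ∀ (t : ℝ) (H : (Matrix (Fin n) (Fin n) ℂ)), H.IsHermitian → (t • H).IsHermitian := fun t H hH => by
    rw [Matrix.IsHermitian, conjTranspose_smul, hH.eq]
    simp
  have hS : Convex ℝ S := convex_sdpPosRe.prod (convex_sdpPosRe.prod convex_sdpPosRe)
  have hSo : IsOpen S := isOpen_sdpPosRe.prod (isOpen_sdpPosRe.prod isOpen_sdpPosRe)
  have hA : Convex ℝ A := by
    rintro _ ⟨H, hH, rfl⟩ _ ⟨K, hK, rfl⟩ a b ha hb hab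
    refine ⟨a • H + b • K, (hrs a H hH).add (hrs b K hK), ?_⟩
    have hb' : b = 1 - a := by linarith
    subst hb'
    simp only [c, Prod.smul_mk, Prod.mk_add_mk, Prod.mk.injEq, Matrix.mul_add, Matrix.add_mul,
      Matrix.mul_smul, Matrix.smul_mul]
    refine ⟨?_, ?_, ?_⟩ <;> module
  have hdisj : Disjoint S A := by
    rw [Set.disjoint_left]
    rintro _ ⟨h1, h2, h3⟩ ⟨H, hH, rfl⟩
    exact hno H ⟨posDef_of_sdpPosRe (hh1 H hH) h1, posDef_of_sdpPosRe (hh2 H hH) h2,
      posDef_of_sdpPosRe (hh3 H hH) h3⟩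
  obtain ⟨f, u, hfS, hfA⟩ := geometric_hahn_banach_open hS hSo hA hdisj
  let g : ((Matrix (Fin n) (Fin n) ℂ) × (Matrix (Fin n) (Fin n) ℂ) × (Matrix (Fin n) (Fin n) ℂ)) →ₗ[ℝ] ℝ := -(f : ((Matrix (Fin n) (Fin n) ℂ) × (Matrix (Fin n) (Fin n) ℂ) × (Matrix (Fin n) (Fin n) ℂ)) →ₗ[ℝ] ℝ)
  obtain ⟨X, hX, hXr⟩ := sdp_exists_rep (g ∘ₗ LinearMap.inl ℝ (Matrix (Fin n) (Fin n) ℂ) ((Matrix (Fin n) (Fin n) ℂ) × (Matrix (Fin n) (Fin n) ℂ)))
  obtain ⟨Y, hY, hYr⟩ := sdp_exists_rep (g ∘ₗ LinearMap.inr ℝ (Matrix (Fin n) (Fin n) ℂ) ((Matrix (Fin n) (Fin n) ℂ) × (Matrix (Fin n) (Fin n) ℂ)) ∘ₗ LinearMap.inl ℝ (Matrix (Fin n) (Fin n) ℂ) (Matrix (Fin n) (Fin n) ℂ))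
  obtain ⟨Z, hZ, hZr⟩ := sdp_exists_rep (g ∘ₗ LinearMap.inr ℝ (Matrix (Fin n) (Fin n) ℂ) ((Matrix (Fin n) (Fin n) ℂ) × (Matrix (Fin n) (Fin n) ℂ)) ∘ₗ LinearMap.inr ℝ (Matrix (Fin n) (Fin n) ℂ) (Matrix (Fin n) (Fin n) ℂ))
  have hrep : ∀ P Q R : (Matrix (Fin n) (Fin n) ℂ), P.IsHermitian → Q.IsHermitian → R.IsHermitian →
      -f (P, Q, R) = (X * P).trace.re + (Y * Q).trace.re + (Z * R).trace.re := by
    intro P Q R hP hQ hR
    rw [← hXr P hP, ← hYr Q hQ, ← hZr R hR]
    have : ((P, Q, R) : (Matrix (Fin n) (Fin n) ℂ) × (Matrix (Fin n) (Fin n) ℂ) × (Matrix (Fin n) (Fin n) ℂ)) = (P, 0, 0) + (0, Q, 0) + (0, 0, R) := by simp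
    rw [this, map_add, map_add]
    change _ = -f (P, 0, 0) + -f (0, Q, 0) + -f (0, 0, R)
    ring
  -- values on shifted semidefinite triples
  have hpos : ∀ P Q R : (Matrix (Fin n) (Fin n) ℂ), P.PosSemidef → Q.PosSemidef → R.PosSemidef → ∀ t : ℝ, 0 < t →
      -u < (X * P).trace.re + (Y * Q).trace.re + (Z * R).trace.re +
        t * (X.trace.re + Y.trace.re + Z.trace.re) := by
    intro P Q R hP hQ hR t ht
    have h1 := hfS (P + t • (1 : (Matrix (Fin n) (Fin n) ℂ)), Q + t • (1 : (Matrix (Fin n) (Fin n) ℂ)), R + t • (1 : (Matrix (Fin n) (Fin n) ℂ)))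
      ⟨sdpPosRe_of_posSemidef hP ht, sdpPosRe_of_posSemidef hQ ht, sdpPosRe_of_posSemidef hR ht⟩
    have h2 := hrep (P + t • (1 : (Matrix (Fin n) (Fin n) ℂ))) (Q + t • (1 : (Matrix (Fin n) (Fin n) ℂ))) (R + t • (1 : (Matrix (Fin n) (Fin n) ℂ)))
      (hP.1.add (hrs t 1 isHermitian_one)) (hQ.1.add (hrs t 1 isHermitian_one))
      (hR.1.add (hrs t 1 isHermitian_one))
    simp only [Matrix.mul_add, Matrix.mul_smul, Matrix.mul_one, Matrix.trace_add,
      Matrix.trace_smul, Complex.add_re, Complex.real_smul, Complex.re_ofReal_mul] at h2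
    linarith
  have hlim : ∀ α β : ℝ, (∀ t : ℝ, 0 < t → α < t * β) → α ≤ 0 := by
    intro α β h
    by_contra hα
    push Not at hα
    have h1 := h (α / (|β| + 1)) (by positivity)
    have h2 : α / (|β| + 1) * β ≤ α / (|β| + 1) * (|β| + 1) :=
      mul_le_mul_of_nonneg_left ((le_abs_self β).trans (by linarith)) (by positivity)
    rw [div_mul_cancel₀ _ (by positivity)] at h2
    linarith
  have hu : 0 ≤ u := by
    have := hlim (-u) (X.trace.re + Y.trace.re + Z.trace.re) fun t ht => by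
      simpa using hpos 0 0 0 PosSemidef.zero PosSemidef.zero PosSemidef.zero t ht
    linarith
  have hnn : ∀ P Q R : (Matrix (Fin n) (Fin n) ℂ), P.PosSemidef → Q.PosSemidef → R.PosSemidef →
      0 ≤ (X * P).trace.re + (Y * Q).trace.re + (Z * R).trace.re := by
    intro P Q R hP hQ hR
    have := hlim (-((X * P).trace.re + (Y * Q).trace.re + (Z * R).trace.re))
      (u + (X.trace.re + Y.trace.re + Z.trace.re)) fun t ht => by
        have hs : ∀ P : (Matrix (Fin n) (Fin n) ℂ), P.PosSemidef → (t⁻¹ • P).PosSemidef := fun P hP =>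
          hP.smul (inv_pos.mpr ht).le
        have h1 := hpos _ _ _ (hs P hP) (hs Q hQ) (hs R hR) 1 one_pos
        simp only [Matrix.mul_smul, Matrix.trace_smul, Complex.real_smul,
          Complex.re_ofReal_mul] at h1
        have h2 := mul_lt_mul_of_pos_left h1 ht
        simp only [mul_add, ← mul_assoc, mul_inv_cancel₀ ht.ne'] at h2
        linarith
    linarith
  have hXp : X.PosSemidef := sdp_posSemidef_of_pairing hX fun P hP => by
    simpa using hnn P 0 0 hP PosSemidef.zero PosSemidef.zero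
  have hYp : Y.PosSemidef := sdp_posSemidef_of_pairing hY fun P hP => by
    simpa using hnn 0 P 0 PosSemidef.zero hP PosSemidef.zero
  have hZp : Z.PosSemidef := sdp_posSemidef_of_pairing hZ fun P hP => by
    simpa using hnn 0 0 P PosSemidef.zero PosSemidef.zero hP
  -- values on the affine set
  let W : (Matrix (Fin n) (Fin n) ℂ) := X + Z - (Y + T * Z * Tᴴ)
  have hW : W.IsHermitian := (hX.add hZ).sub (hY.add (isHermitian_mul_mul_conjTranspose T hZ))
  have haff : ∀ H : (Matrix (Fin n) (Fin n) ℂ), H.IsHermitian →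
      (W * H).trace.re + (τ * Y.trace.re - X.trace.re) ≤ -u := by
    intro H hH
    have h1 := hfA (c H) ⟨H, hH, rfl⟩
    have h2 := hrep _ _ _ (hh1 H hH) (hh2 H hH) (hh3 H hH)
    have h3 : (Z * (Tᴴ * H * T)).trace = (T * Z * Tᴴ * H).trace := by
      rw [← Matrix.mul_assoc Z, Matrix.trace_mul_comm _ T]
      simp only [Matrix.mul_assoc]
    simp only [Matrix.mul_sub, Matrix.mul_smul, Matrix.mul_one, Matrix.trace_sub,
      Matrix.trace_smul, Complex.sub_re, smul_eq_mul, Complex.re_ofReal_mul, h3] at h2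
    simp only [W, Matrix.sub_mul, Matrix.add_mul, Matrix.trace_sub, Matrix.trace_add,
      Complex.sub_re, Complex.add_re]
    have h4 : f (c H) = f (H - 1, (τ : ℂ) • (1 : (Matrix (Fin n) (Fin n) ℂ)) - H, H - Tᴴ * H * T) := rfl
    linarith
  have hW0 : W = 0 := by
    apply sdp_eq_zero_of_pairing hW
    have h0 : 0 ≤ (W * W).trace.re := by
      have h2 := (posSemidef_conjTranspose_mul_self W).trace_nonneg
      rw [Complex.le_def, hW.eq] at h2
      simpa using h2.1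
    have := hlim ((W * W).trace.re) (1 - u - (τ * Y.trace.re - X.trace.re)) fun t ht => by
      have h1 := haff (t⁻¹ • W) (hrs _ _ hW)
      simp only [Matrix.mul_smul, Matrix.trace_smul, Complex.real_smul,
        Complex.re_ofReal_mul] at h1
      have h2 := mul_le_mul_of_nonneg_left h1 ht.le
      simp only [mul_add, ← mul_assoc, mul_inv_cancel₀ ht.ne'] at h2
      nlinarith
    linarith
  refine ⟨X, Y, Z, hXp, hYp, hZp, sub_eq_zero.mp hW0, ?_, ?_⟩
  · have := haff 0 isHermitian_zero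
    simp at this
    linarith
  · rintro ⟨rfl, rfl, rfl⟩
    have h1 := hpos 0 0 0 PosSemidef.zero PosSemidef.zero PosSemidef.zero 1 one_pos
    have h2 := haff 0 isHermitian_zero
    simp at h1 h2
    linarith

end Crest.Agent.R132
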